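import Vale.Agent.P127.S.Glue

/-!
# P127 / S : extensions and copies (helper428)

* `Ex.trans` : composition of extensions
* `val_congr`, `tH_congr` : values depend only on the support and on the rounded time
* `Ex.copy P Y` : two copies `(ω, ω')` of the outcome, conditionally independent given the common value of `Y`;
  `π` = first copy, `Prod.snd` = second copy. `copy_law, copy_supp, copy_ex, copy_indep, copy_indep', copy_mi, copy_val`.
-/

set_option autoImplicit false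

namespace Vale.Agent.P127.S

open Vale.Agent.P127 Vale.Agent.P127.Stk Vale.Agent.P127.U

/-- composition of extensions -/
def Ex.trans {Ω : Type} [Fintype Ω] {P : Law Ω} (e : Ex P) (e' : Ex e.P') : Ex P where
  Ω' := e'.Ω'
  fin := e'.fin
  P' := e'.P'
  π := fun ω => e.π (e'.π ω)
  law := fun ω => by
    have h := pr_law_aux e'.P' e.P' e'.π e'.law e.π ω
    rw [e.law] at h
    exact h

theorem Ex.supp {Ω : Type} [Fintype Ω] {P : Law Ω} (e : Ex P) {ω : e.Ω'} (h : 0 < e.P'.w ω) : 0 < P.w (e.π ω) := by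
  rw [← e.law]
  exact e.P'.pr_pos e.π h

theorem Ex.ex_pull {Ω : Type} [Fintype Ω] {P : Law Ω} (e : Ex P) (f : Ω → ℝ) : e.P'.ex (e.pull f) = P.ex f :=
  ex_law_aux e.P' P e.π e.law f

theorem Ex.hc_pull {Ω : Type} [Fintype Ω] {P : Law Ω} (e : Ex P) {S T : Type*} (X : Ω → S) (Y : Ω → T) :
    hc e.P' (e.pull X) (e.pull Y) = hc P X Y :=
  hc_of_law e.P' P e.π e.law X Y

theorem Ex.H_pull {Ω : Type} [Fintype Ω] {P : Law Ω} (e : Ex P) {S : Type*} (X : Ω → S) :
    e.P'.H (e.pull X) = P.H X :=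
  H_law_aux e.P' P e.π e.law X

/-- the label depends on the rounded time only -/
theorem dl_time {a : ℕ} (A : Sh) (l : Ln) {t t' : ℝ} (h : fl1 a t = fl1 a t') : dl a A l t = dl a A l t' := by
  have h1 : X a l t = X a l t' := by
    unfold X qa
    rw [h]
  unfold dl
  rw [h, h1]

section

variable {Ω : Type} [Fintype Ω] {γ : Type*} {P : Law Ω}

theorem val_congr {lam : ℝ} {a : ℕ} {A A' : Ω → Sh} {l l' : Ω → Ln} {t t' : Ω → ℝ} {C C' : Ω → γ}
    (h : ∀ ω, 0 < P.w ω → A ω = A' ω ∧ l ω = l' ω ∧ fl1 a (t ω) = fl1 a (t' ω) ∧ C ω = C' ω) :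
    val lam P a A l t C = val lam P a A' l' t' C' := by
  have hd : ∀ ω, 0 < P.w ω → dl a (A ω) (l ω) (t ω) = dl a (A' ω) (l' ω) (t' ω) := by
    intro ω hω
    obtain ⟨h1, h2, h3, _⟩ := h ω hω
    rw [h1, h2]
    exact dl_time _ _ h3
  have e1 : hc P l (fun ω => (dl a (A ω) (l ω) (t ω), C ω)) = hc P l' (fun ω => (dl a (A' ω) (l' ω) (t' ω), C' ω)) := by
    refine hc_congr P ?_ ?_ ?_ ?_
    · intro ω ω' h1 h2 e
      have := congrArg Prod.fst e
      rw [(h ω h1).2.1, (h ω' h2).2.1]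
      exact this
    · intro ω ω' h1 h2 e
      have := congrArg Prod.fst e
      rw [← (h ω h1).2.1, ← (h ω' h2).2.1]
      exact this
    · intro ω ω' h1 h2 e
      simp only [Prod.mk.injEq] at e ⊢
      rw [hd ω h1, hd ω' h2, (h ω h1).2.2.2, (h ω' h2).2.2.2]
      exact e
    · intro ω ω' h1 h2 e
      simp only [Prod.mk.injEq] at e ⊢
      rw [← hd ω h1, ← hd ω' h2, ← (h ω h1).2.2.2, ← (h ω' h2).2.2.2]
      exact e
  have e2 : P.ex (fun ω => sc lam (A ω)) = P.ex fun ω => sc lam (A' ω) :=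
    P.ex_congr fun ω hω => by rw [(h ω hω).1]
  unfold val
  rw [e1, e2]

theorem tH_congr {a : ℕ} {l l' : Ω → Ln} {t t' : Ω → ℝ} {C C' : Ω → γ}
    (h : ∀ ω, 0 < P.w ω → l ω = l' ω ∧ fl1 a (t ω) = fl1 a (t' ω) ∧ C ω = C' ω) :
    tH P a l t C = tH P a l' t' C' := by
  unfold tH
  refine hc_congr P ?_ ?_ ?_ ?_
  · intro ω ω' h1 h2 e
    have := congrArg Prod.fst e
    show fl1 a (t ω) = fl1 a (t ω')
    rw [(h ω h1).2.1, (h ω' h2).2.1]
    exact this
  · intro ω ω' h1 h2 e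
    have := congrArg Prod.fst e
    show fl1 a (t' ω) = fl1 a (t' ω')
    rw [← (h ω h1).2.1, ← (h ω' h2).2.1]
    exact this
  · intro ω ω' h1 h2 e
    simp only [Prod.mk.injEq] at e ⊢
    rw [(h ω h1).1, (h ω' h2).1, (h ω h1).2.2, (h ω' h2).2.2]
    exact e
  · intro ω ω' h1 h2 e
    simp only [Prod.mk.injEq] at e ⊢
    rw [← (h ω h1).1, ← (h ω' h2).1, ← (h ω h1).2.2, ← (h ω' h2).2.2]
    exact e

/-- more information decreases the value -/
theorem val_mono {lam : ℝ} {a : ℕ} {A : Ω → Sh} {l : Ω → Ln} {t : Ω → ℝ} {C : Ω → γ} {δ : Type*} {C' : Ω → δ}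
    (h : Fn P C C') : val lam P a A l t C' ≤ val lam P a A l t C := by
  unfold val
  have := hc_mono_right P l (Y := fun ω => (dl a (A ω) (l ω) (t ω), C ω)) (Y' := fun ω => (dl a (A ω) (l ω) (t ω), C' ω)) (by
    intro ω ω' h1 h2 e
    simp only [Prod.mk.injEq] at e ⊢
    exact ⟨e.1, h ω ω' h1 h2 e.2⟩)
  linarith

end

/-! ### copies -/

/-- the law of two copies given `Y` -/
noncomputable def copyLaw {Ω : Type} [Fintype Ω] {α : Type*} (P : Law Ω) (Y : Ω → α) : Law (Ω × Ω) where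
  w p := P.w p.1 * (P.cond Y (Y p.1)).w p.2
  nn p := mul_nonneg (P.nn _) ((P.cond _ _).nn _)
  sum_one := by
    rw [Fintype.sum_prod_type]
    have : ∀ x : Ω, ∑ y, P.w x * (P.cond Y (Y x)).w y = P.w x := by
      intro x
      rw [← Finset.mul_sum, (P.cond Y (Y x)).sum_one, mul_one]
    simp only [this]
    exact P.sum_one

section copy

variable {Ω : Type} [Fintype Ω] {α : Type*} (P : Law Ω) (Y : Ω → α)

theorem copyLaw_symm (p : Ω × Ω) : (copyLaw P Y).w p = (copyLaw P Y).w (p.2, p.1) := by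
  classical
  show P.w p.1 * (P.cond Y (Y p.1)).w p.2 = P.w p.2 * (P.cond Y (Y p.2)).w p.1
  rcases (P.nn p.1).eq_or_lt with h1 | h1
  · rw [← h1, zero_mul]
    rcases (P.nn p.2).eq_or_lt with h2 | h2
    · rw [← h2, zero_mul]
    · rw [P.cond_w Y (Y p.2) (P.pr_pos Y h2), ← h1]
      simp
  · rcases (P.nn p.2).eq_or_lt with h2 | h2
    · rw [← h2, zero_mul, P.cond_w Y (Y p.1) (P.pr_pos Y h1), ← h2]
      simp
    · rw [P.cond_w Y (Y p.1) (P.pr_pos Y h1), P.cond_w Y (Y p.2) (P.pr_pos Y h2)]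
      by_cases h3 : Y p.2 = Y p.1
      · rw [if_pos h3, if_pos h3.symm, h3]
        ring
      · rw [if_neg h3, if_neg (fun e => h3 e.symm), mul_zero, mul_zero]

theorem copyLaw_ex (f : Ω × Ω → ℝ) :
    (copyLaw P Y).ex f = P.ex fun ω => (P.cond Y (Y ω)).ex fun ω' => f (ω, ω') := by
  unfold Law.ex copyLaw
  rw [Fintype.sum_prod_type]
  refine Finset.sum_congr rfl fun x _ => ?_
  rw [Finset.mul_sum]
  exact Finset.sum_congr rfl fun y _ => by ring

theorem copyLaw_fst (ω : Ω) : (copyLaw P Y).pr Prod.fst ω = P.w ω := by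
  classical
  rw [Law.pr_eq_ex, copyLaw_ex]
  have : ∀ x : Ω, (P.cond Y (Y x)).ex (fun _ => Law.ind (x = ω)) = Law.ind (x = ω) := fun x => Law.ex_const _ _
  simp only [this]
  rw [← Law.pr_eq_ex P (fun x => x) ω]
  exact pr_id P ω

/-- the two copies of the outcome -/
noncomputable def Ex.copy : Ex P := ⟨Ω × Ω, inferInstance, copyLaw P Y, Prod.fst, copyLaw_fst P Y⟩

theorem copy_supp {p : Ω × Ω} (h : 0 < (copyLaw P Y).w p) : 0 < P.w p.1 ∧ 0 < P.w p.2 ∧ Y p.2 = Y p.1 := by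
  classical
  have h0 : 0 < P.w p.1 * (P.cond Y (Y p.1)).w p.2 := h
  have h1 : 0 < P.w p.1 := by
    rcases (P.nn p.1).eq_or_lt with h1 | h1
    · rw [← h1, zero_mul] at h0
      exact absurd h0 (lt_irrefl 0)
    · exact h1
  have h2 : 0 < (P.cond Y (Y p.1)).w p.2 := by
    rcases ((P.cond Y (Y p.1)).nn p.2).eq_or_lt with h2 | h2
    · rw [← h2, mul_zero] at h0
      exact absurd h0 (lt_irrefl 0)
    · exact h2
  exact ⟨h1, JSB.cond_supp P Y _ h2, JSB.cond_supp' P Y _ (P.pr_pos Y h1) h2⟩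

theorem copyLaw_snd (ω : Ω) : (copyLaw P Y).pr Prod.snd ω = P.w ω := by
  classical
  rw [← copyLaw_fst P Y ω, Law.pr_eq_ex, Law.pr_eq_ex]
  unfold Law.ex
  rw [← Equiv.sum_comp (Equiv.prodComm Ω Ω)]
  refine Finset.sum_congr rfl fun p _ => ?_
  rw [copyLaw_symm P Y p]
  rfl

/-- the first copy is independent of the second one given `Y` -/
theorem copy_indep {S T : Type*} (X : Ω → S) (Z : Ω → T) :
    hc (copyLaw P Y) (fun p => X p.1) (fun p => (Z p.2, Y p.1)) = hc P X Y := by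
  refine indep_aux P (copyLaw P Y) Prod.fst Y (fun p => Z p.2) (fun s z => (P.cond Y s).pr Z z) (copyLaw_fst P Y) ?_ X
  intro ω y
  classical
  rw [Law.pr_eq_ex, copyLaw_ex]
  have h1 : ∀ x : Ω, (P.cond Y (Y x)).ex (fun ω' => Law.ind ((x, Z ω') = (ω, y))) =
      Law.ind (x = ω) * (P.cond Y (Y x)).pr Z y := by
    intro x
    rw [Law.pr_eq_ex, ← Law.ex_const_mul]
    congr 1
    funext ω'
    unfold Law.ind
    simp only [Prod.mk.injEq]
    by_cases h2 : x = ω <;> by_cases h3 : Z ω' = y <;> simp [h2, h3]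
  show P.ex (fun x => (P.cond Y (Y x)).ex fun ω' => Law.ind ((x, Z ω') = (ω, y))) = _
  simp only [h1]
  unfold Law.ex Law.ind
  rw [Finset.sum_eq_single ω]
  · simp
  · intro x _ hx
    simp [hx]
  · intro h
    exact absurd (Finset.mem_univ _) h

theorem copy_swap {S T : Type*} (X : Ω × Ω → S) (Z : Ω × Ω → T) :
    hc (copyLaw P Y) (fun p => X (p.2, p.1)) (fun p => Z (p.2, p.1)) = hc (copyLaw P Y) X Z := by
  refine hc_of_law (copyLaw P Y) (copyLaw P Y) (fun p => (p.2, p.1)) ?_ X Z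
  intro p
  classical
  rw [Law.pr_eq_ex]
  unfold Law.ex Law.ind
  rw [Finset.sum_eq_single (p.2, p.1)]
  · rw [copyLaw_symm P Y p]
    simp
  · rintro ⟨x, y⟩ _ hx
    have : ¬ ((y, x) = p) := by
      rintro rfl
      exact hx rfl
    simp [this]
  · intro h
    exact absurd (Finset.mem_univ _) h

/-- the second copy is independent of the first one given `Y` -/
theorem copy_indep' {S T : Type*} (X : Ω → S) (Z : Ω → T) :
    hc (copyLaw P Y) (fun p => X p.2) (fun p => (Z p.1, Y p.1)) = hc P X Y := by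
  rw [← copy_indep P Y X Z, ← copy_swap P Y (fun p => X p.1) (fun p => (Z p.2, Y p.1))]
  refine hc_congr (copyLaw P Y) (fun _ _ _ _ e => congrArg Prod.fst e) (fun _ _ _ _ e => congrArg Prod.fst e) ?_ ?_
  · intro p p' h1 h2 e
    simp only [Prod.mk.injEq] at e ⊢
    rw [← (copy_supp P Y h1).2.2, ← (copy_supp P Y h2).2.2]
    exact e
  · intro p p' h1 h2 e
    simp only [Prod.mk.injEq] at e ⊢
    rw [(copy_supp P Y h1).2.2, (copy_supp P Y h2).2.2]
    exact e

/-- no mutual information given `Y` -/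
theorem copy_mi {S T : Type*} (X : Ω → S) (Z : Ω → T) :
    mi (copyLaw P Y) (fun p => X p.1) (fun p => Z p.2) (fun p => Y p.1) = 0 := by
  unfold mi
  rw [copy_indep]
  have : hc (copyLaw P Y) (fun p => X p.1) (fun p => Y p.1) = hc P X Y :=
    hc_of_law (copyLaw P Y) P Prod.fst (copyLaw_fst P Y) X Y
  rw [this, sub_self]

/-- entropies of the second copy -/
theorem copy_hc_snd {S T : Type*} (X : Ω → S) (Z : Ω → T) :
    hc (copyLaw P Y) (fun p => X p.2) (fun p => Z p.2) = hc P X Z :=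
  hc_of_law (copyLaw P Y) P Prod.snd (copyLaw_snd P Y) X Z

theorem copy_ex_snd (f : Ω → ℝ) : (copyLaw P Y).ex (fun p => f p.2) = P.ex f :=
  ex_law_aux (copyLaw P Y) P Prod.snd (copyLaw_snd P Y) f

/-- value of the second copy -/
theorem copy_val {γ : Type} (lam : ℝ) (a : ℕ) (A : Ω → Sh) (l : Ω → Ln) (t : Ω → ℝ) (C : Ω → γ) :
    val lam (copyLaw P Y) a (fun p => A p.2) (fun p => l p.2) (fun p => t p.2) (fun p => C p.2) = val lam P a A l t C := by
  unfold val
  congr 1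
  · exact copy_hc_snd P Y l (fun ω => (dl a (A ω) (l ω) (t ω), C ω))
  · congr 1
    exact copy_ex_snd P Y fun ω => sc lam (A ω)

/-- **copies given the line, `C` and the state** : the second label is a label of the first line -/
theorem copy_val' {γ : Type} (lam : ℝ) (a : ℕ) (A : Ω → Sh) (l : Ω → Ln) (t : Ω → ℝ) (C : Ω → γ)
    (hl : Fn P l Y) (hC : Fn P C Y) (ht : Fn P (fun ω => fl1 a (t ω)) Y) :
    val lam (copyLaw P Y) a (fun p => A p.2) (fun p => l p.1) (fun p => t p.1) (fun p => C p.1) =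
      val lam P a A l t C := by
  rw [← copy_val P Y lam a A l t C]
  refine val_congr ?_
  intro p hp
  obtain ⟨h1, h2, h3⟩ := copy_supp P Y hp
  exact ⟨rfl, hl _ _ h1 h2 h3.symm, ht _ _ h1 h2 h3.symm, hC _ _ h1 h2 h3.symm⟩

end copy

end Vale.Agent.P127.S
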