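import Vale.Agent.P127.S.Blocks

/-!
# P127 / S : expectations of the increments in block STEP (helper933)

`ex_step` : the average over the values `x` of `z = ((A.p, A.r), g)` of the increments of WIN and LIPS
for the conditional laws `P.cond z x` is the right-hand side of `PStep`.
-/

set_option autoImplicit false

namespace Vale.Agent.P127.S.StepEx

open Finset Vale.Agent.P127 Vale.Agent.P127.Stk Vale.Agent.P127.U

section fin

variable {Ω : Type} [Fintype Ω] {A T U V W : Type*}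

theorem hc_cond_sum (P : Law Ω) (X : Ω → A) (Y : Ω → T) (Z : Ω → V) :
    Stk.hc P X (fun ω => (Y ω, Z ω)) = ∑ z ∈ img Z, P.pr Z z * Stk.hc (P.cond Z z) X Y := by
  have h1 := P.H_cond_eq (fun ω => (X ω, Y ω)) Z
  have h2 := P.H_cond_eq Y Z
  have h3 : P.H (fun ω => (X ω, (Y ω, Z ω))) = P.H (fun ω => ((X ω, Y ω), Z ω)) :=
    P.H_congr fun ω ω' => by
      simp only [Prod.mk.injEq]
      tauto
  have h4 : ∑ z ∈ img Z, P.pr Z z * Stk.hc (P.cond Z z) X Y =
      ∑ z ∈ img Z, P.pr Z z * (P.cond Z z).H (fun ω => (X ω, Y ω)) -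
        ∑ z ∈ img Z, P.pr Z z * (P.cond Z z).H Y := by
    rw [← Finset.sum_sub_distrib]
    refine Finset.sum_congr rfl fun z _ => ?_
    unfold Stk.hc
    ring
  rw [h4, ← h1, ← h2]
  unfold Stk.hc
  rw [h3]
  ring

/-- `H(X | Y, Z)` is the average of `H(X | Y)` for the conditional laws -/
theorem ex_hc (P : Law Ω) (X : Ω → A) (Y : Ω → T) (Z : Ω → V) :
    P.ex (fun ω => Stk.hc (P.cond Z (Z ω)) X Y) = Stk.hc P X (fun ω => (Y ω, Z ω)) := by
  rw [hc_cond_sum, P.ex_comp Z fun z => Stk.hc (P.cond Z z) X Y]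

theorem ex_cond_sum (P : Law Ω) (f : Ω → ℝ) (C : Ω → V) :
    ∑ z ∈ img C, P.pr C z * (P.cond C z).ex f = P.ex f := by
  classical
  unfold Law.ex
  simp only [Finset.mul_sum]
  rw [Finset.sum_comm]
  refine Finset.sum_congr rfl fun ω _ => ?_
  rw [Finset.sum_eq_single (C ω)]
  · rcases (P.pr_nonneg C (C ω)).eq_or_lt with h0 | h0
    · have h1 := P.w_le_pr C ω
      rw [← h0] at h1
      rw [← h0, zero_mul, le_antisymm h1 (P.nn ω), zero_mul]
    · rw [P.cond_w C (C ω) h0, if_pos rfl]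
      field_simp
  · intro z _ hz
    rcases (P.pr_nonneg C z).eq_or_lt with h0 | h0
    · rw [← h0, zero_mul]
    · rw [P.cond_w C z h0, if_neg (Ne.symm hz), zero_mul, mul_zero]
  · intro h
    exact absurd (mem_img.2 ⟨ω, rfl⟩) h

/-- tower property -/
theorem ex_tower (P : Law Ω) (f : Ω → ℝ) (C : Ω → V) :
    P.ex (fun ω => (P.cond C (C ω)).ex f) = P.ex f := by
  rw [P.ex_comp C fun z => (P.cond C z).ex f]
  exact ex_cond_sum P f C

theorem cond_supp {P : Law Ω} {C : Ω → V} {z : V} (hz : 0 < P.pr C z) {ω : Ω}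
    (h : 0 < (P.cond C z).w ω) : 0 < P.w ω ∧ C ω = z := by
  classical
  rw [P.cond_w C z hz] at h
  split_ifs at h with h1
  · refine ⟨?_, h1⟩
    by_contra hcon
    have h0 : P.w ω = 0 := le_antisymm (not_lt.1 hcon) (P.nn ω)
    rw [h0, zero_div] at h
    exact lt_irrefl _ h
  · exact absurd h (lt_irrefl _)

/-- the same event gives the same conditional law -/
theorem cond_event {P : Law Ω} {Z : Ω → U} {Z' : Ω → V} {z : U} {z' : V}
    (h : ∀ ω, Z ω = z ↔ Z' ω = z') : P.cond Z z = P.cond Z' z' := by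
  classical
  have hp : P.pr Z z = P.pr Z' z' := by
    unfold Law.pr
    refine Finset.sum_congr ?_ fun _ _ => rfl
    ext ω
    simp [h ω]
  by_cases h0 : 0 < P.pr Z z
  · refine law_ext fun ω => ?_
    rw [P.cond_w Z z h0, P.cond_w Z' z' (hp ▸ h0), hp]
    by_cases h1 : Z ω = z
    · rw [if_pos h1, if_pos ((h ω).1 h1)]
    · rw [if_neg h1, if_neg fun h2 => h1 ((h ω).2 h2)]
  · unfold Law.cond
    rw [dif_neg h0, dif_neg (hp ▸ h0)]

/-- conditioning twice -/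
theorem cond_cond {P : Law Ω} {Z : Ω → V} {Y : Ω → T} {ω : Ω} (h : 0 < P.w ω) :
    (P.cond Z (Z ω)).cond Y (Y ω) = P.cond (fun ω => (Y ω, Z ω)) (Y ω, Z ω) := by
  classical
  have h1 : 0 < P.pr Z (Z ω) := P.pr_pos Z h
  have h2 : 0 < P.pr (fun ω => (Y ω, Z ω)) (Y ω, Z ω) := P.pr_pos (fun ω => (Y ω, Z ω)) h
  have h3 : (P.cond Z (Z ω)).pr Y (Y ω) =
      P.pr (fun ω => (Y ω, Z ω)) (Y ω, Z ω) / P.pr Z (Z ω) := P.cond_pr Z (Z ω) h1 Y (Y ω)
  have h4 : 0 < (P.cond Z (Z ω)).pr Y (Y ω) := h3 ▸ div_pos h2 h1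
  refine law_ext fun ω' => ?_
  rw [(P.cond Z (Z ω)).cond_w Y (Y ω) h4, P.cond_w Z (Z ω) h1,
    P.cond_w (fun ω => (Y ω, Z ω)) (Y ω, Z ω) h2, h3]
  by_cases hy : Y ω' = Y ω
  · by_cases hz : Z ω' = Z ω
    · rw [if_pos hy, if_pos hz, if_pos (by rw [hy, hz])]
      field_simp
    · rw [if_pos hy, if_neg hz, if_neg (fun e => hz (Prod.mk.injEq _ _ _ _ ▸ e).2), zero_div]
  · rw [if_neg hy, if_neg (fun e => hy (Prod.mk.injEq _ _ _ _ ▸ e).1)]

/-- the adjacency probability, conditional laws -/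
theorem ex_adj {T : Type} (P : Law Ω) (X : Ω → ℤ) (Y : Ω → T) (Z : Ω → V) (G : Ω → U) (g : Ω → Bool)
    (hg : ∀ ω ω', Z ω = Z ω' → g ω = g ω')
    (hG : ∀ ω ω', G ω = G ω' ↔ (Y ω = Y ω' ∧ Z ω = Z ω')) :
    P.ex (fun ω => if g ω then adj (P.cond Z (Z ω)) X Y else 0) =
      P.ex (fun ω => if g ω then (P.cond G (G ω)).ex
        (fun ω' => if |X ω - X ω'| ≤ 1 then (1:ℝ) else 0) else 0) := by
  classical
  rw [← ex_tower P (fun ω => if g ω then (P.cond G (G ω)).ex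
        (fun ω' => if |X ω - X ω'| ≤ 1 then (1:ℝ) else 0) else 0) Z]
  refine P.ex_congr fun ω hω => ?_
  have hz := P.pr_pos Z hω
  by_cases hgo : g ω = true
  · rw [if_pos hgo]
    unfold adj
    refine Law.ex_congr _ fun ω₁ h1 => ?_
    obtain ⟨h2, h3⟩ := cond_supp hz h1
    rw [if_pos ((hg ω₁ ω h3).trans hgo), ← h3, cond_cond h2]
    congr 1
    exact cond_event fun ω' => by
      simp only [Prod.mk.injEq]
      exact (hG ω' ω₁).symm
  · rw [if_neg hgo]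
    refine (Law.ex_const (P.cond Z (Z ω)) 0).symm.trans (Law.ex_congr _ fun ω₁ h1 => ?_)
    obtain ⟨h2, h3⟩ := cond_supp hz h1
    rw [if_neg fun e => hgo ((hg ω₁ ω h3).symm.trans e)]

/-- the time entropy, conditional laws -/
theorem ex_time (P : Law Ω) (X : Ω → ℤ) (Y : Ω → T) (Z : Ω → V) (G : Ω → U) (g : Ω → Bool)
    (hg : ∀ ω ω', Z ω = Z ω' → g ω = g ω')
    (hG : ∀ ω ω', G ω = G ω' ↔ (Y ω = Y ω' ∧ Z ω = Z ω')) :
    P.ex (fun ω => if g ω then 0 else Stk.hc (P.cond Z (Z ω)) X Y) =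
      Stk.hc P (fun ω => if g ω then (0:ℤ) else X ω) G := by
  classical
  have e1 : Stk.hc P (fun ω => if g ω then (0:ℤ) else X ω) G =
      Stk.hc P (fun ω => if g ω then (0:ℤ) else X ω) (fun ω => (Y ω, Z ω)) :=
    hc_congr P (fun ω ω' _ _ e => (Prod.mk.injEq _ _ _ _ ▸ e).1)
      (fun ω ω' _ _ e => (Prod.mk.injEq _ _ _ _ ▸ e).1)
      (fun ω ω' _ _ e => (hG ω ω').2 (Prod.mk.injEq _ _ _ _ ▸ e))
      (fun ω ω' _ _ e => by
        have := (hG ω ω').1 e
        exact Prod.ext this.1 this.2)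
  rw [e1, ← ex_hc]
  refine P.ex_congr fun ω hω => ?_
  have hz := P.pr_pos Z hω
  by_cases hgo : g ω = true
  · rw [if_pos hgo, hc_zero]
    intro ω₁ ω₂ h1 h2 _
    obtain ⟨_, h3⟩ := cond_supp hz h1
    obtain ⟨_, h4⟩ := cond_supp hz h2
    beta_reduce
    rw [if_pos ((hg ω₁ ω h3).trans hgo), if_pos ((hg ω₂ ω h4).trans hgo)]
  · rw [if_neg hgo]
    refine hc_congr _ ?_ ?_ (fun ω₁ ω₂ _ _ e => e) (fun ω₁ ω₂ _ _ e => e)
    · intro ω₁ ω₂ h1 h2 e
      obtain ⟨_, h3⟩ := cond_supp hz h1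
      obtain ⟨_, h4⟩ := cond_supp hz h2
      have e1 := (Prod.mk.injEq _ _ _ _ ▸ e).1
      rwa [if_neg (by rw [hg ω₁ ω h3]; exact hgo), if_neg (by rw [hg ω₂ ω h4]; exact hgo)] at e1
    · intro ω₁ ω₂ h1 h2 e
      obtain ⟨_, h3⟩ := cond_supp hz h1
      obtain ⟨_, h4⟩ := cond_supp hz h2
      have e1 := (Prod.mk.injEq _ _ _ _ ▸ e).1
      beta_reduce
      rw [if_neg (by rw [hg ω₁ ω h3]; exact hgo), if_neg (by rw [hg ω₂ ω h4]; exact hgo)]
      exact e1

/-- the average of the increments of WIN (`g = false`) and LIPS (`g = true`), general form -/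
theorem ex_incr {T : Type} (P : Law Ω) (X X' : Ω → ℤ) (Y : Ω → T) (Z : Ω → V) (G : Ω → U) (g : Ω → Bool)
    (hg : ∀ ω ω', Z ω = Z ω' → g ω = g ω')
    (hG : ∀ ω ω', G ω = G ω' ↔ (Y ω = Y ω' ∧ Z ω = Z ω')) (u κ b N s : ℝ) :
    P.ex (fun ω => if g ω then (u - (1 - adj (P.cond Z (Z ω)) X Y) * κ) * s
        else b - N * Stk.hc (P.cond Z (Z ω)) X' Y) =
      P.ex (fun ω => if g ω then (u - (1 - (P.cond G (G ω)).ex
        (fun ω' => if |X ω - X ω'| ≤ 1 then (1:ℝ) else 0)) * κ) * s else b) -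
        N * Stk.hc P (fun ω => if g ω then (0:ℤ) else X' ω) G := by
  have e1 := ex_adj P X Y Z G g hg hG
  have e2 := ex_time P X' Y Z G g hg hG
  have e3 : P.ex (fun ω => if g ω then (u - (1 - adj (P.cond Z (Z ω)) X Y) * κ) * s
        else b - N * Stk.hc (P.cond Z (Z ω)) X' Y) =
      P.ex (fun ω => if g ω then (u - κ) * s else b) +
        (κ * s) * P.ex (fun ω => if g ω then adj (P.cond Z (Z ω)) X Y else 0) -
        N * P.ex (fun ω => if g ω then 0 else Stk.hc (P.cond Z (Z ω)) X' Y) := by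
    rw [← P.ex_const_mul, ← P.ex_const_mul, ← P.ex_add, ← P.ex_sub]
    refine P.ex_congr fun ω _ => ?_
    split_ifs <;> ring
  have e4 : P.ex (fun ω => if g ω then (u - (1 - (P.cond G (G ω)).ex
        (fun ω' => if |X ω - X ω'| ≤ 1 then (1:ℝ) else 0)) * κ) * s else b) =
      P.ex (fun ω => if g ω then (u - κ) * s else b) +
        (κ * s) * P.ex (fun ω => if g ω then (P.cond G (G ω)).ex
          (fun ω' => if |X ω - X ω'| ≤ 1 then (1:ℝ) else 0) else 0) := by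
    rw [← P.ex_const_mul, ← P.ex_add]
    refine P.ex_congr fun ω _ => ?_
    split_ifs <;> ring
  rw [e3, e4, e1, e2]

/-- the average of the increments in the form of `PStep` -/
theorem ex_step (P : Law Ω) (l : Ω → Ln) (t V' : Ω → ℝ) (A : Ω → Sh) (a w ρ ρ' m : ℕ)
    (g : Ω → Bool) (N lam b : ℝ) :
    P.ex (fun ω => if g ω then
        (2 * w - (1 - adj (P.cond (fun ω => (((A ω).p, (A ω).r), g ω)) (((A ω).p, (A ω).r), g ω))
          (fun ω => fl1 (ρ + m) (V' ω)) (fun ω => (l ω, (fl1 a (t ω), fl1 ρ (V' ω))))) *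
            (lam * ((ρ':ℝ) - ρ) - m)) * Real.log 2
        else b + N * (w * Real.log 2 -
          tH (P.cond (fun ω => (((A ω).p, (A ω).r), g ω)) (((A ω).p, (A ω).r), g ω)) (a + w) l t
            (fun ω => (fl1 a (t ω), fl1 ρ (V' ω))))) =
      P.ex (fun ω => if g ω then
            (2 * w - (1 - (P.cond
                (fun ω => (l ω, (fl1 a (t ω), fl1 ρ (V' ω)), ((A ω).p, (A ω).r), g ω))
                (l ω, (fl1 a (t ω), fl1 ρ (V' ω)), ((A ω).p, (A ω).r), g ω)).ex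
                  (fun ω' => if |fl1 (ρ + m) (V' ω) - fl1 (ρ + m) (V' ω')| ≤ 1
                    then (1:ℝ) else 0)) *
              (lam * ((ρ':ℝ) - ρ) - m)) * Real.log 2
          else b + N * (w * Real.log 2)) -
        N * hc P (fun ω => if g ω then (0:ℤ) else fl1 (a + w) (t ω))
          (fun ω => (l ω, (fl1 a (t ω), fl1 ρ (V' ω)), ((A ω).p, (A ω).r), g ω)) := by
  rw [← ex_incr P (fun ω => fl1 (ρ + m) (V' ω)) (fun ω => fl1 (a + w) (t ω))
    (fun ω => (l ω, (fl1 a (t ω), fl1 ρ (V' ω)))) (fun ω => (((A ω).p, (A ω).r), g ω))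
    (fun ω => (l ω, (fl1 a (t ω), fl1 ρ (V' ω)), ((A ω).p, (A ω).r), g ω)) g
    (fun ω ω' e => (Prod.mk.injEq _ _ _ _ ▸ e).2)
    (fun ω ω' => by
      simp only [Prod.mk.injEq]
      tauto) (2 * w) (lam * ((ρ':ℝ) - ρ) - m) (b + N * (w * Real.log 2)) N (Real.log 2)]
  refine P.ex_congr fun ω _ => ?_
  unfold tH
  split_ifs <;> ring

end fin

end Vale.Agent.P127.S.StepEx
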