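import Vale.Agent.P127.S.Blocks
import Vale.Agent.P127.Stk.LibEnt
import Vale.Agent.P127.Stk.LibDom

/-!
# P127 / S : invariance under extensions, splitting along a variable (helper14)

`pInv : PInv` and `pSplit : PSplit`.
-/

set_option autoImplicit false

namespace Vale.Agent.P127.S

open Finset Vale.Agent.P127 Vale.Agent.P127.Stk Vale.Agent.P127.U

namespace Glue14

section inv

variable {Ω : Type} [Fintype Ω] {P : Law Ω} {S T : Type*}

theorem push_eq (e : Ex P) : push e.P' e.π = P := law_ext fun ω => by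
  rw [push_w]; exact e.law ω

theorem inv_ex (e : Ex P) (f : Ω → ℝ) : e.P'.ex (e.pull f) = P.ex f := by
  have h := push_ex e.P' e.π f
  rw [push_eq e] at h
  exact h.symm

theorem inv_H (e : Ex P) (X : Ω → S) : e.P'.H (e.pull X) = P.H X := by
  have h := push_H e.P' e.π X
  rw [push_eq e] at h
  exact h.symm

theorem inv_hc (e : Ex P) (X : Ω → S) (Y : Ω → T) :
    hc e.P' (e.pull X) (e.pull Y) = hc P X Y := by
  have h := push_hc e.P' e.π X Y
  rw [push_eq e] at h
  exact h.symm

/-- the image of a point of positive mass has positive mass -/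
theorem pos_π (e : Ex P) {ω : e.Ω'} (h : 0 < e.P'.w ω) : 0 < P.w (e.π ω) := by
  rw [← e.law (e.π ω)]
  exact e.P'.pr_pos e.π h

end inv

section split

variable {Ω : Type} [Fintype Ω] (P : Law Ω) {S T : Type*} {α : Type*}

/-- tower property of the conditional expectations -/
theorem ex_cond (z : Ω → α) (f : Ω → ℝ) : P.ex (fun ω => (P.cond z (z ω)).ex f) = P.ex f := by
  classical
  rw [P.ex_comp z (fun x => (P.cond z x).ex f)]
  unfold Law.ex
  rw [← Finset.sum_fiberwise_of_maps_to (g := z) (t := img z) (by simp)]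
  refine Finset.sum_congr rfl fun x _ => ?_
  rcases (P.pr_nonneg z x).eq_or_lt with h0 | h0
  · rw [← h0, zero_mul]
    refine (Finset.sum_eq_zero fun ω hω => ?_).symm
    have hω' : z ω = x := by simpa using hω
    have : P.w ω ≤ 0 := by
      have := P.w_le_pr z ω
      rwa [hω', ← h0] at this
    rw [le_antisymm this (P.nn ω), zero_mul]
  · simp only [P.cond_w z x h0, ite_mul, zero_mul]
    rw [← Finset.sum_filter, Finset.mul_sum]
    refine Finset.sum_congr rfl fun ω _ => ?_
    field_simp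

theorem H_cond (z : Ω → α) (X : Ω → S) :
    P.ex (fun ω => (P.cond z (z ω)).H X) = P.H (fun ω => (X ω, z ω)) - P.H z := by
  rw [P.H_cond_eq, P.ex_comp z (fun x => (P.cond z x).H X)]

theorem hc_cond (z : Ω → α) (X : Ω → S) (Y : Ω → T) :
    P.ex (fun ω => hc (P.cond z (z ω)) X Y) = hc P X (fun ω => (Y ω, z ω)) := by
  unfold hc
  rw [P.ex_sub, H_cond, H_cond]
  have h : P.H (fun ω => ((X ω, Y ω), z ω)) = P.H (fun ω => (X ω, Y ω, z ω)) := by
    refine P.H_congr fun ω ω' => ?_
    simp only [Prod.mk.injEq]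
    tauto
  rw [h]
  ring

theorem hc_swap (z : Ω → α) (X : Ω → S) (Y : Ω → T) :
    hc P X (fun ω => (z ω, Y ω)) = hc P X (fun ω => (Y ω, z ω)) := by
  refine hc_congr P ?_ ?_ ?_ ?_
  · intro ω ω' _ _ e
    exact congrArg Prod.fst e
  · intro ω ω' _ _ e
    exact congrArg Prod.fst e
  · intro ω ω' _ _ e
    simp only [Prod.mk.injEq] at e ⊢
    exact ⟨e.2, e.1⟩
  · intro ω ω' _ _ e
    simp only [Prod.mk.injEq] at e ⊢
    exact ⟨e.2, e.1⟩

/-- `H(X|Y) ≤ H(X|Y,z) + H(z|Y)` -/
theorem hc_split (z : Ω → α) (X : Ω → S) (Y : Ω → T) :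
    hc P X Y ≤ hc P X (fun ω => (Y ω, z ω)) + hc P z Y := by
  have h := hc_le_add' P X z Y
  rwa [hc_swap] at h

end split

end Glue14

open Glue14

/-- values and time entropies do not change on extensions -/
theorem pInv : PInv := by
  intro lam Ω _ P e l t γ C a A
  constructor
  · have h1 := inv_hc e l (fun ω => (dl a (A ω) (l ω) (t ω), C ω))
    have h2 := inv_ex e (fun ω => sc lam (A ω))
    unfold val
    rw [← h1, ← h2]
    rfl
  · exact inv_hc e (fun ω => fl1 a (t ω)) (fun ω => (l ω, C ω))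

/-- average of the values of the conditional laws -/
theorem val_cond (lam : ℝ) {Ω : Type} [Fintype Ω] (P : Law Ω) (l : Ω → Ln) (t : Ω → ℝ)
    {γ : Type*} (C : Ω → γ) (a : ℕ) (A : Ω → Sh) {α : Type*} (z : Ω → α) :
    P.ex (fun ω => val lam (P.cond z (z ω)) a A l t C) =
      hc P l (fun ω => ((dl a (A ω) (l ω) (t ω), C ω), z ω)) +
        Real.log 2 * P.ex fun ω => sc lam (A ω) := by
  unfold val
  rw [P.ex_add, P.ex_const_mul, ex_cond, hc_cond]

/-- splitting of a value along a variable; time entropy too -/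
theorem pSplit : PSplit := by
  intro lam Ω _ P l t γ C a A α z
  refine ⟨?_, ?_, ?_, ?_⟩
  · rw [val_cond]
    unfold val
    have h := hc_split P z l (fun ω => (dl a (A ω) (l ω) (t ω), C ω))
    linarith
  · rw [val_cond]
    unfold val
    have h := hc_mono_right P l (Y := fun ω => (dl a (A ω) (l ω) (t ω), C ω))
      (Y' := fun ω => ((dl a (A ω) (l ω) (t ω), C ω), z ω))
      (fun ω ω' _ _ e => congrArg Prod.fst e)
    linarith
  · unfold tH
    rw [hc_cond]
    exact hc_split P z _ _
  · unfold tH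
    rw [hc_cond]
    refine hc_congr P ?_ ?_ ?_ ?_
    · intro ω ω' _ _ e
      exact congrArg Prod.fst e
    · intro ω ω' _ _ e
      exact congrArg Prod.fst e
    · intro ω ω' _ _ e
      simp only [Prod.mk.injEq] at e ⊢
      exact ⟨⟨e.1, e.2.1⟩, e.2.2⟩
    · intro ω ω' _ _ e
      simp only [Prod.mk.injEq] at e ⊢
      exact ⟨e.1.1, e.1.2, e.2⟩

end Vale.Agent.P127.S
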