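import Vale.Agent.P127.S.Blocks

/-!
# P127 / S : extension of labels and the best rate (helper724)

`pExt_of : PCmp → PExt`, `pBeta_of : PExt → PBeta`.
-/

set_option autoImplicit false

namespace Vale.Agent.P127.S

open Vale.Agent.P127 Vale.Agent.P127.Stk Vale.Agent.P127.U

namespace B724

/-- the trivial extension -/
noncomputable def exId {Ω : Type} [Fintype Ω] (P : Law Ω) : Ex P where
  Ω' := Ω
  fin := inferInstance
  P' := P
  π := fun ω => ω
  law := fun ω => by
    classical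
    unfold Law.pr
    rw [Finset.sum_filter, Finset.sum_ite_eq' Finset.univ ω]
    simp

end B724

theorem pExt_of (hC : PCmp) : PExt := by
  obtain ⟨c, hc0, hC⟩ := hC
  refine ⟨c, hc0, ?_⟩
  intro lam hl0 hl1 Ω _ P l t γ C a w A hA
  set J : Ω → Sh := fun ω => ⟨(A ω).p - w, (A ω).r - w, (A ω).v⟩ with hJ
  have h1 := hC Ω P l t γ C a w A J (by
    intro ω hω
    obtain ⟨h1, h2⟩ := hA ω hω
    refine ⟨?_, ?_, ?_, ?_, h2, ?_⟩
    · simp only [hJ]; omega
    · simp only [hJ]; omega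
    · simp only [hJ]; omega
    · simp only [hJ]; omega
    · simp only [hJ, sub_self, abs_zero]; positivity)
  -- the condition of `hC` is a function of the label of `A`
  have h2 : hc P (fun ω => dl a (J ω) (l ω) (t ω)) (fun ω => (dl (a + w) (A ω) (l ω) (t ω), C ω))
      ≤ c := by
    refine le_trans (hc_mono_right P _ ?_) h1
    intro ω ω' hω hω' e
    simp only [Prod.mk.injEq] at e
    obtain ⟨e1, e2⟩ := e
    simp only [Prod.mk.injEq]
    refine ⟨e1, ?_, e2⟩
    unfold dl at e1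
    simp only [Prod.mk.injEq] at e1
    obtain ⟨ep, er, -, ev, -⟩ := e1
    obtain ⟨a1, a2⟩ := hA ω hω
    have e3 : (J ω).r - (J ω).p = (A ω).r - (A ω).p := by simp only [hJ]; omega
    obtain ⟨b1, b2⟩ := hA ω' hω'
    have e4 : (J ω').r - (J ω').p = (A ω').r - (A ω').p := by simp only [hJ]; omega
    refine ⟨?_, ?_, ?_⟩
    · simp only [hJ, ep]
    · simp only [hJ, er]
    · rw [e3, e4]
      exact ev
  have h3 : hc P l (fun ω => (dl (a + w) (A ω) (l ω) (t ω), C ω)) ≤
      hc P l (fun ω => (dl a (J ω) (l ω) (t ω), C ω)) + c := by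
    have h4 := hc_le_add' P l (fun ω => dl a (J ω) (l ω) (t ω))
      (fun ω => (dl (a + w) (A ω) (l ω) (t ω), C ω))
    have h5 : hc P l (fun ω => (dl a (J ω) (l ω) (t ω), dl (a + w) (A ω) (l ω) (t ω), C ω)) ≤
        hc P l (fun ω => (dl a (J ω) (l ω) (t ω), C ω)) := by
      refine hc_mono_right P l ?_
      intro ω ω' _ _ e
      simp only [Prod.mk.injEq] at e ⊢
      exact ⟨e.1, e.2.2⟩
    linarith
  have h6 : P.ex (fun ω => sc lam (A ω)) = P.ex (fun ω => sc lam (J ω)) + 2 * w := by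
    have h7 : P.ex (fun ω => sc lam (A ω)) = P.ex (fun ω => sc lam (J ω) + 2 * w) := by
      refine P.ex_congr fun ω hω => ?_
      obtain ⟨a1, a2⟩ := hA ω hω
      have b1 : (((A ω).p - w : ℕ) : ℝ) = (A ω).p - w := by
        rw [Nat.cast_sub (by omega)]
      have b2 : (((A ω).r - w : ℕ) : ℝ) = (A ω).r - w := by
        rw [Nat.cast_sub (by omega)]
      simp only [sc, hJ, b1, b2]
      ring
    rw [h7, P.ex_add, P.ex_const]
  unfold val
  rw [h6]
  have h8 : Real.log 2 * (P.ex (fun ω => sc lam (J ω)) + 2 * w) =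
      Real.log 2 * P.ex (fun ω => sc lam (J ω)) + 2 * w * Real.log 2 := by ring
  rw [h8]
  linarith

/-- the rate only matters through an upper bound -/
theorem FB.mono {N lam : ℝ} {w : ℕ} {b b' : ℝ} (h : FB N lam w b) (hb : b ≤ b') :
    FB N lam w b' := by
  intro Ω _ P l t γ C W p r ht hw hW
  obtain ⟨e, A, h1, h2⟩ := h Ω P l t γ C W p r ht hw hW
  exact ⟨e, A, h1, by linarith⟩

/-- the entropy of the time digits -/
theorem tH_le {Ω : Type} [Fintype Ω] {γ : Type*} (P : Law Ω) (w : ℕ) (l : Ω → Ln) (t : Ω → ℝ)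
    (C : Ω → γ) (ht : T01 P t) : tH P w l t C ≤ w * Real.log 2 := by
  unfold tH
  have h1 : hc P (fun ω => fl1 w (t ω)) (fun ω => (l ω, C ω)) ≤ Real.log ((2 ^ w : ℕ) : ℝ) := by
    refine hc_le_log P _ _ _ fun ω hω => ⟨Finset.Ico (0 : ℤ) (2 ^ w), ?_, ?_⟩
    · rw [Int.card_Ico]
      simp
    · intro ω' hω' _
      obtain ⟨h0, h1⟩ := ht ω' hω'
      rw [Finset.mem_Ico]
      unfold fl1
      have hp : (0:ℝ) < 2 ^ w := by positivity
      constructor
      · exact Int.floor_nonneg.2 (by positivity)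
      · rw [Int.floor_lt]
        push_cast
        nlinarith
  refine h1.trans (le_of_eq ?_)
  push_cast
  rw [Real.log_pow]

theorem FB_two {N lam : ℝ} (hN : 0 ≤ N) (h0 : 0 ≤ lam) (h1 : lam ≤ 1) (hE : PExt) :
    ∃ c : ℝ, 0 ≤ c ∧ ∀ w : ℕ, FB N lam w (2 * w * Real.log 2 + c) := by
  obtain ⟨c, hc0, hE⟩ := hE
  refine ⟨c, hc0, fun w => ?_⟩
  intro Ω _ P l t γ C W p r ht hw hW
  refine ⟨B724.exId P, fun ω => ⟨(W ω).p - w, (W ω).r - w, (W ω).v⟩, ?_, ?_⟩
  · intro ω hω
    obtain ⟨h2, h3, h4, h5, h6, h7, h8, h9⟩ := hW ω hω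
    refine ⟨?_, ?_, ?_, h7, h8, h9⟩
    · simp only
      rw [h2]
      omega
    · simp only
      omega
    · simp only
      omega
  · have h2 := hE lam h0 h1 Ω P l t γ C 0 w W (by
      intro ω hω
      obtain ⟨h2, h3, h4, h5, h6, h7, h8, h9⟩ := hW ω hω
      refine ⟨by omega, by omega⟩)
    rw [zero_add] at h2
    have h3 := tH_le P w l t C ht
    have h4 : 0 ≤ N * (w * Real.log 2 - tH P w l t C) := mul_nonneg hN (by linarith)
    have h5 : val lam (B724.exId P).P' 0 (fun ω => (⟨(W ω).p - w, (W ω).r - w, (W ω).v⟩ : Sh))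
        ((B724.exId P).pull l) ((B724.exId P).pull t) ((B724.exId P).pull C) =
      val lam P 0 (fun ω => (⟨(W ω).p - w, (W ω).r - w, (W ω).v⟩ : Sh)) l t C := rfl
    linarith

theorem pBeta_of (hE : PExt) : PBeta := by
  intro N lam hN h0 h1
  obtain ⟨c₂, hc₂, h2⟩ := FB_two hN h0 h1 hE
  have hlog : 0 < Real.log 2 := Real.log_pos (by norm_num)
  set S : Set ℝ := {β : ℝ | 0 ≤ β ∧ FBeta N lam β} with hS
  have h2S : (2 : ℝ) ∈ S := by
    refine ⟨by norm_num, fun ε hε => ⟨c₂, hc₂, fun w => (h2 w).mono ?_⟩⟩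
    have : 0 ≤ ε * w * Real.log 2 := by positivity
    linarith [this, show (2 + ε) * (w:ℝ) * Real.log 2 = 2 * w * Real.log 2 + ε * w * Real.log 2
      by ring]
  have hbdd : BddBelow S := ⟨0, fun β hβ => hβ.1⟩
  have hβ0 : 0 ≤ sInf S := le_csInf ⟨2, h2S⟩ fun β hβ => hβ.1
  have hF : FBeta N lam (sInf S) := by
    intro ε hε
    obtain ⟨β', hβ', hlt⟩ := exists_lt_of_csInf_lt ⟨2, h2S⟩
      (show sInf S < sInf S + ε / 2 by linarith)
    obtain ⟨c, hc, hw⟩ := hβ'.2 (ε / 2) (by linarith)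
    refine ⟨c, hc, fun w => (hw w).mono ?_⟩
    have h3 : 0 ≤ (w:ℝ) * Real.log 2 := by positivity
    nlinarith
  refine ⟨sInf S, hβ0, csInf_le hbdd h2S, hF, ?_⟩
  intro hpos ε hε c w₀
  by_contra hcon
  push Not at hcon
  set β'' : ℝ := max (sInf S - ε) 0 with hβ''
  have hlt : β'' < sInf S := max_lt (by linarith) hpos
  have hmem : β'' ∈ S := by
    refine ⟨le_max_right _ _, fun ε' hε' => ⟨|c| + 2 * w₀ * Real.log 2 + c₂, by positivity,
      fun w => ?_⟩⟩
    have h3 : 0 ≤ (w:ℝ) * Real.log 2 := by positivity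
    have h4 : 0 ≤ β'' := le_max_right _ _
    have h5 : sInf S - ε ≤ β'' := le_max_left _ _
    have h6 := le_abs_self c
    have h7 := abs_nonneg c
    by_cases hw : w₀ ≤ w
    · refine (hcon w hw).mono ?_
      have h8 : (sInf S - ε) * (w * Real.log 2) ≤ (β'' + ε') * (w * Real.log 2) :=
        mul_le_mul_of_nonneg_right (by linarith) h3
      have h9 : 0 ≤ 2 * (w₀:ℝ) * Real.log 2 := by positivity
      linarith
    · refine (h2 w).mono ?_
      have h8 : (w:ℝ) ≤ w₀ := by exact_mod_cast (by omega : w ≤ w₀)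
      have h9 : (w:ℝ) * Real.log 2 ≤ w₀ * Real.log 2 := mul_le_mul_of_nonneg_right h8 hlog.le
      have h10 : 0 ≤ (β'' + ε') * (w * Real.log 2) := by positivity
      linarith
  exact absurd (csInf_le hbdd hmem) (not_le.2 hlt)

end Vale.Agent.P127.S
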