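import Vale.Agent.P127.S.Defs

/-!
# P127 / S : blocks of the exact finite layer (helper101). All statements are Props, to be proved in
separate files `S/<Name>.lean` (theorem names: lower case first letter, `pCmp : PCmp`, ...).
-/

set_option autoImplicit false

namespace Vale.Agent.P127.S

open Vale.Agent.P127 Vale.Agent.P127.Stk Vale.Agent.P127.U

/-! ### LOC : exact localisation (pointwise) -/

/-- labels relative to a frame `↔` absolute labels, given the cell of the frame -/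
def PLoc1 : Prop := ∀ (a w : ℕ) (F F' B B' : Sh) (l l' : Ln) (t t' : ℝ),
  a ≤ F.p → F.p ≤ F.r → w ≤ B.p → B.p ≤ B.r → w ≤ B'.p → B'.p ≤ B'.r →
  dl a F l t = dl a F' l' t' →
  (dl w B (lrel a F l t) (trel a t) = dl w B' (lrel a F' l' t') (trel a t') ↔
    dl (a + w) (sabs F B) l t = dl (a + w) (sabs F' B') l' t')

/-- the line is a function of the cell of the frame and of the relative line -/
def PLoc2 : Prop := ∀ (a : ℕ) (F F' : Sh) (l l' : Ln) (t t' : ℝ),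
  a ≤ F.p → F.p ≤ F.r → dl a F l t = dl a F' l' t' → lrel a F l t = lrel a F' l' t' → l = l'

/-- time digits and shapes -/
def PLoc3 : Prop :=
  (∀ (a w : ℕ) (t : ℝ), fl1 (a + w) t = 2 ^ w * fl1 a t + fl1 w (trel a t)) ∧
  (∀ F A : Sh, F.p ≤ F.r → F.p ≤ A.p → F.r ≤ A.r →
    fl1 (F.r - F.p) A.v = fl1 (F.r - F.p) F.v → sabs F (srel F A) = A) ∧
  (∀ (F B : Sh), F.p ≤ F.r → 0 ≤ F.v → F.v < 1 → 0 ≤ B.v → B.v < 1 →
    0 ≤ (sabs F B).v ∧ (sabs F B).v < 1 ∧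
      fl1 (F.r - F.p) (sabs F B).v = fl1 (F.r - F.p) F.v)

/-- values and times relative to a frame -/
def PLocV : Prop := ∀ (lam : ℝ) (Ω : Type) [Fintype Ω] (P : Law Ω) (l : Ω → Ln) (t : Ω → ℝ)
    (γ : Type) (C : Ω → γ) (a w p₀ r₀ : ℕ) (F B : Ω → Sh),
    a ≤ p₀ → p₀ ≤ r₀ → (∀ ω, 0 < P.w ω → (F ω).p = p₀ ∧ (F ω).r = r₀ ∧
      w ≤ (B ω).p ∧ (B ω).p ≤ (B ω).r) →
    let c : Ω → Lb := fun ω => dl a (F ω) (l ω) (t ω)
    val lam P w B (fun ω => lrel a (F ω) (l ω) (t ω)) (fun ω => trel a (t ω)) (fun ω => (C ω, c ω)) +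
        Real.log 2 * ((1 + lam) * p₀ + (1 - lam) * r₀) =
      val lam P (a + w) (fun ω => sabs (F ω) (B ω)) l t (fun ω => (C ω, c ω)) ∧
    tH P w (fun ω => lrel a (F ω) (l ω) (t ω)) (fun ω => trel a (t ω)) (fun ω => (C ω, c ω)) =
      tH P (a + w) l t (fun ω => (C ω, c ω))

/-! ### CMP : label comparisons, `O(1)` errors -/

/-- the label of a coarser shape `J` at an earlier level `a` is a function of the label of `A` at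
the level `a + w` up to `O(1)` bits (the slope cell of `J` is given) -/
def PCmp : Prop := ∃ c : ℝ, 0 ≤ c ∧
  ∀ (Ω : Type) [Fintype Ω] (P : Law Ω) (l : Ω → Ln) (t : Ω → ℝ) (γ : Type) (C : Ω → γ)
    (a w : ℕ) (A J : Ω → Sh),
    (∀ ω, 0 < P.w ω → a ≤ (J ω).p ∧ (J ω).p ≤ (J ω).r ∧ (J ω).p + w ≤ (A ω).p ∧
      (J ω).r + w ≤ (A ω).r ∧ (A ω).p ≤ (A ω).r ∧
      |(A ω).v - (J ω).v| ≤ (1 / 2 : ℝ) ^ ((J ω).r - (J ω).p)) →
    hc P (fun ω => dl a (J ω) (l ω) (t ω))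
      (fun ω => (dl (a + w) (A ω) (l ω) (t ω),
        ((J ω).p, (J ω).r, fl1 ((J ω).r - (J ω).p) (J ω).v), C ω)) ≤ c

/-- the meet of two labels of equal exponents -/
def PMeet : Prop := ∃ c : ℝ, 0 ≤ c ∧
  ∀ (Ω : Type) [Fintype Ω] (P : Law Ω) (l : Ω → Ln) (t : Ω → ℝ) (γ : Type) (C : Ω → γ)
    (a : ℕ) (A A' : Ω → Sh) (m : Ω → ℕ),
    (∀ ω, 0 < P.w ω → a ≤ (A ω).p ∧ (A ω).p ≤ (A ω).r ∧ (A' ω).p = (A ω).p ∧ (A' ω).r = (A ω).r ∧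
      (m ω + 3 < (A ω).r - (A ω).p → (1 / 2 : ℝ) ^ (m ω + 1) < |(A ω).v - (A' ω).v|)) →
    hc P (fun ω => dl a ⟨max (A ω).p ((A ω).r - (m ω + 3)), (A ω).r, (A ω).v⟩ (l ω) (t ω))
      (fun ω => (dl a (A ω) (l ω) (t ω), dl a (A' ω) (l ω) (t ω), m ω, C ω)) ≤ c

/-- **SUBS** strict submodularity for two labels of equal exponents: on the event `g` the slopes agree
to `2^-s` and differ by more than `2^-(m+1)`; off `g` nothing is done -/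
def PSubs : Prop := ∃ c : ℝ, 0 ≤ c ∧
  ∀ (lam : ℝ), 0 ≤ lam → lam ≤ 1 →
  ∀ (Ω : Type) [Fintype Ω] (P : Law Ω) (l : Ω → Ln) (t : Ω → ℝ) (γ : Type) (C : Ω → γ)
    (a : ℕ) (A A' : Ω → Sh) (g : Ω → Bool) (s m : Ω → ℕ),
    (∀ ω, 0 < P.w ω → a ≤ (A ω).p ∧ (A ω).p ≤ (A ω).r ∧ (A' ω).p = (A ω).p ∧ (A' ω).r = (A ω).r ∧
      (g ω = true → (A ω).p + s ω ≤ (A ω).r ∧ |(A ω).v - (A' ω).v| ≤ (1 / 2 : ℝ) ^ s ω ∧
        (m ω + 3 < (A ω).r - (A ω).p → (1 / 2 : ℝ) ^ (m ω + 1) < |(A ω).v - (A' ω).v|))) →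
    val lam P a A l t C + val lam P a A' l t C +
        Real.log 2 * P.ex (fun ω => if g ω then 2 * lam * (((A ω).r : ℝ) - (A ω).p - s ω) -
          (1 + lam) * ((m ω : ℝ) - s ω) else 0) ≤
      val lam P a (fun ω => if g ω then
          ⟨max (A ω).p ((A ω).r - (m ω + 3)), (A ω).r, (A ω).v⟩ else A ω) l t C +
        val lam P a (fun ω => if g ω then ⟨(A ω).p, (A ω).p + s ω, (A ω).v⟩ else A' ω) l t C +
        mi P (fun ω => dl a (A ω) (l ω) (t ω)) (fun ω => dl a (A' ω) (l ω) (t ω))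
          (fun ω => (l ω, C ω, g ω)) + 3 * P.H (fun ω => (g ω, s ω, m ω)) + c

/-! ### EXT, WIN, LIP : one window, fixed exponents of the end label -/

/-- extension of labels (fixed shape, `2 w` bits) -/
def PExt : Prop := ∃ c : ℝ, 0 ≤ c ∧
  ∀ (lam : ℝ), 0 ≤ lam → lam ≤ 1 →
  ∀ (Ω : Type) [Fintype Ω] (P : Law Ω) (l : Ω → Ln) (t : Ω → ℝ) (γ : Type) (C : Ω → γ)
    (a w : ℕ) (A : Ω → Sh),
    (∀ ω, 0 < P.w ω → a + w ≤ (A ω).p ∧ (A ω).p ≤ (A ω).r) →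
    val lam P (a + w) A l t C ≤
      val lam P a (fun ω => ⟨(A ω).p - w, (A ω).r - w, (A ω).v⟩) l t C + 2 * w * Real.log 2 + c

/-- **WIN** (localisation) : the window inequality at level `0` gives the window inequality from
`(a, ρ)` to `(a + w, ρ)` inside the slabs of direction `V` -/
def PWin : Prop := ∃ c : ℝ, 0 ≤ c ∧ ∀ (N lam : ℝ), 0 ≤ N → 0 ≤ lam → lam ≤ 1 → ∀ (w : ℕ) (b : ℝ),
  FB N lam w b →
  ∀ (Ω : Type) [Fintype Ω] (P : Law Ω) (l : Ω → Ln) (t V : Ω → ℝ) (γ : Type) (C : Ω → γ)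
    (A : Ω → Sh) (a ρ p r : ℕ), T01 P t → a + w ≤ p →
    Fn P (fun ω => fl1 a (t ω)) C → Fn P (fun ω => fl1 ρ (V ω)) C →
    (∀ ω, 0 < P.w ω → (A ω).p = p ∧ (A ω).r = r ∧ Ok (a + w) (p - (a + w)) ρ r (V ω) (A ω)) →
    ∃ (e : Ex P) (B : e.Ω' → Sh),
      (∀ ω, 0 < e.P'.w ω → Ok a (p - (a + w)) ρ r (V (e.π ω)) (B ω)) ∧
      val lam P (a + w) A l t C ≤ val lam e.P' a B (e.pull l) (e.pull t) (e.pull C) + b +
        N * (w * Real.log 2 - tH P (a + w) l t C) + c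

/-- **LIP** : if two copies of the digits `[ρ, ρ + m)` of `V` given `(l, C)` are adjacent with
probability `κ`, the rise from `ρ` to `ρ'` costs `(1 - κ) (lam (ρ' - ρ) - m)` -/
def PLipS : Prop := ∃ c : ℝ, 0 ≤ c ∧ ∀ (lam : ℝ), 0 ≤ lam → lam ≤ 1 →
  ∀ (Ω : Type) [Fintype Ω] (P : Law Ω) (l : Ω → Ln) (t V : Ω → ℝ) (γ : Type) (C : Ω → γ)
    (A : Ω → Sh) (a w ρ ρ' m p r : ℕ), a + w ≤ p → ρ + m ≤ ρ' →
    Fn P (fun ω => fl1 a (t ω)) C → Fn P (fun ω => fl1 ρ (V ω)) C →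
    (∀ ω, 0 < P.w ω → (A ω).p = p ∧ (A ω).r = r ∧ Ok (a + w) (p - (a + w)) ρ' r (V ω) (A ω)) →
    ∃ (e : Ex P) (B : e.Ω' → Sh),
      (∀ ω, 0 < e.P'.w ω → Ok a (p - (a + w)) ρ r (V (e.π ω)) (B ω)) ∧
      val lam P (a + w) A l t C ≤ val lam e.P' a B (e.pull l) (e.pull t) (e.pull C) +
        (2 * w - (1 - adj P (fun ω => fl1 (ρ + m) (V ω)) (fun ω => (l ω, C ω))) *
          (lam * ((ρ':ℝ) - ρ) - m)) * Real.log 2 + c

/-! ### GLUE -/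

/-- **GLUE** : labels on extensions of the conditional laws give a label on an extension; the value
is at least the average -/
def PGlue : Prop := ∀ (lam : ℝ) (Ω : Type) [Fintype Ω] (P : Law Ω) (l : Ω → Ln) (t : Ω → ℝ)
    (γ : Type) (C : Ω → γ) (a : ℕ) (α : Type) (z : Ω → α) (Q : α → Ω → Sh → Prop) (b : α → ℝ),
    (∀ x, 0 < P.pr z x → ∃ (e : Ex (P.cond z x)) (A : e.Ω' → Sh),
      (∀ ω, 0 < e.P'.w ω → Q x (e.π ω) (A ω)) ∧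
      b x ≤ val lam e.P' a A (e.pull l) (e.pull t) (e.pull C)) →
    ∃ (e : Ex P) (A : e.Ω' → Sh),
      (∀ ω, 0 < e.P'.w ω → Q (z (e.π ω)) (e.π ω) (A ω)) ∧
      P.ex (fun ω => b (z ω)) ≤ val lam e.P' a A (e.pull l) (e.pull t) (e.pull C)

/-- splitting of a value along a variable; time entropy too -/
def PSplit : Prop := ∀ (lam : ℝ) (Ω : Type) [Fintype Ω] (P : Law Ω) (l : Ω → Ln) (t : Ω → ℝ)
    (γ : Type) (C : Ω → γ) (a : ℕ) (A : Ω → Sh) (α : Type) (z : Ω → α),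
    val lam P a A l t C ≤ P.ex (fun ω => val lam (P.cond z (z ω)) a A l t C) +
        hc P z (fun ω => (dl a (A ω) (l ω) (t ω), C ω)) ∧
    P.ex (fun ω => val lam (P.cond z (z ω)) a A l t C) ≤ val lam P a A l t C ∧
    tH P a l t C ≤ P.ex (fun ω => tH (P.cond z (z ω)) a l t C) + hc P z (fun ω => (l ω, C ω)) ∧
    P.ex (fun ω => tH (P.cond z (z ω)) a l t C) = tH P a l t (fun ω => (C ω, z ω))

/-- values and time entropies do not change on extensions -/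
def PInv : Prop := ∀ (lam : ℝ) (Ω : Type) [Fintype Ω] (P : Law Ω) (e : Ex P) (l : Ω → Ln)
    (t : Ω → ℝ) (γ : Type) (C : Ω → γ) (a : ℕ) (A : Ω → Sh),
    val lam e.P' a (e.pull A) (e.pull l) (e.pull t) (e.pull C) = val lam P a A l t C ∧
    tH e.P' a (e.pull l) (e.pull t) (e.pull C) = tH P a l t C

/-! ### STEP : one window, random exponents, with an event `g` -/

/-- **STEP** : window inequality off the event `g`, extension / LIP on the event `g`. The end label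
has random exponents and lies in the slab `ρ' ≥ ρ + m`; `Z` = (line, `T`, exponents, `g`) -/
def PStep : Prop := ∃ c : ℝ, 0 ≤ c ∧ ∀ (N lam : ℝ), 0 ≤ N → 0 ≤ lam → lam ≤ 1 → ∀ (w : ℕ) (b : ℝ),
  FB N lam w b →
  ∀ (Ω : Type) [Fintype Ω] (P : Law Ω) (l : Ω → Ln) (t V : Ω → ℝ)
    (A : Ω → Sh) (a ρ ρ' m : ℕ) (g : Ω → Bool), T01 P t → ρ + m ≤ ρ' →
    (∀ ω, 0 < P.w ω → Ok (a + w) 0 ρ' (A ω).r (V ω) (A ω)) →
    ∃ (e : Ex P) (B : e.Ω' → Sh),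
      (∀ ω, 0 < e.P'.w ω →
        Ok a ((A (e.π ω)).p - (a + w)) ρ (A (e.π ω)).r (V (e.π ω)) (B ω)) ∧
      val lam P (a + w) A l t (fun _ => ()) ≤
        val lam e.P' a B (e.pull l) (e.pull t) (fun _ => ()) +
        P.ex (fun ω => if g ω then
            (2 * w - (1 - (P.cond (fun ω => (l ω, (fl1 a (t ω), fl1 ρ (V ω)), ((A ω).p, (A ω).r), g ω))
                (l ω, (fl1 a (t ω), fl1 ρ (V ω)), ((A ω).p, (A ω).r), g ω)).ex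
                  (fun ω' => if |fl1 (ρ + m) (V ω) - fl1 (ρ + m) (V ω')| ≤ 1 then (1:ℝ) else 0)) *
              (lam * ((ρ':ℝ) - ρ) - m)) * Real.log 2
          else b + N * (w * Real.log 2)) -
        N * hc P (fun ω => if g ω then (0:ℤ) else fl1 (a + w) (t ω))
          (fun ω => (l ω, (fl1 a (t ω), fl1 ρ (V ω)), ((A ω).p, (A ω).r), g ω)) + c * (1 + N)

/-! ### BETA, EXTR : best constant, normalised almost extremal laws -/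

/-- best rate -/
def PBeta : Prop := ∀ N lam : ℝ, 0 ≤ N → 0 ≤ lam → lam ≤ 1 → ∃ β : ℝ, 0 ≤ β ∧ β ≤ 2 ∧
  FBeta N lam β ∧
  (0 < β → ∀ ε : ℝ, 0 < ε → ∀ (c : ℝ) (w₀ : ℕ), ∃ w : ℕ, w₀ ≤ w ∧
    ¬ FB N lam w ((β - ε) * w * Real.log 2 + c))

/-- **SEL** : almost extremality of the conditional laws, on average -/
def PSel : Prop := ∀ (N lam β η : ℝ), 0 ≤ N → 0 ≤ lam → lam ≤ 1 → ∀ (h q : ℕ) (Ω : Type)
  [Fintype Ω] (P : Law Ω) (l : Ω → Ln) (t v : Ω → ℝ), NX N lam β η h q P l t v →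
  ∀ (α : Type) (z : Ω → α), ∃ η' : α → ℝ,
    (∀ ω, 0 < P.w ω → NX N lam β (η' (z ω)) h q (P.cond z (z ω)) l t v) ∧
    P.ex (fun ω => η' (z ω)) ≤
      η + hc P z (fun ω => dl h ⟨h, h + q, v ω⟩ (l ω) (t ω)) + N * hc P z l + 1

/-- the defect is bounded below -/
def PNXlow : Prop := ∀ (N lam β η : ℝ) (h q : ℕ) (b : ℝ), FB N lam h b → ∀ (Ω : Type)
  [Fintype Ω] (P : Law Ω) (l : Ω → Ln) (t v : Ω → ℝ), NX N lam β η h q P l t v →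
    β * h * Real.log 2 ≤ b + η + 1

/-- **EXTR1** : localisation to a tube : almost extremal laws with any `q` -/
def PExtr1 : Prop := ∃ c₀ : ℝ, ∀ (N lam : ℝ), 0 ≤ N → 0 ≤ lam → lam ≤ 1 → ∀ (β η : ℝ) (h : ℕ),
  ¬ FB N lam h (β * h * Real.log 2 - η + c₀) →
  ∃ (q : ℕ) (Ω : Type) (_ : Fintype Ω) (P : Law Ω) (l : Ω → Ln) (t v : Ω → ℝ),
    NX N lam β η h q P l t v

/-- **EXTR2** : two copies of the slope given the line agree up to `O(h)` digits -/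
def PExtr2 : Prop := ∀ lam : ℝ, 0 < lam → lam ≤ 1 → ∃ K : ℝ, 0 < K ∧ ∀ (N β η : ℝ) (h q : ℕ),
  0 ≤ N → 0 ≤ β → 1 ≤ h → η ≤ h →
  ∀ (Ω : Type) [Fintype Ω] (P : Law Ω) (l : Ω → Ln) (t v : Ω → ℝ), NX N lam β η h q P l t v →
    ∀ k : ℕ, K * h ≤ k → k ≤ q →
      P.ex (fun ω => (P.cond l (l ω)).ex fun ω' =>
        if |v ω - v ω'| ≤ (1 / 2 : ℝ) ^ (q - k) then (0:ℝ) else 1) ≤ 1 / 8

/-- **EXTR3** : if the first `q - k` digits of the slope are constant, localise to the slab -/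
def PExtr3 : Prop := ∃ c₀ : ℝ, 0 ≤ c₀ ∧ ∀ (N lam : ℝ), 0 ≤ N → 0 ≤ lam → lam ≤ 1 →
  ∀ (β η : ℝ) (h q k : ℕ) (d : ℤ), k ≤ q →
  ∀ (Ω : Type) [Fintype Ω] (P : Law Ω) (l : Ω → Ln) (t v : Ω → ℝ), NX N lam β η h q P l t v →
    (∀ ω, 0 < P.w ω → fl1 (q - k) (v ω) = d) →
    ∃ (Ω' : Type) (_ : Fintype Ω') (P' : Law Ω') (l' : Ω' → Ln) (t' v' : Ω' → ℝ),
      NX N lam β (η + c₀) h k P' l' t' v'

/-- **EXTR** : existence of normalised almost extremal laws with `q ≤ K h` -/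
def PExtr : Prop := ∀ N lam : ℝ, 0 ≤ N → 0 < lam → lam ≤ 1 → ∃ K : ℕ, ∀ β : ℝ, 0 < β → β ≤ 2 →
  FBeta N lam β →
  (∀ ε : ℝ, 0 < ε → ∀ (c : ℝ) (w₀ : ℕ), ∃ w : ℕ, w₀ ≤ w ∧
    ¬ FB N lam w ((β - ε) * w * Real.log 2 + c)) →
  ∀ ε : ℝ, 0 < ε → ∀ h₀ : ℕ, ∃ (h q : ℕ) (Ω : Type) (_ : Fintype Ω) (P : Law Ω) (l : Ω → Ln)
    (t v : Ω → ℝ), h₀ ≤ h ∧ q ≤ K * h ∧ NX N lam β (ε * h) h q P l t v

/-! ### GROW, BASIC, LINK, END -/

/-- **GROW** : branching of the wide component of the velocity -/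
def PGrowS : Prop := ∃ c : ℝ, 0 ≤ c ∧ ∀ N lam β η : ℝ, 0 ≤ N → 0 ≤ lam → lam ≤ 1 →
  ∀ (h q b : ℕ) (B : ℝ), FB N lam h B → b ≤ q →
  ∀ (Ω : Type) [Fintype Ω] (P : Law Ω) (l : Ω → Ln) (t v : Ω → ℝ), NX N lam β η h q P l t v →
    lam * b * Real.log 2 + β * h * Real.log 2 ≤
      hc P (fun ω => fl1 b ((l ω).2 0)) (fun ω => dl h ⟨h, h + q, v ω⟩ (l ω) (t ω)) + η + B + c

/-- **BASIC** : upper bound for the information of the end label given a slab at the level `0` -/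
def PBasicS : Prop := ∃ c : ℝ, 0 ≤ c ∧ ∀ N lam β η : ℝ, 0 ≤ N → 0 ≤ lam → lam ≤ 1 →
  ∀ (h q r₀ : ℕ), r₀ ≤ q →
  ∀ (Ω : Type) [Fintype Ω] (P : Law Ω) (l : Ω → Ln) (t v : Ω → ℝ), NX N lam β η h q P l t v →
    mi P l (fun ω => dl h ⟨h, h + q, v ω⟩ (l ω) (t ω)) (fun ω => dl 0 ⟨0, r₀, v ω⟩ (l ω) (t ω)) ≤
      (2 * h + (1 - lam) * (q - r₀) - β * h) * Real.log 2 + η + c

/-- **LINK** : the rate `β` for the labels gives the finite inequality `JF` -/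
def PLinkS : Prop := ∀ N lam β : ℝ, 0 ≤ N → 0 ≤ lam → lam ≤ 1 → 0 ≤ β → FBeta N lam β → JF N β

/-- **END** : window inequality with a gain for balls -/
def PEndS : Prop := ∀ N lam β : ℝ, 2 ≤ N → 0 < lam → lam ≤ 1 → lam < β → β ≤ 2 → FBeta N lam β →
  ∃ κ : ℝ, 0 < κ ∧ ∃ c : ℝ, 0 ≤ c ∧ ∀ (w : ℕ),
  ∀ (Ω : Type) [Fintype Ω] (P : Law Ω) (l : Ω → Ln) (t : Ω → ℝ) (γ : Type) (C : Ω → γ),
    (∀ ω, (∀ i, 0 ≤ (l ω).1 i ∧ (l ω).1 i < 1) ∧ ∀ i, 0 ≤ (l ω).2 i ∧ (l ω).2 i < 1) →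
    (∀ ω, 0 ≤ t ω ∧ t ω < 1) →
    ∃ (e : Ex P) (A : e.Ω' → Sh),
      (∀ ω, 0 < e.P'.w ω → Ok 0 0 0 w 0 (A ω)) ∧
      val lam P w (fun _ => ⟨w, w, 0⟩) l t C ≤
        val lam e.P' 0 A (e.pull l) (e.pull t) (e.pull C) + (β - κ) * w * Real.log 2 + c +
          N * (w * Real.log 2 - tH P w l t C)

/-- **TAIL** : window inequality with a gain from `(a, ρ)` to `(a + w, a + w + q')`, `q' - ρ` small -/
def PTail : Prop := ∀ N lam β : ℝ, 2 ≤ N → 0 < lam → lam ≤ 1 → lam < β → β ≤ 2 → FBeta N lam β →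
  ∃ κ : ℝ, 0 < κ ∧ ∃ c : ℝ, 0 ≤ c ∧ ∀ (a w ρ q' : ℕ), ρ ≤ q' → (q' : ℝ) - ρ ≤ κ * w →
  ∀ (Ω : Type) [Fintype Ω] (P : Law Ω) (l : Ω → Ln) (t V : Ω → ℝ) (A : Ω → Sh),
    (∀ ω, 0 ≤ t ω ∧ t ω < 1) →
    (∀ ω, 0 < P.w ω → (A ω).p = a + w ∧ (A ω).r = a + w + q' ∧
      Ok (a + w) 0 ρ (a + w + q') (V ω) (A ω)) →
    ∃ (e : Ex P) (B : e.Ω' → Sh),
      (∀ ω, 0 < e.P'.w ω → Ok a 0 ρ (a + w + q') (V (e.π ω)) (B ω)) ∧
      val lam P (a + w) A l t (fun _ => ()) ≤ val lam e.P' a B (e.pull l) (e.pull t) (fun _ => ()) +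
        (β - κ) * w * Real.log 2 + c +
          N * (w * Real.log 2 - tH P (a + w) l t (fun ω => (fl1 a (t ω), fl1 ρ (V ω))))

end Vale.Agent.P127.S
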