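import Vale.Agent.P127.S.Loc560

/-!
# P127 / S : comparisons of the labels in shear frames (helper937)

`dlb a p r v l t` is the label at the level `a`, exponents `p ≤ r`, slope `v` (helper560).

* `Near M L L'` : the labels `L`, `L'` agree in the exponents, the time cell and the slope cell, and
  the positions and directions differ by at most `M` units.
* `near_sub`   : the label determines the labels of larger boxes.
* `near_fine`  : the label at level `a` and the time cell of level `a + w` determine the label at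
  level `a + w` with the same exponents.
* `near_ext`   : (EXT) the label at level `a + w` determines the label at level `a` with the
  exponents lowered by `w`.
* `near_meet`  : two labels of the same line with different slopes determine the label of the meet.
* `hc_near`    : the corresponding entropy is at most `4 log (2 M + 1)`.
-/

set_option autoImplicit false

namespace Vale.Agent.P127.S

open Vale.Agent.P127 Vale.Agent.P127.Stk Vale.Agent.P127.U

/-- the type of the labels -/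
abbrev DLab := ℕ × ℕ × ℤ × ℤ × (ℤ × ℤ) × (ℤ × ℤ)

/-- labels of the same exponents, time cell and slope cell, with positions and directions at a
distance of at most `M` units -/
def Near (M : ℤ) (L L' : DLab) : Prop :=
  L.1 = L'.1 ∧ L.2.1 = L'.2.1 ∧ L.2.2.1 = L'.2.2.1 ∧ L.2.2.2.1 = L'.2.2.2.1 ∧
    |L.2.2.2.2.1.1 - L'.2.2.2.2.1.1| ≤ M ∧ |L.2.2.2.2.1.2 - L'.2.2.2.2.1.2| ≤ M ∧
    |L.2.2.2.2.2.1 - L'.2.2.2.2.2.1| ≤ M ∧ |L.2.2.2.2.2.2 - L'.2.2.2.2.2.2| ≤ M

/-! ### digits -/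

theorem fl1_close {n : ℕ} {x y : ℝ} (h : fl1 n x = fl1 n y) : |x - y| ≤ (1 / 2 : ℝ) ^ n := by
  unfold fl1 at h
  have h1 := Int.abs_sub_lt_one_of_floor_eq_floor h
  have h2 : (2:ℝ) ^ n * x - 2 ^ n * y = 2 ^ n * (x - y) := by ring
  have h3 : (0:ℝ) < 2 ^ n := by positivity
  rw [h2, abs_mul, abs_of_pos h3] at h1
  rw [one_div, inv_pow, ← one_div, le_div_iff₀ h3]
  linarith

theorem fl1_near {n M : ℕ} {x y : ℝ} (h : |x - y| ≤ M * (1 / 2 : ℝ) ^ n) :
    |fl1 n x - fl1 n y| ≤ (M : ℤ) + 1 := by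
  unfold fl1
  apply floor_close_aux
  have h2 : (2:ℝ) ^ n * x - 2 ^ n * y = 2 ^ n * (x - y) := by ring
  have h3 : (0:ℝ) < 2 ^ n := by positivity
  rw [h2, abs_mul, abs_of_pos h3]
  rw [one_div, inv_pow] at h
  calc (2:ℝ) ^ n * |x - y| ≤ 2 ^ n * (M * (2 ^ n)⁻¹) := mul_le_mul_of_nonneg_left h h3.le
    _ = M := by field_simp

/-- the digits determine the coarser digits -/
theorem fl1_coarse {m n : ℕ} (h : m ≤ n) {x y : ℝ} (e : fl1 n x = fl1 n y) : fl1 m x = fl1 m y := by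
  have h1 := fl_of_fl (ι := Unit) h (fun _ => x) (fun _ => y) (by funext _; exact e)
  exact congrFun h1 ()

theorem qa_eq {n : ℕ} {x y : ℝ} (e : fl1 n x = fl1 n y) : qa n x = qa n y := by
  unfold qa; rw [e]

theorem qa_close (n : ℕ) (x : ℝ) : |x - qa n x| ≤ (1 / 2 : ℝ) ^ n := by
  unfold qa fl1
  have h3 : (0:ℝ) < 2 ^ n := by positivity
  have h1 := Int.floor_le ((2:ℝ) ^ n * x)
  have h2 := Int.lt_floor_add_one ((2:ℝ) ^ n * x)
  have h4 : x - (⌊(2:ℝ) ^ n * x⌋ : ℝ) / 2 ^ n = (2 ^ n * x - ⌊(2:ℝ) ^ n * x⌋) / 2 ^ n := by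
    field_simp
  rw [h4, abs_of_nonneg (div_nonneg (by linarith) h3.le), one_div, inv_pow, div_le_iff₀ h3,
    inv_mul_cancel₀ h3.ne']
  linarith

theorem qa_sub {m n : ℕ} (h : m ≤ n) (x : ℝ) : |qa n x - qa m x| ≤ (1 / 2 : ℝ) ^ m := by
  obtain ⟨k, rfl⟩ := Nat.exists_eq_add_of_le h
  rw [qa_add, add_sub_cancel_left, abs_mul]
  have h1 : 0 ≤ rt m x ∧ rt m x < 1 := ⟨Int.fract_nonneg _, Int.fract_lt_one _⟩
  have h2 : |qa k (rt m x)| ≤ 1 := by
    unfold qa fl1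
    have h3 : (0:ℝ) < 2 ^ k := by positivity
    have h4 : (0:ℤ) ≤ ⌊(2:ℝ) ^ k * rt m x⌋ := Int.floor_nonneg.2 (mul_nonneg h3.le h1.1)
    have h4' : (0:ℝ) ≤ (⌊(2:ℝ) ^ k * rt m x⌋ : ℝ) := by exact_mod_cast h4
    rw [abs_of_nonneg (div_nonneg h4' h3.le), div_le_one h3]
    exact (Int.floor_le _).trans (by nlinarith [h1.2])
  rw [abs_of_pos (by positivity : (0:ℝ) < (1 / 2) ^ m)]
  nlinarith [(by positivity : (0:ℝ) < (1 / 2) ^ m)]

theorem half_le {m n : ℕ} (h : m ≤ n) : (1 / 2 : ℝ) ^ n ≤ (1 / 2 : ℝ) ^ m :=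
  pow_le_pow_of_le_one (by norm_num) (by norm_num) h

theorem half_add (m n : ℕ) : (1 / 2 : ℝ) ^ (m + n) = (1 / 2) ^ m * (1 / 2) ^ n := pow_add _ _ _

/-! ### sheared coordinates of a label -/

/-- what the equality of two labels says -/
structure Cl (a p r : ℕ) (w : ℝ) (τ : ℝ) (l l' : Ln) : Prop where
  x : |pos l τ 0 - pos l' τ 0| ≤ (1 / 2 : ℝ) ^ p
  f : |(pos l τ 1 - w * pos l τ 0) - (pos l' τ 1 - w * pos l' τ 0)| ≤ (1 / 2 : ℝ) ^ r
  y : |l.2 0 - l'.2 0| ≤ (1 / 2 : ℝ) ^ (p - a)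
  g : |(l.2 1 - w * l.2 0) - (l'.2 1 - w * l'.2 0)| ≤ (1 / 2 : ℝ) ^ (r - a)

theorem dlb_eq {a p r p' r' : ℕ} {v v' : ℝ} {l l' : Ln} {t t' : ℝ}
    (h : dlb a p r v l t = dlb a p' r' v' l' t') :
    p = p' ∧ r = r' ∧ fl1 a t = fl1 a t' ∧ fl1 (r - p) v = fl1 (r - p) v' ∧
      Cl a p r (qa (r - p) v) (qa a t) l l' := by
  simp only [dlb, Prod.mk.injEq] at h
  obtain ⟨rfl, rfl, h3, h4, ⟨h5, h6⟩, h7, h8⟩ := h
  rw [← qa_eq h3] at h5 h6
  rw [← qa_eq h4] at h6 h8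
  exact ⟨rfl, rfl, h3, h4, ⟨fl1_close h5, fl1_close h6, fl1_close h7, fl1_close h8⟩⟩

theorem near_of {a p r M : ℕ} {v v' : ℝ} {l l' : Ln} {t t' : ℝ} (h3 : fl1 a t = fl1 a t')
    (h4 : fl1 (r - p) v = fl1 (r - p) v')
    (hx : |pos l (qa a t) 0 - pos l' (qa a t) 0| ≤ M * (1 / 2 : ℝ) ^ p)
    (hf : |(pos l (qa a t) 1 - qa (r - p) v * pos l (qa a t) 0) -
      (pos l' (qa a t) 1 - qa (r - p) v * pos l' (qa a t) 0)| ≤ M * (1 / 2 : ℝ) ^ r)
    (hy : |l.2 0 - l'.2 0| ≤ M * (1 / 2 : ℝ) ^ (p - a))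
    (hg : |(l.2 1 - qa (r - p) v * l.2 0) - (l'.2 1 - qa (r - p) v * l'.2 0)| ≤
      M * (1 / 2 : ℝ) ^ (r - a)) :
    Near ((M : ℤ) + 1) (dlb a p r v l t) (dlb a p r v' l' t') := by
  refine ⟨rfl, rfl, h3, h4, ?_, ?_, ?_, ?_⟩
  · show |fl1 p (pos l (qa a t) 0) - fl1 p (pos l' (qa a t') 0)| ≤ _
    rw [← qa_eq h3]
    exact fl1_near hx
  · show |fl1 r (pos l (qa a t) 1 - qa (r - p) v * pos l (qa a t) 0) -
      fl1 r (pos l' (qa a t') 1 - qa (r - p) v' * pos l' (qa a t') 0)| ≤ _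
    rw [← qa_eq h3, ← qa_eq h4]
    exact fl1_near hf
  · exact fl1_near hy
  · show |fl1 (r - a) (l.2 1 - qa (r - p) v * l.2 0) -
      fl1 (r - a) (l'.2 1 - qa (r - p) v' * l'.2 0)| ≤ _
    rw [← qa_eq h4]
    exact fl1_near hg

/-- larger boxes: `w` is the slope of the small box, `w'` the one of the large box -/
theorem Cl.sub {a p r p' r' K : ℕ} {w w' τ : ℝ} {l l' : Ln} (h : Cl a p r w τ l l') (hap : a ≤ p')
    (hpr : p' ≤ r') (hp : p' ≤ p) (hr : r' ≤ r)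
    (hw : |w' - w| * (1 / 2 : ℝ) ^ p ≤ K * (1 / 2 : ℝ) ^ r') :
    |pos l τ 0 - pos l' τ 0| ≤ ((K + 1 : ℕ) : ℝ) * (1 / 2 : ℝ) ^ p' ∧
    |(pos l τ 1 - w' * pos l τ 0) - (pos l' τ 1 - w' * pos l' τ 0)| ≤
      ((K + 1 : ℕ) : ℝ) * (1 / 2 : ℝ) ^ r' ∧
    |l.2 0 - l'.2 0| ≤ ((K + 1 : ℕ) : ℝ) * (1 / 2 : ℝ) ^ (p' - a) ∧
    |(l.2 1 - w' * l.2 0) - (l'.2 1 - w' * l'.2 0)| ≤
      ((K + 1 : ℕ) : ℝ) * (1 / 2 : ℝ) ^ (r' - a) := by
  have hK : (1:ℝ) ≤ ((K + 1 : ℕ) : ℝ) := by push_cast; linarith [(Nat.cast_nonneg K : (0:ℝ) ≤ K)]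
  have e1 := half_le hp
  have e2 := half_le hr
  have e3 := half_le (Nat.sub_le_sub_right hp a)
  have e4 := half_le (Nat.sub_le_sub_right hr a)
  have q1 : (0:ℝ) < (1 / 2) ^ p' := by positivity
  have q2 : (0:ℝ) < (1 / 2) ^ r' := by positivity
  have q3 : (0:ℝ) < (1 / 2) ^ (p' - a) := by positivity
  have q4 : (0:ℝ) < (1 / 2) ^ (r' - a) := by positivity
  have hw' : |w' - w| * (1 / 2 : ℝ) ^ (p - a) ≤ K * (1 / 2 : ℝ) ^ (r' - a) := by
    have h1 : (1 / 2 : ℝ) ^ p = (1 / 2) ^ a * (1 / 2) ^ (p - a) := by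
      rw [← pow_add]; congr 1; omega
    have h2 : (1 / 2 : ℝ) ^ r' = (1 / 2) ^ a * (1 / 2) ^ (r' - a) := by
      rw [← pow_add]; congr 1; omega
    rw [h1, h2] at hw
    have h3 : (0:ℝ) < (1 / 2) ^ a := by positivity
    have h4 : (1 / 2 : ℝ) ^ a * (|w' - w| * (1 / 2 : ℝ) ^ (p - a)) ≤
        (1 / 2 : ℝ) ^ a * (K * (1 / 2 : ℝ) ^ (r' - a)) := by nlinarith
    exact le_of_mul_le_mul_left h4 h3
  refine ⟨?_, ?_, ?_, ?_⟩
  · exact h.x.trans (e1.trans (by nlinarith))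
  · have e : (pos l τ 1 - w' * pos l τ 0) - (pos l' τ 1 - w' * pos l' τ 0) =
        ((pos l τ 1 - w * pos l τ 0) - (pos l' τ 1 - w * pos l' τ 0)) -
          (w' - w) * (pos l τ 0 - pos l' τ 0) := by ring
    rw [e]
    refine (abs_sub _ _).trans ?_
    rw [abs_mul]
    have h1 := mul_le_mul_of_nonneg_left h.x (abs_nonneg (w' - w))
    push_cast
    linarith [h.f]
  · exact h.y.trans (e3.trans (by nlinarith))
  · have e : (l.2 1 - w' * l.2 0) - (l'.2 1 - w' * l'.2 0) =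
        ((l.2 1 - w * l.2 0) - (l'.2 1 - w * l'.2 0)) - (w' - w) * (l.2 0 - l'.2 0) := by ring
    rw [e]
    refine (abs_sub _ _).trans ?_
    rw [abs_mul]
    have h1 := mul_le_mul_of_nonneg_left h.y (abs_nonneg (w' - w))
    push_cast
    linarith [h.g]

/-- the label determines the labels of the larger boxes -/
theorem near_sub {a p r p' r' q₁ q₂ K : ℕ} {v v' u u' : ℝ} {l l' : Ln} {t t' : ℝ}
    (h : dlb a p r v l t = dlb a q₁ q₂ v' l' t') (hu : fl1 (r' - p') u = fl1 (r' - p') u')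
    (hap : a ≤ p') (hpr : p' ≤ r') (hp : p' ≤ p) (hr : r' ≤ r)
    (hw : |qa (r' - p') u - qa (r - p) v| * (1 / 2 : ℝ) ^ p ≤ K * (1 / 2 : ℝ) ^ r') :
    Near ((K : ℤ) + 2) (dlb a p' r' u l t) (dlb a p' r' u' l' t') := by
  obtain ⟨-, -, h3, -, hC⟩ := dlb_eq h
  obtain ⟨g1, g2, g3, g4⟩ := hC.sub hap hpr hp hr hw
  have := near_of (M := K + 1) h3 hu g1 g2 g3 g4
  push_cast at this
  rwa [add_assoc] at this

/-- the label of the same direction, of a box of the same width and larger thickness -/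
theorem near_join {a p r m q₁ q₂ : ℕ} {v v' : ℝ} {l l' : Ln} {t t' : ℝ}
    (h : dlb a p r v l t = dlb a q₁ q₂ v' l' t') (hap : a ≤ p) (hpm : p ≤ m) (hm : m ≤ r) :
    Near 3 (dlb a p m v l t) (dlb a p m v' l' t') := by
  obtain ⟨-, -, -, h4, -⟩ := dlb_eq h
  refine near_sub (K := 1) h (fl1_coarse (by omega) h4) hap hpm le_rfl hm ?_
  have h1 := qa_sub (show m - p ≤ r - p by omega) v
  rw [abs_sub_comm] at h1
  have h2 : (1 / 2 : ℝ) ^ m = (1 / 2) ^ (m - p) * (1 / 2) ^ p := by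
    rw [← pow_add]; congr 1; omega
  rw [h2]
  push_cast
  rw [one_mul]
  exact mul_le_mul_of_nonneg_right h1 (by positivity)

theorem pos_diff (l l' : Ln) (τ τ' : ℝ) (i : Fin 2) :
    pos l τ' i - pos l' τ' i = (pos l τ i - pos l' τ i) + (τ' - τ) * (l.2 i - l'.2 i) := by
  unfold pos; ring

/-- the label of level `a` and the time cell of level `a + w` determine the label of level
`a + w` -/
theorem near_fine {a w p r q₁ q₂ : ℕ} {v v' : ℝ} {l l' : Ln} {t t' : ℝ}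
    (h : dlb a p r v l t = dlb a q₁ q₂ v' l' t') (ht : fl1 (a + w) t = fl1 (a + w) t')
    (hap : a + w ≤ p) (hpr : p ≤ r) :
    Near 3 (dlb (a + w) p r v l t) (dlb (a + w) p r v' l' t') := by
  obtain ⟨-, -, h3, h4, hC⟩ := dlb_eq h
  have hτ := qa_sub (show a ≤ a + w by omega) t
  set τ := qa a t
  set τ' := qa (a + w) t with hτ'
  set ws := qa (r - p) v
  have e1 : (1 / 2 : ℝ) ^ p = (1 / 2) ^ a * (1 / 2) ^ (p - a) := by
    rw [← pow_add]; congr 1; omega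
  have e2 : (1 / 2 : ℝ) ^ r = (1 / 2) ^ a * (1 / 2) ^ (r - a) := by
    rw [← pow_add]; congr 1; omega
  have key : ∀ {A B : ℝ} {n : ℕ}, |A| ≤ (1 / 2 : ℝ) ^ n → |B| ≤ (1 / 2 : ℝ) ^ (n - a) → a ≤ n →
      |A + (τ' - τ) * B| ≤ ((2 : ℕ) : ℝ) * (1 / 2 : ℝ) ^ n := by
    intro A B n hA hB hn
    have e : (1 / 2 : ℝ) ^ n = (1 / 2) ^ a * (1 / 2) ^ (n - a) := by
      rw [← pow_add]; congr 1; omega
    refine (abs_add_le _ _).trans ?_
    rw [abs_mul]
    have h5 : |τ' - τ| * |B| ≤ (1 / 2 : ℝ) ^ a * (1 / 2) ^ (n - a) :=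
      mul_le_mul hτ hB (abs_nonneg _) (by positivity)
    rw [← e] at h5
    push_cast
    linarith
  refine near_of (M := 2) ht h4 ?_ ?_ ?_ ?_
  · rw [pos_diff l l' τ τ' 0]
    exact key hC.x hC.y (by omega)
  · have e : (pos l τ' 1 - ws * pos l τ' 0) - (pos l' τ' 1 - ws * pos l' τ' 0) =
        ((pos l τ 1 - ws * pos l τ 0) - (pos l' τ 1 - ws * pos l' τ 0)) +
          (τ' - τ) * ((l.2 1 - ws * l.2 0) - (l'.2 1 - ws * l'.2 0)) := by
      unfold pos; ring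
    rw [e]
    exact key hC.f hC.g (by omega)
  · have h5 := half_le (show p - (a + w) ≤ p - a by omega)
    have : (0:ℝ) < (1 / 2) ^ (p - (a + w)) := by positivity
    refine (hC.y.trans h5).trans ?_
    push_cast
    linarith
  · have h5 := half_le (show r - (a + w) ≤ r - a by omega)
    have : (0:ℝ) < (1 / 2) ^ (r - (a + w)) := by positivity
    refine (hC.g.trans h5).trans ?_
    push_cast
    linarith

/-- **(EXT)** the label of level `a + w` determines the label of level `a` of the exponents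
lowered by `w` -/
theorem near_ext {a w p r q₁ q₂ : ℕ} {v v' : ℝ} {l l' : Ln} {t t' : ℝ}
    (h : dlb (a + w) p r v l t = dlb (a + w) q₁ q₂ v' l' t') (hap : a + w ≤ p) (hpr : p ≤ r) :
    Near 3 (dlb a (p - w) (r - w) v l t) (dlb a (p - w) (r - w) v' l' t') := by
  obtain ⟨-, -, h3, h4, hC⟩ := dlb_eq h
  have hτ := qa_sub (show a ≤ a + w by omega) t
  rw [abs_sub_comm] at hτ
  have er : r - w - (p - w) = r - p := by omega
  set τ' := qa a t with hτ'
  set τ := qa (a + w) t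
  set ws := qa (r - p) v with hws
  have key : ∀ {A B : ℝ} {n : ℕ}, |A| ≤ (1 / 2 : ℝ) ^ n → |B| ≤ (1 / 2 : ℝ) ^ (n - (a + w)) →
      a + w ≤ n → |A + (τ' - τ) * B| ≤ ((2 : ℕ) : ℝ) * (1 / 2 : ℝ) ^ (n - w) := by
    intro A B n hA hB hn
    have e : (1 / 2 : ℝ) ^ (n - w) = (1 / 2) ^ a * (1 / 2) ^ (n - (a + w)) := by
      rw [← pow_add]; congr 1; omega
    refine (abs_add_le _ _).trans ?_
    rw [abs_mul]
    have h5 : |τ' - τ| * |B| ≤ (1 / 2 : ℝ) ^ a * (1 / 2) ^ (n - (a + w)) :=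
      mul_le_mul hτ hB (abs_nonneg _) (by positivity)
    rw [← e] at h5
    have h6 := half_le (Nat.sub_le n w)
    push_cast
    linarith
  refine near_of (M := 2) (fl1_coarse (by omega) h3) (by rw [er]; exact h4) ?_ ?_ ?_ ?_
  · rw [pos_diff l l' τ τ' 0]
    exact key hC.x hC.y (by omega)
  · rw [er]
    have e : (pos l τ' 1 - ws * pos l τ' 0) - (pos l' τ' 1 - ws * pos l' τ' 0) =
        ((pos l τ 1 - ws * pos l τ 0) - (pos l' τ 1 - ws * pos l' τ 0)) +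
          (τ' - τ) * ((l.2 1 - ws * l.2 0) - (l'.2 1 - ws * l'.2 0)) := by
      unfold pos; ring
    rw [e]
    exact key hC.f hC.g (by omega)
  · have e : p - w - a = p - (a + w) := by omega
    rw [e]
    refine hC.y.trans ?_
    have : (0:ℝ) < (1 / 2) ^ (p - (a + w)) := by positivity
    push_cast
    linarith
  · have e : r - w - a = r - (a + w) := by omega
    rw [e, er]
    refine hC.g.trans ?_
    have : (0:ℝ) < (1 / 2) ^ (r - (a + w)) := by positivity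
    push_cast
    linarith

/-- **(MEET)** two labels of the same exponents with different slopes determine the label of the
meet -/
theorem near_meet {a p r m K q₁ q₂ q₁' q₂' : ℕ} {v v' u u' : ℝ} {l l' : Ln} {t t' : ℝ}
    (h : dlb a p r v l t = dlb a q₁ q₂ v' l' t') (h' : dlb a p r u l t = dlb a q₁' q₂' u' l' t')
    (hap : a ≤ p) (hpm : p ≤ m) (hm : m ≤ r)
    (hw : m = p ∨ (1 / 2 : ℝ) ^ (r - m) ≤ K * |qa (r - p) v - qa (r - p) u|) :
    Near (2 * (K : ℤ) + 3) (dlb a m r v l t) (dlb a m r v' l' t') := by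
  obtain ⟨-, -, h3, h4, hC⟩ := dlb_eq h
  obtain ⟨-, -, -, h4', hC'⟩ := dlb_eq h'
  have hK0 : (0:ℝ) ≤ K := Nat.cast_nonneg K
  set τ := qa a t
  set w := qa (r - p) v
  set w' := qa (r - p) u
  -- the wide coordinate is known
  have key : ∀ {A B : ℝ} {n n' : ℕ}, |B - w * A| ≤ (1 / 2 : ℝ) ^ n → |B - w' * A| ≤ (1 / 2 : ℝ) ^ n →
      (1 / 2 : ℝ) ^ n ≤ K * |w - w'| * (1 / 2 : ℝ) ^ n' →
      |A| ≤ 2 * K * (1 / 2 : ℝ) ^ n' := by
    intro A B n n' h1 h2 h5
    have h6 : |w - w'| * |A| ≤ 2 * (1 / 2 : ℝ) ^ n := by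
      rw [← abs_mul]
      have e : (w - w') * A = (B - w' * A) - (B - w * A) := by ring
      rw [e]
      exact (abs_sub _ _).trans (by linarith)
    by_cases h0 : |w - w'| = 0
    · rw [h0] at h5
      have : (0:ℝ) < (1 / 2) ^ n := by positivity
      linarith
    · have hpos : 0 < |w - w'| := lt_of_le_of_ne (abs_nonneg _) (Ne.symm h0)
      have h7 : |w - w'| * |A| ≤ |w - w'| * (2 * K * (1 / 2 : ℝ) ^ n') := by nlinarith
      exact le_of_mul_le_mul_left h7 hpos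
  have hx : |pos l τ 0 - pos l' τ 0| ≤ ((2 * K + 1 : ℕ) : ℝ) * (1 / 2 : ℝ) ^ m := by
    have hq : (0:ℝ) < (1 / 2) ^ m := by positivity
    rcases hw with rfl | hw
    · refine hC.x.trans ?_
      push_cast
      nlinarith
    · have e : (1 / 2 : ℝ) ^ r = (1 / 2) ^ (r - m) * (1 / 2) ^ m := by
        rw [← pow_add]; congr 1; omega
      have := key (A := pos l τ 0 - pos l' τ 0) (B := pos l τ 1 - pos l' τ 1) (n := r) (n' := m)
        (by
          have e : pos l τ 1 - pos l' τ 1 - w * (pos l τ 0 - pos l' τ 0) =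
            (pos l τ 1 - w * pos l τ 0) - (pos l' τ 1 - w * pos l' τ 0) := by ring
          rw [e]; exact hC.f)
        (by
          have e : pos l τ 1 - pos l' τ 1 - w' * (pos l τ 0 - pos l' τ 0) =
            (pos l τ 1 - w' * pos l τ 0) - (pos l' τ 1 - w' * pos l' τ 0) := by ring
          rw [e]; exact hC'.f)
        (by rw [e]; exact mul_le_mul_of_nonneg_right hw hq.le)
      refine this.trans ?_
      push_cast
      nlinarith
  have hy : |l.2 0 - l'.2 0| ≤ ((2 * K + 1 : ℕ) : ℝ) * (1 / 2 : ℝ) ^ (m - a) := by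
    have hq : (0:ℝ) < (1 / 2) ^ (m - a) := by positivity
    rcases hw with rfl | hw
    · refine hC.y.trans ?_
      push_cast
      nlinarith
    · have e : (1 / 2 : ℝ) ^ (r - a) = (1 / 2) ^ (r - m) * (1 / 2) ^ (m - a) := by
        rw [← pow_add]; congr 1; omega
      have := key (A := l.2 0 - l'.2 0) (B := l.2 1 - l'.2 1) (n := r - a) (n' := m - a)
        (by
          have e : l.2 1 - l'.2 1 - w * (l.2 0 - l'.2 0) =
            (l.2 1 - w * l.2 0) - (l'.2 1 - w * l'.2 0) := by ring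
          rw [e]; exact hC.g)
        (by
          have e : l.2 1 - l'.2 1 - w' * (l.2 0 - l'.2 0) =
            (l.2 1 - w' * l.2 0) - (l'.2 1 - w' * l'.2 0) := by ring
          rw [e]; exact hC'.g)
        (by rw [e]; exact mul_le_mul_of_nonneg_right hw hq.le)
      refine this.trans ?_
      push_cast
      nlinarith
  have hwm : |w - qa (r - m) v| ≤ (1 / 2 : ℝ) ^ (r - m) := qa_sub (show r - m ≤ r - p by omega) v
  have fin : ∀ {A B : ℝ} {n n' : ℕ}, |B - w * A| ≤ (1 / 2 : ℝ) ^ n →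
      |A| ≤ ((2 * K + 1 : ℕ) : ℝ) * (1 / 2 : ℝ) ^ n' →
      (1 / 2 : ℝ) ^ n = (1 / 2 : ℝ) ^ (r - m) * (1 / 2 : ℝ) ^ n' →
      |B - qa (r - m) v * A| ≤ ((2 * K + 2 : ℕ) : ℝ) * (1 / 2 : ℝ) ^ n := by
    intro A B n n' h1 h2 h5
    have e : B - qa (r - m) v * A = (B - w * A) + (w - qa (r - m) v) * A := by ring
    rw [e]
    refine (abs_add_le _ _).trans ?_
    rw [abs_mul]
    have h6 : |w - qa (r - m) v| * |A| ≤
        (1 / 2 : ℝ) ^ (r - m) * (((2 * K + 1 : ℕ) : ℝ) * (1 / 2 : ℝ) ^ n') :=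
      mul_le_mul hwm h2 (abs_nonneg _) (by positivity)
    have h7 : (1 / 2 : ℝ) ^ (r - m) * (((2 * K + 1 : ℕ) : ℝ) * (1 / 2 : ℝ) ^ n') =
        ((2 * K + 1 : ℕ) : ℝ) * (1 / 2 : ℝ) ^ n := by rw [h5]; ring
    rw [h7] at h6
    push_cast at h6 ⊢
    linarith
  have hMM : ((2 * K + 1 : ℕ) : ℝ) ≤ ((2 * K + 2 : ℕ) : ℝ) := by push_cast; linarith
  have := near_of (M := 2 * K + 2) h3 (fl1_coarse (show r - m ≤ r - p by omega) h4)
    (hx.trans (mul_le_mul_of_nonneg_right hMM (by positivity)))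
    (by
      have e : (pos l τ 1 - qa (r - m) v * pos l τ 0) - (pos l' τ 1 - qa (r - m) v * pos l' τ 0) =
        (pos l τ 1 - pos l' τ 1) - qa (r - m) v * (pos l τ 0 - pos l' τ 0) := by ring
      rw [e]
      refine fin (n' := m) ?_ hx (by rw [← pow_add]; congr 1; omega)
      have e : pos l τ 1 - pos l' τ 1 - w * (pos l τ 0 - pos l' τ 0) =
        (pos l τ 1 - w * pos l τ 0) - (pos l' τ 1 - w * pos l' τ 0) := by ring
      rw [e]; exact hC.f)
    (hy.trans (mul_le_mul_of_nonneg_right hMM (by positivity)))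
    (by
      have e : (l.2 1 - qa (r - m) v * l.2 0) - (l'.2 1 - qa (r - m) v * l'.2 0) =
        (l.2 1 - l'.2 1) - qa (r - m) v * (l.2 0 - l'.2 0) := by ring
      rw [e]
      refine fin (n' := m - a) ?_ hy (by rw [← pow_add]; congr 1; omega)
      have e : l.2 1 - l'.2 1 - w * (l.2 0 - l'.2 0) =
        (l.2 1 - w * l.2 0) - (l'.2 1 - w * l'.2 0) := by ring
      rw [e]; exact hC.g)
  have e3 : (((2 * K + 2 : ℕ) : ℤ) + 1) = 2 * (K : ℤ) + 3 := by push_cast; ring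
  rwa [e3] at this

/-! ### entropy -/

section entropy

variable {Ω : Type} [Fintype Ω] {γ : Type*} (P : Law Ω)

/-- a label which is known up to `M` units -/
theorem hc_near {M : ℕ} (X : Ω → DLab) (Z : Ω → γ)
    (h : ∀ ω ω', 0 < P.w ω → 0 < P.w ω' → Z ω = Z ω' → Near M (X ω) (X ω')) :
    hc P X Z ≤ 4 * Real.log (2 * M + 1) := by
  classical
  have h1 : hc P X Z ≤ Real.log (((2 * M + 1) ^ 4 : ℕ) : ℝ) := by
    refine hc_le_log P _ _ _ fun ω hω => ?_
    let I : ℤ → Finset ℤ := fun c => Finset.Icc (c - M) (c + M)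
    have hI : ∀ c, (I c).card = 2 * M + 1 := by
      intro c
      show (Finset.Icc (c - (M:ℤ)) (c + M)).card = _
      rw [Int.card_Icc]
      omega
    refine ⟨((I (X ω).2.2.2.2.1.1 ×ˢ I (X ω).2.2.2.2.1.2) ×ˢ
      (I (X ω).2.2.2.2.2.1 ×ˢ I (X ω).2.2.2.2.2.2)).image fun q =>
        ((X ω).1, (X ω).2.1, (X ω).2.2.1, (X ω).2.2.2.1, q.1, q.2), ?_, ?_⟩
    · refine Finset.card_image_le.trans ?_
      rw [Finset.card_product, Finset.card_product, Finset.card_product, hI, hI, hI, hI]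
      exact le_of_eq (by ring)
    · intro ω' hω' e
      obtain ⟨h1, h2, h3, h4, h5, h6, h7, h8⟩ := h ω' ω hω' hω e
      rw [Finset.mem_image]
      refine ⟨((X ω').2.2.2.2.1, (X ω').2.2.2.2.2), ?_, ?_⟩
      · simp only [Finset.mem_product]
        have mI : ∀ {x c : ℤ}, |x - c| ≤ M → x ∈ I c := by
          intro x c hx
          show x ∈ Finset.Icc (c - (M:ℤ)) (c + M)
          rw [Finset.mem_Icc]
          have := abs_le.1 hx
          constructor <;> linarith [this.1, this.2]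
        exact ⟨⟨mI h5, mI h6⟩, ⟨mI h7, mI h8⟩⟩
      · rw [← h1, ← h2, ← h3, ← h4]
  have h2 : Real.log (((2 * M + 1) ^ 4 : ℕ) : ℝ) = 4 * Real.log (2 * M + 1) := by
    push_cast
    rw [Real.log_pow]
    norm_num
  linarith

end entropy

end Vale.Agent.P127.S
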