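import Vale.Agent.P127.S.Blocks
import Vale.Agent.P127.S.Cmp937

/-!
# P127 / S : block CMP (helper937)
-/

set_option autoImplicit false

namespace Vale.Agent.P127.S

open Vale.Agent.P127 Vale.Agent.P127.Stk Vale.Agent.P127.U

theorem dl_eq_dlb_cmp (a : ℕ) (A : Sh) (l : Ln) (t : ℝ) : dl a A l t = dlb a A.p A.r A.v l t := rfl

/-- pointwise form of CMP -/
theorem cmp_near {a w : ℕ} {A A' J J' : Sh} {l l' : Ln} {t t' : ℝ}
    (h : dl (a + w) A l t = dl (a + w) A' l' t') (e1 : J.p = J'.p) (e2 : J.r = J'.r)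
    (e3 : fl1 (J.r - J.p) J.v = fl1 (J'.r - J'.p) J'.v) (h1 : a ≤ J.p) (h2 : J.p ≤ J.r)
    (h3 : J.p + w ≤ A.p) (h4 : J.r + w ≤ A.r) (h5 : A.p ≤ A.r)
    (h6 : |A.v - J.v| ≤ (1 / 2 : ℝ) ^ (J.r - J.p)) :
    Near 9 (dl a J l t) (dl a J' l' t') := by
  rw [dl_eq_dlb_cmp, dl_eq_dlb_cmp] at h ⊢
  rw [← e1, ← e2] at e3 ⊢
  obtain ⟨-, -, h3', -, hC⟩ := dlb_eq h
  have hτ := qa_sub (show a ≤ a + w by omega) t
  rw [abs_sub_comm] at hτ
  set τ' := qa a t with hτ'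
  set τ := qa (a + w) t
  set ws := qa (A.r - A.p) A.v with hws
  set wJ := qa (J.r - J.p) J.v with hwJ
  have key : ∀ {A B : ℝ} {n : ℕ}, |A| ≤ (1 / 2 : ℝ) ^ n → |B| ≤ (1 / 2 : ℝ) ^ (n - (a + w)) →
      a + w ≤ n → |A + (τ' - τ) * B| ≤ 2 * (1 / 2 : ℝ) ^ (n - w) := by
    intro A B n hA hB hn
    have e : (1 / 2 : ℝ) ^ (n - w) = (1 / 2) ^ a * (1 / 2) ^ (n - (a + w)) := by
      rw [← pow_add]; congr 1; omega
    refine (abs_add_le _ _).trans ?_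
    rw [abs_mul]
    have h5 : |τ' - τ| * |B| ≤ (1 / 2 : ℝ) ^ a * (1 / 2) ^ (n - (a + w)) :=
      mul_le_mul hτ hB (abs_nonneg _) (by positivity)
    rw [← e] at h5
    have h6 := half_le (Nat.sub_le n w)
    linarith
  have kx : |pos l τ' 0 - pos l' τ' 0| ≤ 2 * (1 / 2 : ℝ) ^ (A.p - w) := by
    rw [pos_diff l l' τ τ' 0]
    exact key hC.x hC.y (by omega)
  have kf : |(pos l τ' 1 - ws * pos l τ' 0) - (pos l' τ' 1 - ws * pos l' τ' 0)| ≤
      2 * (1 / 2 : ℝ) ^ (A.r - w) := by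
    have e : (pos l τ' 1 - ws * pos l τ' 0) - (pos l' τ' 1 - ws * pos l' τ' 0) =
        ((pos l τ 1 - ws * pos l τ 0) - (pos l' τ 1 - ws * pos l' τ 0)) +
          (τ' - τ) * ((l.2 1 - ws * l.2 0) - (l'.2 1 - ws * l'.2 0)) := by
      unfold pos; ring
    rw [e]
    exact key hC.f hC.g (by omega)
  -- the slopes
  have hs : |ws - wJ| ≤ (1 / 2 : ℝ) ^ (A.r - A.p) + 2 * (1 / 2 : ℝ) ^ (J.r - J.p) := by
    have a1 := qa_close (A.r - A.p) A.v
    have a2 := qa_close (J.r - J.p) J.v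
    rw [abs_sub_comm] at a1
    have e : ws - wJ = (ws - A.v) + (A.v - J.v) + (J.v - wJ) := by ring
    rw [e]
    refine (abs_add_three _ _ _).trans ?_
    linarith
  have mulle : ∀ {B : ℝ} {n n' : ℕ}, |B| ≤ 2 * (1 / 2 : ℝ) ^ n' →
      (1 / 2 : ℝ) ^ (A.r - A.p) * (1 / 2) ^ n' ≤ (1 / 2) ^ n →
      (1 / 2 : ℝ) ^ (J.r - J.p) * (1 / 2) ^ n' ≤ (1 / 2) ^ n →
      |(ws - wJ) * B| ≤ 6 * (1 / 2 : ℝ) ^ n := by
    intro B n n' g1 g2 g3
    rw [abs_mul]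
    have h7 : |ws - wJ| * |B| ≤ ((1 / 2 : ℝ) ^ (A.r - A.p) + 2 * (1 / 2 : ℝ) ^ (J.r - J.p)) *
        (2 * (1 / 2 : ℝ) ^ n') := mul_le_mul hs g1 (abs_nonneg _) (by positivity)
    refine h7.trans ?_
    have e : ((1 / 2 : ℝ) ^ (A.r - A.p) + 2 * (1 / 2 : ℝ) ^ (J.r - J.p)) * (2 * (1 / 2 : ℝ) ^ n') =
        2 * ((1 / 2 : ℝ) ^ (A.r - A.p) * (1 / 2) ^ n') +
          4 * ((1 / 2 : ℝ) ^ (J.r - J.p) * (1 / 2) ^ n') := by ring
    rw [e]
    linarith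
  have := near_of (M := 8) (a := a) (p := J.p) (r := J.r) (v := J.v) (v' := J'.v) (l := l)
    (l' := l') (t := t) (t' := t') (fl1_coarse (by omega) h3') e3 ?_ ?_ ?_ ?_
  · exact_mod_cast this
  · have e := half_le (show J.p ≤ A.p - w by omega)
    push_cast
    linarith [(by positivity : (0:ℝ) < (1 / 2) ^ J.p)]
  · have e : (pos l τ' 1 - wJ * pos l τ' 0) - (pos l' τ' 1 - wJ * pos l' τ' 0) =
        ((pos l τ' 1 - ws * pos l τ' 0) - (pos l' τ' 1 - ws * pos l' τ' 0)) +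
          (ws - wJ) * (pos l τ' 0 - pos l' τ' 0) := by ring
    rw [e]
    refine (abs_add_le _ _).trans ?_
    have q1 := half_le (show J.r ≤ A.r - w by omega)
    have q2 := mulle (n := J.r) kx
      (by rw [← pow_add]; exact half_le (by omega)) (by rw [← pow_add]; exact half_le (by omega))
    push_cast
    linarith
  · have e := half_le (show J.p - a ≤ A.p - (a + w) by omega)
    have := hC.y
    push_cast
    linarith [(by positivity : (0:ℝ) < (1 / 2) ^ (J.p - a))]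
  · have e : (l.2 1 - wJ * l.2 0) - (l'.2 1 - wJ * l'.2 0) =
        ((l.2 1 - ws * l.2 0) - (l'.2 1 - ws * l'.2 0)) + (ws - wJ) * (l.2 0 - l'.2 0) := by ring
    rw [e]
    refine (abs_add_le _ _).trans ?_
    have q1 := half_le (show J.r - a ≤ A.r - (a + w) by omega)
    have q2 := mulle (B := l.2 0 - l'.2 0) (n := J.r - a) (n' := A.p - (a + w))
      (hC.y.trans (by linarith [(by positivity : (0:ℝ) < (1 / 2) ^ (A.p - (a + w)))]))
      (by rw [← pow_add]; exact half_le (by omega)) (by rw [← pow_add]; exact half_le (by omega))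
    have := hC.g
    push_cast
    linarith [(by positivity : (0:ℝ) < (1 / 2) ^ (J.r - a))]

/-- **CMP** -/
theorem pCmp : PCmp := by
  refine ⟨4 * Real.log (2 * (9 : ℕ) + 1), ?_, ?_⟩
  · have : 0 ≤ Real.log (2 * ((9 : ℕ) : ℝ) + 1) := Real.log_nonneg (by norm_num)
    linarith
  · intro Ω _ P l t γ C a w A J h
    refine hc_near P (M := 9) _ _ ?_
    intro ω ω' hω hω' e
    simp only [Prod.mk.injEq] at e
    obtain ⟨e1, ⟨e2, e3, e4⟩, -⟩ := e
    obtain ⟨h1, h2, h3, h4, h5, h6⟩ := h ω hω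
    exact cmp_near e1 e2 e3 e4 h1 h2 h3 h4 h5 h6

end Vale.Agent.P127.S
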