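import Vale.Agent.P127.U.Defs

/-!
# P127 / S : the exact finite layer in shear frames (helper101)

* A shape `A = (p, r, v)` : exponents `p ≤ r`, slope `v ∈ [0,1)`; it stands for the plank
  `|z₁| ≤ 2^-p, |z₂ - v z₁| ≤ 2^-r` in the plane of positions.
* `dl a A l t` : label of the line `l` at the level `a` of time : the cell of the position at the time
  `t_a` with exponents `(p, r)`, the cell of the velocity with exponents `(p - a, r - a)`.
* `val lam P a A l t C = H(l | dl a A l t, C) + log 2 · E((1 + lam) p + (1 - lam) r)` : the value of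
  the label (penalised excess up to a constant); `l` is the exact line of the finite law.
* `Ok a u ρ R V A` : `a + u ≤ p`, `p + ρ ≤ r ≤ R`, `v ∈ [0,1)` and the first `ρ` digits of `v` are
  those of `V`.
* `FB N lam w b` : **window inequality for labels of fixed exponents** with the bound `b`.
* `lrel, trel, sabs, srel` : line, time and shapes relative to a frame `(a; p₀, r₀, v₀)`.
* `NX N lam β η h q P l t v` : normalised almost extremal law with defect `η` (in nats).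
-/

set_option autoImplicit false

namespace Vale.Agent.P127.S

open Vale.Agent.P127 Vale.Agent.P127.Stk Vale.Agent.P127.U

/-- shape of a label -/
@[ext] structure Sh where
  p : ℕ
  r : ℕ
  v : ℝ

/-- type of the labels -/
abbrev Lb := ℕ × ℕ × ℤ × ℤ × (ℤ × ℤ) × (ℤ × ℤ)

/-- rounded slope -/
noncomputable def Sh.q (A : Sh) : ℝ := qa (A.r - A.p) A.v

/-- position of the line at the rounded time `t_a` -/
noncomputable def X (a : ℕ) (l : Ln) (t : ℝ) : Fin 2 → ℝ := pos l (qa a t)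

/-- label of the line `l` at the level `a`, shape `A` -/
noncomputable def dl (a : ℕ) (A : Sh) (l : Ln) (t : ℝ) : Lb :=
  (A.p, A.r, fl1 a t, fl1 (A.r - A.p) A.v,
    (fl1 A.p (X a l t 0), fl1 A.r (X a l t 1 - A.q * X a l t 0)),
    (fl1 (A.p - a) (l.2 0), fl1 (A.r - a) (l.2 1 - A.q * l.2 0)))

/-- the score `(1 + lam) p + (1 - lam) r` -/
noncomputable def sc (lam : ℝ) (A : Sh) : ℝ := (1 + lam) * (A.p : ℝ) + (1 - lam) * (A.r : ℝ)

/-- admissible shapes at the level `a` : room `u`, slab precision `ρ` in the direction `V`, bound `R` -/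
def Ok (a u ρ R : ℕ) (V : ℝ) (A : Sh) : Prop :=
  a + u ≤ A.p ∧ A.p + ρ ≤ A.r ∧ A.r ≤ R ∧ 0 ≤ A.v ∧ A.v < 1 ∧ fl1 ρ A.v = fl1 ρ V

/-! ### relative coordinates in the frame `(a; F)` -/

/-- relative time -/
noncomputable def trel (a : ℕ) (t : ℝ) : ℝ := Int.fract ((2:ℝ) ^ a * t)

/-- relative line in the frame `(a; F)` -/
noncomputable def lrel (a : ℕ) (F : Sh) (l : Ln) (t : ℝ) : Ln :=
  (![Int.fract ((2:ℝ) ^ F.p * X a l t 0),
      Int.fract ((2:ℝ) ^ F.r * (X a l t 1 - F.q * X a l t 0))],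
    ![Int.fract ((2:ℝ) ^ (F.p - a) * l.2 0), Int.fract ((2:ℝ) ^ (F.r - a) * (l.2 1 - F.q * l.2 0))])

/-- absolute shape of the relative shape `B` -/
noncomputable def sabs (F B : Sh) : Sh := ⟨F.p + B.p, F.r + B.r, F.q + B.v / 2 ^ (F.r - F.p)⟩

/-- relative shape of `A` -/
noncomputable def srel (F A : Sh) : Sh :=
  ⟨A.p - F.p, A.r - F.r, Int.fract ((2:ℝ) ^ (F.r - F.p) * A.v)⟩

section finite

variable {Ω : Type} [Fintype Ω] {γ : Type*}

/-- value of the label of shape `A` at the level `a`, given `C` -/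
noncomputable def val (lam : ℝ) (P : Law Ω) (a : ℕ) (A : Ω → Sh) (l : Ω → Ln) (t : Ω → ℝ)
    (C : Ω → γ) : ℝ :=
  hc P l (fun ω => (dl a (A ω) (l ω) (t ω), C ω)) + Real.log 2 * P.ex fun ω => sc lam (A ω)

/-- entropy of the time digits up to the level `w` given the line and `C` -/
noncomputable def tH (P : Law Ω) (w : ℕ) (l : Ω → Ln) (t : Ω → ℝ) (C : Ω → γ) : ℝ :=
  hc P (fun ω => fl1 w (t ω)) (fun ω => (l ω, C ω))

/-- normalised system : `t ∈ [0,1)` -/
def T01 (P : Law Ω) (t : Ω → ℝ) : Prop := ∀ ω, 0 < P.w ω → 0 ≤ t ω ∧ t ω < 1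

/-- probability that two copies of `X` given `Y` differ by at most `1` -/
noncomputable def adj {α : Type} (P : Law Ω) (X : Ω → ℤ) (Y : Ω → α) : ℝ :=
  P.ex fun ω => (P.cond Y (Y ω)).ex fun ω' => if |X ω - X ω'| ≤ 1 then (1:ℝ) else 0

end finite

/-- an extension of a finite law -/
structure Ex {Ω : Type} [Fintype Ω] (P : Law Ω) where
  Ω' : Type
  fin : Fintype Ω'
  P' : @Law Ω' fin
  π : Ω' → Ω
  law : ∀ ω, @Law.pr Ω' fin _ P' π ω = P.w ω

attribute [instance] Ex.fin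

/-- pull back to an extension -/
def Ex.pull {Ω : Type} [Fintype Ω] {P : Law Ω} (e : Ex P) {α : Type*} (X : Ω → α) : e.Ω' → α :=
  fun ω => X (e.π ω)

/-- **window inequality for labels of fixed exponents** : for a label `W` of fixed exponents
`(p, r)`, `w ≤ p ≤ r`, at the level `w` there is a label `A` at the level `0` on an extension, with
`p - w ≤ A.p`, `A.r ≤ r` and `val W ≤ val A + b + N (w log 2 - H(t_w | l, C)) + 1`. -/
def FB (N lam : ℝ) (w : ℕ) (b : ℝ) : Prop :=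
  ∀ (Ω : Type) [Fintype Ω] (P : Law Ω) (l : Ω → Ln) (t : Ω → ℝ) (γ : Type) (C : Ω → γ)
    (W : Ω → Sh) (p r : ℕ), T01 P t → w ≤ p →
    (∀ ω, 0 < P.w ω → (W ω).p = p ∧ (W ω).r = r ∧ Ok w (p - w) 0 r 0 (W ω)) →
    ∃ (e : Ex P) (A : e.Ω' → Sh),
      (∀ ω, 0 < e.P'.w ω → Ok 0 (p - w) 0 r 0 (A ω)) ∧
      val lam P w W l t C ≤
        val lam e.P' 0 A (e.pull l) (e.pull t) (e.pull C) + b +
          N * (w * Real.log 2 - tH P w l t C) + 1

/-- the rate `β` is admissible -/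
def FBeta (N lam β : ℝ) : Prop :=
  ∀ ε : ℝ, 0 < ε → ∃ c : ℝ, 0 ≤ c ∧ ∀ w : ℕ, FB N lam w ((β + ε) * w * Real.log 2 + c)

/-- **normalised almost extremal law**, defect `η` (in nats) : lines in the unit cell, end label
`(h, h + q)` of slope `v` at the level `h`, at least as good as all labels at the level `0` -/
structure NX (N lam β η : ℝ) (h q : ℕ) {Ω : Type} [Fintype Ω] (P : Law Ω) (l : Ω → Ln)
    (t v : Ω → ℝ) : Prop where
  l01 : ∀ ω, (∀ i, 0 ≤ (l ω).1 i ∧ (l ω).1 i < 1) ∧ ∀ i, 0 ≤ (l ω).2 i ∧ (l ω).2 i < 1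
  t01 : ∀ ω, 0 ≤ t ω ∧ t ω < 1
  v01 : ∀ ω, 0 ≤ v ω ∧ v ω < 1
  ge : ∀ (e : Ex P) (A : e.Ω' → Sh), (∀ ω, 0 < e.P'.w ω → Ok 0 0 0 (h + q) 0 (A ω)) →
    val lam e.P' 0 A (e.pull l) (e.pull t) (fun _ => ()) + β * h * Real.log 2 +
        N * (h * Real.log 2 - tH P h l t (fun _ => ())) ≤
      val lam P h (fun ω => ⟨h, h + q, v ω⟩) l t (fun _ => ()) + η

end Vale.Agent.P127.S
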