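import Vale.Agent.P127.S.Blocks

/-!
# P127 / S : EXTR, existence of normalised almost extremal laws with `q ≤ K h` (helper97)
-/

set_option autoImplicit false

namespace Vale.Agent.P127.S

open Vale.Agent.P127 Vale.Agent.P127.Stk Vale.Agent.P127.U

namespace ExtrA

variable {Ω : Type} [Fintype Ω]

theorem NX.mono {N lam β η η' : ℝ} {h q : ℕ} {P : Law Ω} {l : Ω → Ln} {t v : Ω → ℝ}
    (H : NX N lam β η h q P l t v) (hη : η ≤ η') : NX N lam β η' h q P l t v where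
  l01 := H.l01
  t01 := H.t01
  v01 := H.v01
  ge e A hA := by
    have := H.ge e A hA
    linarith

/-- a most probable value -/
theorem exists_mode (Q : Law Ω) (J : Ω → ℤ) : ∃ c : ℤ, ∀ j : ℤ, Q.pr J j ≤ Q.pr J c := by
  classical
  have hne : Nonempty Ω := by
    by_contra hcon
    rw [not_nonempty_iff] at hcon
    have := Q.sum_one
    simp at this
  obtain ⟨ω₀⟩ := hne
  have h1 : (img J).Nonempty := ⟨J ω₀, by simp⟩
  obtain ⟨c, _, hc⟩ := Finset.exists_max_image (img J) (fun j => Q.pr J j) h1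
  refine ⟨c, fun j => ?_⟩
  by_cases hj : j ∈ img J
  · exact hc j hj
  · have h0 : Q.pr J j = 0 := by
      unfold Law.pr
      refine Finset.sum_eq_zero fun ω hω => ?_
      exfalso
      apply hj
      rw [mem_img]
      exact ⟨ω, by simpa using hω⟩
    rw [h0]
    exact Q.pr_nonneg _ _

theorem near_le (Q : Law Ω) (J : Ω → ℤ) (c : ℤ) (hc : ∀ j : ℤ, Q.pr J j ≤ Q.pr J c) (j : ℤ) :
    Q.ex (fun ω' => if |j - J ω'| ≤ 1 then (1:ℝ) else 0) ≤ 3 * Q.pr J c := by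
  classical
  have h1 : Q.ex (fun ω' => if |j - J ω'| ≤ 1 then (1:ℝ) else 0) ≤
      Q.pr J (j - 1) + Q.pr J j + Q.pr J (j + 1) := by
    unfold Law.ex Law.pr
    rw [Finset.sum_filter, Finset.sum_filter, Finset.sum_filter, ← Finset.sum_add_distrib,
      ← Finset.sum_add_distrib]
    refine Finset.sum_le_sum fun ω _ => ?_
    have hw := Q.nn ω
    show Q.w ω * (if |j - J ω| ≤ 1 then (1:ℝ) else 0) ≤ _
    by_cases h : |j - J ω| ≤ 1
    · rw [if_pos h, mul_one]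
      rw [abs_le] at h
      have h3 : J ω = j - 1 ∨ J ω = j ∨ J ω = j + 1 := by omega
      rcases h3 with h3 | h3 | h3
      · rw [if_pos h3]
        split_ifs <;> linarith
      · rw [if_pos h3]
        split_ifs <;> linarith
      · rw [if_pos h3]
        split_ifs <;> linarith
    · rw [if_neg h, mul_zero]
      split_ifs <;> linarith
  have := hc (j - 1)
  have := hc j
  have := hc (j + 1)
  linarith

theorem ex_cond_pr (P : Law Ω) {S : Type} (l : Ω → S) (J : Ω → ℤ) (c : S → ℤ) :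
    P.ex (fun ω => (P.cond l (l ω)).pr J (c (l ω))) = prE P (fun ω => J ω = c (l ω)) := by
  classical
  rw [P.ex_comp l (fun x => (P.cond l x).pr J (c x))]
  have h1 : prE P (fun ω => J ω = c (l ω)) =
      ∑ x ∈ img l, ∑ ω with l ω = x, if J ω = c x then P.w ω else 0 := by
    unfold prE
    rw [Finset.sum_filter, ← Finset.sum_fiberwise_of_maps_to (g := l) (t := img l) (by simp)]
    refine Finset.sum_congr rfl fun x _ => Finset.sum_congr (by ext; simp) fun ω hω => ?_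
    have : l ω = x := by simpa using hω
    subst this
    by_cases hj : J ω = c (l ω)
    · rw [if_pos hj, if_pos hj]
    · rw [if_neg hj, if_neg hj]
  rw [h1]
  refine Finset.sum_congr rfl fun x _ => ?_
  have h2 : (∑ ω with l ω = x, if J ω = c x then P.w ω else 0) =
      P.pr (fun ω => (J ω, l ω)) (c x, x) := by
    unfold Law.pr
    rw [← Finset.sum_filter, Finset.filter_filter]
    refine Finset.sum_congr ?_ fun _ _ => rfl
    ext ω
    simp only [Finset.mem_filter, Finset.mem_univ, true_and, Prod.mk.injEq]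
    tauto
  rw [h2]
  rcases (P.pr_nonneg l x).eq_or_lt with h0 | h0
  · rw [← h0, zero_mul]
    symm
    unfold Law.pr
    refine Finset.sum_eq_zero fun ω hω => ?_
    have h3 : l ω = x := by
      simp only [Finset.mem_filter, Finset.mem_univ, true_and, Prod.mk.injEq] at hω
      exact hω.2
    have h4 := P.w_le_pr l ω
    rw [h3, ← h0] at h4
    exact le_antisymm h4 (P.nn ω)
  · rw [P.cond_pr l x h0]
    field_simp

theorem floor_near {d : ℕ} {x y : ℝ} (h : |x - y| ≤ (1 / 2 : ℝ) ^ d) :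
    |fl1 d x - fl1 d y| ≤ 1 := by
  unfold fl1
  have h2 : (0:ℝ) < 2 ^ d := by positivity
  have h1 : |(2:ℝ) ^ d * x - 2 ^ d * y| ≤ 1 := by
    rw [← mul_sub, abs_mul, abs_of_pos h2]
    calc (2:ℝ) ^ d * |x - y| ≤ 2 ^ d * (1 / 2) ^ d := mul_le_mul_of_nonneg_left h h2.le
      _ = 1 := by rw [← mul_pow]; norm_num
  rw [abs_le] at h1 ⊢
  have e1 := Int.floor_le ((2:ℝ) ^ d * x)
  have e2 := Int.lt_floor_add_one ((2:ℝ) ^ d * x)
  have e3 := Int.floor_le ((2:ℝ) ^ d * y)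
  have e4 := Int.lt_floor_add_one ((2:ℝ) ^ d * y)
  constructor
  · have : ((⌊(2:ℝ) ^ d * y⌋ : ℤ) : ℝ) < (⌊(2:ℝ) ^ d * x⌋ : ℝ) + 2 := by linarith
    have : (⌊(2:ℝ) ^ d * y⌋ : ℤ) < ⌊(2:ℝ) ^ d * x⌋ + 2 := by exact_mod_cast this
    omega
  · have : ((⌊(2:ℝ) ^ d * x⌋ : ℤ) : ℝ) < (⌊(2:ℝ) ^ d * y⌋ : ℝ) + 2 := by linarith
    have : (⌊(2:ℝ) ^ d * x⌋ : ℤ) < ⌊(2:ℝ) ^ d * y⌋ + 2 := by exact_mod_cast this
    omega

/-- if two copies given `l` agree to `d` digits with probability `7/8`, then the cell of `v` is a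
function of `l` with probability `1/4` -/
theorem mode_prob (P : Law Ω) {S : Type} (l : Ω → S) (v : Ω → ℝ) (d : ℕ)
    (h : P.ex (fun ω => (P.cond l (l ω)).ex fun ω' =>
        if |v ω - v ω'| ≤ (1 / 2 : ℝ) ^ d then (0:ℝ) else 1) ≤ 1 / 8) :
    ∃ c : S → ℤ, 1 / 4 ≤ prE P (fun ω => fl1 d (v ω) = c (l ω)) := by
  classical
  choose c hc using fun x : S => exists_mode (P.cond l x) (fun ω => fl1 d (v ω))
  refine ⟨c, ?_⟩
  have h1 : P.ex (fun ω => 1 - (P.cond l (l ω)).ex fun ω' =>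
        if |v ω - v ω'| ≤ (1 / 2 : ℝ) ^ d then (0:ℝ) else 1) ≤
      P.ex (fun ω => 3 * (P.cond l (l ω)).pr (fun ω => fl1 d (v ω)) (c (l ω))) := by
    refine P.ex_mono fun ω _ => ?_
    refine le_trans ?_ (near_le (P.cond l (l ω)) (fun ω => fl1 d (v ω)) (c (l ω)) (hc (l ω))
      (fl1 d (v ω)))
    have hone : (1:ℝ) - (P.cond l (l ω)).ex (fun ω' =>
        if |v ω - v ω'| ≤ (1 / 2 : ℝ) ^ d then (0:ℝ) else 1) =
        (P.cond l (l ω)).ex (fun ω' => 1 - if |v ω - v ω'| ≤ (1 / 2 : ℝ) ^ d then (0:ℝ) else 1) := by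
      rw [Law.ex_sub, Law.ex_const]
    rw [hone]
    refine Law.ex_mono _ fun ω' _ => ?_
    by_cases hv : |v ω - v ω'| ≤ (1 / 2 : ℝ) ^ d
    · rw [if_pos hv, if_pos (floor_near hv)]
      norm_num
    · rw [if_neg hv]
      split_ifs <;> norm_num
  rw [P.ex_sub, P.ex_const, P.ex_const_mul, ex_cond_pr] at h1
  linarith

theorem ex_bool (P : Law Ω) (z : Ω → Bool) (f : Bool → ℝ) :
    P.ex (fun ω => f (z ω)) = P.pr z true * f true + P.pr z false * f false := by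
  classical
  have h1 : P.ex (fun ω => f (z ω)) = ∑ b : Bool, P.pr z b * f b := by
    unfold Law.ex Law.pr
    rw [← Finset.sum_fiberwise_of_maps_to (g := z) (t := Finset.univ) (by simp)]
    refine Finset.sum_congr rfl fun b _ => ?_
    rw [Finset.sum_mul]
    refine Finset.sum_congr (by ext; simp) fun ω hω => ?_
    have : z ω = b := by simpa using hω
    simp only [this]
  rw [h1, Fintype.sum_bool]

theorem pr_bool (P : Law Ω) (z : Ω → Bool) : P.pr z true + P.pr z false = 1 := by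
  have := ex_bool P z (fun _ => 1)
  rw [P.ex_const] at this
  linarith

theorem exists_of_pr_pos {S : Type*} (P : Law Ω) (z : Ω → S) (b : S) (h : 0 < P.pr z b) :
    ∃ ω, 0 < P.w ω ∧ z ω = b := by
  classical
  by_contra hcon
  push Not at hcon
  have : P.pr z b = 0 := by
    unfold Law.pr
    refine Finset.sum_eq_zero fun ω hω => ?_
    by_contra hne
    exact hcon ω ((P.nn ω).lt_of_ne (Ne.symm hne)) (by simpa using hω)
  linarith

theorem cond_supp {S : Type*} (P : Law Ω) (z : Ω → S) (b : S) (h : 0 < P.pr z b) {ω : Ω}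
    (hω : 0 < (P.cond z b).w ω) : z ω = b ∧ 0 < P.w ω := by
  classical
  rw [P.cond_w z b h] at hω
  by_cases hz : z ω = b
  · refine ⟨hz, ?_⟩
    rw [if_pos hz] at hω
    by_contra hcon
    have h0 : P.w ω = 0 := le_antisymm (not_lt.1 hcon) (P.nn ω)
    rw [h0, zero_div] at hω
    exact lt_irrefl _ hω
  · rw [if_neg hz] at hω
    exact absurd hω (lt_irrefl _)

theorem fl1_coarse {s s' : ℕ} (h : s ≤ s') {x y : ℝ} (e : fl1 s' x = fl1 s' y) :
    fl1 s x = fl1 s y := by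
  have := fl_of_fl (ι := Unit) h (fun _ => x) (fun _ => y) (by funext i; exact e)
  exact congrFun this ()

/-- conditioning on an event on which the first `q - k` digits of the slope are a function of the
line -/
theorem step_event {N lam β η : ℝ} (hN : 0 ≤ N) (hlam0 : 0 ≤ lam) (hlam1 : lam ≤ 1) {h q d : ℕ}
    {b : ℝ} (hb0 : 0 ≤ b) (hη0 : 0 ≤ η) (hS : PSel) (hL : PNXlow)
    (hF : FB N lam h (β * h * Real.log 2 + b)) {Ω : Type} [Fintype Ω] (P : Law Ω) (l : Ω → Ln)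
    (t v : Ω → ℝ) (HX : NX N lam β η h q P l t v) (c : Ln → ℤ)
    (hc : 1 / 4 ≤ prE P (fun ω => fl1 d (v ω) = c (l ω))) :
    ∃ P1 : Law Ω, NX N lam β (4 * (η + (1 + N) * Real.log 2 + 1 + (b + 1))) h q P1 l t v ∧
      ∀ ω, 0 < P1.w ω → fl1 d (v ω) = c (l ω) := by
  classical
  have hl2 : 0 < Real.log 2 := Real.log_pos (by norm_num)
  set z : Ω → Bool := fun ω => decide (fl1 d (v ω) = c (l ω)) with hz
  have hpz : P.pr z true = prE P (fun ω => fl1 d (v ω) = c (l ω)) := by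
    unfold Law.pr prE
    refine Finset.sum_congr ?_ fun _ _ => rfl
    ext ω
    simp [hz]
  have hp4 : 1 / 4 ≤ P.pr z true := by rw [hpz]; exact hc
  obtain ⟨η', hη'1, hη'2⟩ := hS N lam β η hN hlam0 hlam1 h q Ω P l t v HX Bool z
  have hzH : P.H z ≤ Real.log 2 := by
    have := P.H_le_log_card z
    simpa using this
  have hz1 : Stk.hc P z (fun ω => dl h ⟨h, h + q, v ω⟩ (l ω) (t ω)) ≤ Real.log 2 :=
    (hc_le_H P z _).trans hzH
  have hz2 : Stk.hc P z l ≤ Real.log 2 := (hc_le_H P z _).trans hzH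
  have hz3 : N * Stk.hc P z l ≤ N * Real.log 2 := mul_le_mul_of_nonneg_left hz2 hN
  rw [ex_bool] at hη'2
  have hpsum := pr_bool P z
  have hlow : -(P.pr z false * (b + 1)) ≤ P.pr z false * η' false := by
    rcases (P.pr_nonneg z false).eq_or_lt with h0 | h0
    · rw [← h0]; simp
    · obtain ⟨ω, hω, hzω⟩ := exists_of_pr_pos P z false h0
      have hNX := hη'1 ω hω
      rw [hzω] at hNX
      have := hL N lam β (η' false) h q _ hF Ω _ l t v hNX
      have h5 : -(b + 1) ≤ η' false := by linarith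
      have := mul_le_mul_of_nonneg_left h5 h0.le
      linarith
  have hpR : P.pr z true * η' true ≤ η + (1 + N) * Real.log 2 + 1 + (b + 1) := by
    have h5 : P.pr z false * (b + 1) ≤ b + 1 := by
      have : P.pr z false ≤ 1 := P.pr_le_one _ _
      nlinarith
    linarith
  have hR0 : 0 ≤ η + (1 + N) * Real.log 2 + 1 + (b + 1) := by positivity
  have hppos : 0 < P.pr z true := by linarith
  have hη'R : η' true ≤ 4 * (η + (1 + N) * Real.log 2 + 1 + (b + 1)) := by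
    by_contra hcon
    push Not at hcon
    have h6 := mul_lt_mul_of_pos_left hcon hppos
    nlinarith
  obtain ⟨ωt, hωt, hzωt⟩ := exists_of_pr_pos P z true hppos
  refine ⟨P.cond z true, ?_, ?_⟩
  · have := hη'1 ωt hωt
    rw [hzωt] at this
    exact NX.mono this hη'R
  · intro ω hω
    have := (cond_supp P z true hppos hω).1
    simpa [hz] using this

/-- conditioning on the first `q - k` digits of the slope -/
theorem step_cell {N lam β η : ℝ} (hN : 0 ≤ N) (hlam0 : 0 ≤ lam) (hlam1 : lam ≤ 1) {h q k : ℕ}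
    (hS : PSel) {Ω : Type} [Fintype Ω] (P1 : Law Ω) (l : Ω → Ln)
    (t v : Ω → ℝ) (HX1 : NX N lam β η h q P1 l t v) (c : Ln → ℤ)
    (hsupp : ∀ ω, 0 < P1.w ω → fl1 (q - k) (v ω) = c (l ω)) :
    ∃ (P2 : Law Ω) (d : ℤ), NX N lam β (η + 1) h q P2 l t v ∧
      ∀ ω, 0 < P2.w ω → fl1 (q - k) (v ω) = d := by
  classical
  obtain ⟨η'', hη''1, hη''2⟩ := hS N lam β η hN hlam0 hlam1 h q Ω P1 l t v HX1 ℤ
    (fun ω => fl1 (q - k) (v ω))
  have hy1 : Stk.hc P1 (fun ω => fl1 (q - k) (v ω))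
      (fun ω => dl h ⟨h, h + q, v ω⟩ (l ω) (t ω)) = 0 := by
    refine hc_zero P1 ?_
    intro ω ω' _ _ e
    have e4 : fl1 (h + q - h) (v ω) = fl1 (h + q - h) (v ω') := by
      have := congrArg (fun x : Lb => x.2.2.2.1) e
      simpa [dl] using this
    rw [Nat.add_sub_cancel_left] at e4
    exact fl1_coarse (Nat.sub_le q k) e4
  have hy2 : Stk.hc P1 (fun ω => fl1 (q - k) (v ω)) l = 0 := by
    refine hc_zero P1 ?_
    intro ω ω' hω hω' e
    simp only [hsupp ω hω, hsupp ω' hω', e]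
  rw [hy1, hy2, mul_zero, add_zero, add_zero] at hη''2
  obtain ⟨ω₂, hω₂, hle⟩ : ∃ ω, 0 < P1.w ω ∧ η'' (fl1 (q - k) (v ω)) ≤ η + 1 := by
    by_contra hcon
    push Not at hcon
    have h7 : ∃ ω, 0 < P1.w ω := by
      by_contra h8
      push Not at h8
      have h9 : ∑ ω, P1.w ω ≤ 0 := Finset.sum_nonpos fun ω _ => h8 ω
      rw [P1.sum_one] at h9
      linarith
    obtain ⟨ω₃, hω₃⟩ := h7
    have h8 : ∑ ω, P1.w ω * (η + 1) < ∑ ω, P1.w ω * η'' (fl1 (q - k) (v ω)) := by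
      refine Finset.sum_lt_sum (fun ω _ => ?_) ⟨ω₃, Finset.mem_univ _, ?_⟩
      · rcases (P1.nn ω).eq_or_lt with h0 | h0
        · rw [← h0]; simp
        · exact (mul_lt_mul_of_pos_left (hcon ω h0) h0).le
      · exact mul_lt_mul_of_pos_left (hcon ω₃ hω₃) hω₃
    rw [← Finset.sum_mul, P1.sum_one, one_mul] at h8
    have : P1.ex (fun ω => η'' (fl1 (q - k) (v ω))) = ∑ ω, P1.w ω * η'' (fl1 (q - k) (v ω)) := rfl
    linarith
  have hd0 : 0 < P1.pr (fun ω => fl1 (q - k) (v ω)) (fl1 (q - k) (v ω₂)) :=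
    P1.pr_pos (fun ω => fl1 (q - k) (v ω)) hω₂
  refine ⟨P1.cond (fun ω => fl1 (q - k) (v ω)) (fl1 (q - k) (v ω₂)), fl1 (q - k) (v ω₂),
    NX.mono (hη''1 ω₂ hω₂) hle, fun ω hω => (cond_supp P1 _ _ hd0 hω).1⟩

end ExtrA

open ExtrA

theorem pExtr_of (h1 : PExtr1) (h2 : PExtr2) (h3 : PExtr3) (hS : PSel) (hL : PNXlow) : PExtr := by
  intro N lam hN hlam0 hlam1
  obtain ⟨K₂, hK₂, H2⟩ := h2 lam hlam0 hlam1
  refine ⟨⌈K₂⌉₊, ?_⟩
  intro β hβ0 hβ2 hFB hbad ε hε h₀
  obtain ⟨c₀, H1⟩ := h1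
  obtain ⟨c₃, hc₃, H3⟩ := h3
  set ε₁ : ℝ := min (ε / 16) 1 with hε₁
  have hε₁0 : 0 < ε₁ := lt_min (by positivity) one_pos
  have hε₁1 : ε₁ ≤ 1 := min_le_right _ _
  have hε₁ε : ε₁ ≤ ε / 16 := min_le_left _ _
  obtain ⟨c₁, hc₁, HF⟩ := hFB ε₁ hε₁0
  have hl2 : 0 < Real.log 2 := Real.log_pos (by norm_num)
  have hl2' : Real.log 2 < 1 := by
    have := Real.log_two_lt_d9
    linarith
  obtain ⟨n₁, hn₁⟩ := exists_nat_ge (2 * (4 * ((1 + N) * Real.log 2 + 2 + c₁) + 1 + c₃) / ε)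
  obtain ⟨h, hw, hnot⟩ := hbad ε₁ hε₁0 c₀ (max (max h₀ 1) n₁)
  have hh₀ : h₀ ≤ h := le_trans (le_trans (le_max_left _ _) (le_max_left _ _)) hw
  have hh1 : 1 ≤ h := le_trans (le_trans (le_max_right _ _) (le_max_left _ _)) hw
  have hhn : n₁ ≤ h := le_trans (le_max_right _ _) hw
  have hhR : (1:ℝ) ≤ h := by exact_mod_cast hh1
  have hCh : 4 * ((1 + N) * Real.log 2 + 2 + c₁) + 1 + c₃ ≤ ε * h / 2 := by
    have e1 : 2 * (4 * ((1 + N) * Real.log 2 + 2 + c₁) + 1 + c₃) / ε ≤ h :=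
      hn₁.trans (by exact_mod_cast hhn)
    rw [div_le_iff₀ hε] at e1
    linarith
  have hnot' : ¬ FB N lam h (β * h * Real.log 2 - ε₁ * h * Real.log 2 + c₀) := by
    have e : β * h * Real.log 2 - ε₁ * h * Real.log 2 + c₀ =
        (β - ε₁) * h * Real.log 2 + c₀ := by ring
    rw [e]
    exact hnot
  obtain ⟨q, Ω, iΩ, P, l, t, v, HX⟩ := H1 N lam hN hlam0.le hlam1 β (ε₁ * h * Real.log 2) h hnot'
  have hη0 : 0 ≤ ε₁ * h * Real.log 2 := by positivity
  have hηh : ε₁ * h * Real.log 2 ≤ ε₁ * h := by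
    have : 0 ≤ ε₁ * h := by positivity
    nlinarith
  have hε₁h : ε₁ * h ≤ ε / 16 * h := mul_le_mul_of_nonneg_right hε₁ε (by positivity)
  have hηh' : ε₁ * h * Real.log 2 ≤ h := by
    refine hηh.trans ?_
    have := mul_le_mul_of_nonneg_right hε₁1 (by positivity : (0:ℝ) ≤ h)
    linarith
  have hεh : 0 ≤ ε * h := by positivity
  by_cases hq : q ≤ ⌈K₂⌉₊ * h
  · refine ⟨h, q, Ω, iΩ, P, l, t, v, hh₀, hq, NX.mono HX ?_⟩
    linarith
  · push Not at hq
    have hkq : ⌈K₂⌉₊ * h ≤ q := hq.le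
    have hKk : K₂ * h ≤ ((⌈K₂⌉₊ * h : ℕ):ℝ) := by
      push_cast
      exact mul_le_mul_of_nonneg_right (Nat.le_ceil K₂) (by positivity)
    have hmode := H2 N β (ε₁ * h * Real.log 2) h q hN hβ0.le hh1 hηh' Ω P l t v HX _ hKk hkq
    obtain ⟨c, hc⟩ := mode_prob P l v (q - ⌈K₂⌉₊ * h) hmode
    have hFh : FB N lam h (β * h * Real.log 2 + (ε₁ * h * Real.log 2 + c₁)) := by
      have e : β * h * Real.log 2 + (ε₁ * h * Real.log 2 + c₁) =
          (β + ε₁) * h * Real.log 2 + c₁ := by ring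
      rw [e]
      exact HF h
    obtain ⟨P1, HX1, hs1⟩ := step_event hN hlam0.le hlam1 (by positivity) hη0 hS hL hFh P l t v HX
      c hc
    obtain ⟨P2, d, HX2, hs2⟩ := step_cell hN hlam0.le hlam1 hS P1 l t v HX1 c hs1
    obtain ⟨Ω', iΩ', P', l', t', v', HX3⟩ := H3 N lam hN hlam0.le hlam1 β _ h q _ d hkq Ω
      P2 l t v HX2 hs2
    refine ⟨h, _, Ω', iΩ', P', l', t', v', hh₀, le_refl _, NX.mono HX3 ?_⟩
    have e8 : 8 * (ε₁ * h * Real.log 2) ≤ ε * h / 2 := by linarith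
    have e9 : 4 * (ε₁ * h * Real.log 2 + (1 + N) * Real.log 2 + 1 +
        (ε₁ * h * Real.log 2 + c₁ + 1)) + 1 + c₃ =
        8 * (ε₁ * h * Real.log 2) + (4 * ((1 + N) * Real.log 2 + 2 + c₁) + 1 + c₃) := by ring
    rw [e9]
    linarith

end Vale.Agent.P127.S
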