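import Vale.Agent.P127.S.Blocks
import Vale.Agent.P127.U.H420.ShapeCost

/-!
# P127 / S : EXTR2 (helper431)

Two copies of the slope of the end label given the line agree up to `O(h)` digits: extend the end
label to the level `0`, take two copies given the line, apply SUBS with `s = m` = level of agreement.
-/

set_option autoImplicit false

namespace Vale.Agent.P127.S.Extr2

open Finset Vale.Agent.P127 Vale.Agent.P127.Stk Vale.Agent.P127.U

section two

variable {Ω : Type} [Fintype Ω] {S : Type*}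

theorem cw_two (P : Law Ω) (W : Ω → S) (ω ω' : Ω) [Decidable (W ω' = W ω)] :
    cw P W 1 ![ω, ω'] = if W ω' = W ω then P.w ω * P.w ω' / P.pr W (W ω) else 0 := by
  classical
  unfold cw
  have h1 : (∀ i : Fin (1 + 1), W ((![ω, ω'] : Fin 2 → Ω) i) = W ((![ω, ω'] : Fin 2 → Ω) 0)) ↔
      W ω' = W ω := by
    constructor
    · intro h
      exact h 1
    · intro h i
      fin_cases i
      · rfl
      · exact h
  have h2 : ∏ i : Fin (1 + 1), P.w ((![ω, ω'] : Fin 2 → Ω) i) = P.w ω * P.w ω' :=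
    Fin.prod_univ_two _
  by_cases h3 : W ω' = W ω
  · rw [if_pos (h1.2 h3), if_pos h3, h2, pow_one]
    rfl
  · rw [if_neg fun h => h3 (h1.1 h), if_neg h3]

/-- expectation of a function of two copies -/
theorem ex_two {P : Law Ω} {W : Ω → S} {Q : Law (Fin 2 → Ω)}
    (hQ : ∀ w, Q.w w = cw P W 1 w) (f : Ω → Ω → ℝ) :
    Q.ex (fun w => f (w 0) (w 1)) =
      P.ex (fun ω => (P.cond W (W ω)).ex fun ω' => f ω ω') := by
  classical
  unfold Law.ex
  rw [← Fintype.sum_equiv (finTwoArrowEquiv Ω).symm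
    (fun p : Ω × Ω => Q.w ![p.1, p.2] * f p.1 p.2) _ (fun p => rfl), Fintype.sum_prod_type]
  refine Finset.sum_congr rfl fun ω _ => ?_
  rw [Finset.mul_sum]
  refine Finset.sum_congr rfl fun ω' _ => ?_
  rw [hQ, cw_two]
  rcases (P.nn ω).eq_or_lt with h0 | h0
  · rw [← h0]
    simp
  · rw [P.cond_w W (W ω) (P.pr_pos W h0)]
    split_ifs
    · ring
    · ring

end two

/-- level of agreement of two slopes, at most `q` -/
noncomputable def lev (q : ℕ) (x y : ℝ) : ℕ := by
  classical exact Nat.findGreatest (fun s => |x - y| ≤ (1 / 2 : ℝ) ^ s) q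

theorem lev_le (q : ℕ) (x y : ℝ) : lev q x y ≤ q := by
  classical
  unfold lev
  exact Nat.findGreatest_le q

theorem lev_spec (q : ℕ) {x y : ℝ} (h : |x - y| ≤ 1) : |x - y| ≤ (1 / 2 : ℝ) ^ lev q x y := by
  classical
  unfold lev
  exact Nat.findGreatest_spec (P := fun s => |x - y| ≤ (1 / 2 : ℝ) ^ s) (m := 0) (Nat.zero_le q)
    (by simpa using h)

theorem lev_lt {q : ℕ} {x y : ℝ} {k : ℕ} (h : lev q x y < k) (hk : k ≤ q) :
    (1 / 2 : ℝ) ^ k < |x - y| := by
  classical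
  unfold lev at h
  exact not_le.1 (Nat.findGreatest_is_greatest h hk)

theorem lev_far {q : ℕ} {x y : ℝ} (h1 : |x - y| ≤ 1) {k : ℕ}
    (h : (1 / 2 : ℝ) ^ k < |x - y|) : lev q x y < k := by
  by_contra hcon
  have h2 := lev_spec q h1
  have h3 : (1 / 2 : ℝ) ^ lev q x y ≤ (1 / 2 : ℝ) ^ k :=
    pow_le_pow_of_le_one (by norm_num) (by norm_num) (not_lt.1 hcon)
  linarith

theorem fl1_zero {x : ℝ} (h0 : 0 ≤ x) (h1 : x < 1) : fl1 0 x = 0 := by
  unfold fl1
  rw [pow_zero, one_mul, Int.floor_eq_zero_iff]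
  exact ⟨h0, h1⟩

theorem H_unit {Ω : Type} [Fintype Ω] (P : Law Ω) : P.H (fun _ : Ω => ()) = 0 := by
  have h2 : P.H (fun _ : Ω => ()) ≤ Real.log (Fintype.card Unit) := P.H_le_log_card _
  simp only [Fintype.card_unit, Nat.cast_one, Real.log_one] at h2
  exact le_antisymm h2 (P.H_nonneg _)

/-- at the level `0` the label does not depend on the time -/
theorem dl_zero (A : Sh) (l : Ln) {t t' : ℝ} (h : fl1 0 t = fl1 0 t') : dl 0 A l t = dl 0 A l t' := by
  unfold dl X qa
  rw [h]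

theorem tH_le {Ω : Type} [Fintype Ω] (P : Law Ω) (w : ℕ) (l : Ω → Ln) (t : Ω → ℝ) {γ : Type*}
    (C : Ω → γ) (ht : T01 P t) : tH P w l t C ≤ w * Real.log 2 := by
  unfold tH
  have h := hc_le_log P (fun ω => fl1 w (t ω)) (fun ω => (l ω, C ω)) (2 ^ w) (fun ω _ => ?_)
  · rw [Nat.cast_pow, Real.log_pow] at h
    exact_mod_cast h
  · refine ⟨Finset.Ico (0:ℤ) (2 ^ w), ?_, fun ω' h' _ => ?_⟩
    · rw [Int.card_Ico]
      simp
    · obtain ⟨h0, h1⟩ := ht ω' h'
      rw [Finset.mem_Ico]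
      unfold fl1
      have h2 : (0:ℝ) < 2 ^ w := by positivity
      constructor
      · exact Int.floor_nonneg.2 (by positivity)
      · rw [Int.floor_lt]
        push_cast
        nlinarith

/-- **EXTR2** -/
theorem main (hE : PExt) (hS : PSubs) : PExtr2 := by
  classical
  obtain ⟨c₁, hc₁, hE⟩ := hE
  obtain ⟨c₂, hc₂, hS⟩ := hS
  intro lam hl0 hl1
  have hlog : 0 < Real.log 2 := Real.log_pos (by norm_num)
  have hlog4 : 0 ≤ Real.log 4 := Real.log_nonneg (by norm_num)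
  set ε : ℝ := lam * Real.log 2 / 6 with hε
  have hε0 : 0 < ε := by positivity
  set K' : ℝ := (2 + 4 * Real.log 2 + 2 * c₁ + c₂ + 3 * Real.log 4 + lam * Real.log 2 +
    6 * |Real.log ε|) / (lam * Real.log 2) with hK'
  have hll : 0 < lam * Real.log 2 := by positivity
  have hK0 : 0 < K' := by positivity
  refine ⟨8 * K', by positivity, ?_⟩
  intro N β η h q hN hβ hh hη Ω _ P l t v hX k hk hkq
  -- the two copies
  obtain ⟨Q, hQ⟩ := cw_exists P l 1
  let e : Ex P := ⟨Fin 2 → Ω, inferInstance, Q, fun w => w 0, cw_marg hQ 0⟩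
  have hw : ∀ w : Fin 2 → Ω, 0 < Q.w w → l (w 1) = l (w 0) := fun w h => (cw_supp hQ h).1 1
  have hv1 : ∀ ω ω', |v ω - v ω'| ≤ 1 := fun ω ω' => by
    have h1 := hX.v01 ω
    have h2 := hX.v01 ω'
    rw [abs_le]
    constructor <;> linarith [h1.1, h1.2, h2.1, h2.2]
  set s : (Fin 2 → Ω) → ℕ := fun w => lev q (v (w 0)) (v (w 1)) with hs
  -- the value of the end label
  set VW : ℝ := val lam P h (fun ω => ⟨h, h + q, v ω⟩) l t (fun _ => ()) with hVW
  set VW' : ℝ := val lam P 0 (fun ω => ⟨0, q, v ω⟩) l t (fun _ => ()) with hVW'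
  have h1 : VW ≤ VW' + 2 * h * Real.log 2 + c₁ := by
    have := hE lam hl0.le hl1 Ω P l t Unit (fun _ => ()) 0 h (fun ω => ⟨h, h + q, v ω⟩)
      (fun ω _ => ⟨by simp, by simp⟩)
    simp only [Nat.sub_self, Nat.add_sub_cancel_left, Nat.zero_add] at this
    exact this
  -- the two labels
  have hA : val lam Q 0 (fun w => ⟨0, q, v (w 0)⟩) (e.pull l) (e.pull t) (fun _ => ()) = VW' := by
    rw [hVW']
    have e1 := cw_hc hQ 0 l (fun ω => ((dl 0 ⟨0, q, v ω⟩ (l ω) (t ω), ()) : Lb × Unit))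
    have e2 := ex_law_aux Q P (fun w => w 0) (cw_marg hQ 0) (fun ω => sc lam ⟨0, q, v ω⟩)
    exact congrArg₂ (fun x y : ℝ => x + Real.log 2 * y) e1 e2
  have ht0 : ∀ ω ω', fl1 0 (t ω) = fl1 0 (t ω') := fun ω ω' => by
    rw [fl1_zero (hX.t01 ω).1 (hX.t01 ω).2, fl1_zero (hX.t01 ω').1 (hX.t01 ω').2]
  have hdl : ∀ w : Fin 2 → Ω, 0 < Q.w w → ∀ A : Sh,
      dl 0 A (l (w 0)) (t (w 0)) = dl 0 A (l (w 1)) (t (w 1)) := fun w h A => by
    rw [hw w h]
    exact dl_zero A _ (ht0 _ _)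
  have hA' : val lam Q 0 (fun w => ⟨0, q, v (w 1)⟩) (e.pull l) (e.pull t) (fun _ => ()) = VW' := by
    rw [hVW']
    have h2 : hc Q (e.pull l) (fun w => ((dl 0 ⟨0, q, v (w 1)⟩ (e.pull l w) (e.pull t w), ()) :
        Lb × Unit)) = hc Q (fun w => l (w 1))
        (fun w => ((dl 0 ⟨0, q, v (w 1)⟩ (l (w 1)) (t (w 1)), ()) : Lb × Unit)) := by
      refine hc_congr Q ?_ ?_ ?_ ?_
      · intro w w' p p' q'
        simp only [Prod.mk.injEq] at q'
        show l (w 0) = l (w' 0)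
        rw [← hw w p, ← hw w' p', q'.1]
      · intro w w' p p' q'
        simp only [Prod.mk.injEq] at q'
        show l (w 1) = l (w' 1)
        rw [hw w p, hw w' p']
        exact q'.1
      · intro w w' p p' q'
        simp only [Prod.mk.injEq, and_true] at q' ⊢
        show dl 0 _ (l (w 0)) (t (w 0)) = dl 0 _ (l (w' 0)) (t (w' 0))
        rw [hdl w p, hdl w' p']
        exact q'
      · intro w w' p p' q'
        simp only [Prod.mk.injEq, and_true] at q' ⊢
        rw [← hdl w p, ← hdl w' p']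
        exact q'
    have e1 := cw_hc hQ 1 l (fun ω => ((dl 0 ⟨0, q, v ω⟩ (l ω) (t ω), ()) : Lb × Unit))
    have e2 := ex_law_aux Q P (fun w => w 1) (cw_marg hQ 1) (fun ω => sc lam ⟨0, q, v ω⟩)
    exact congrArg₂ (fun x y : ℝ => x + Real.log 2 * y) (h2.trans e1) e2
  -- conditional independence
  have hmi : mi Q (fun w => dl 0 ⟨0, q, v (w 0)⟩ (e.pull l w) (e.pull t w))
      (fun w => dl 0 ⟨0, q, v (w 1)⟩ (e.pull l w) (e.pull t w))
      (fun w => (e.pull l w, (), true)) = 0 := by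
    unfold mi
    have h2 : hc Q (fun w => dl 0 ⟨0, q, v (w 0)⟩ (e.pull l w) (e.pull t w))
        (fun w => (e.pull l w, (), true)) =
        hc Q (fun w => (fun ω => dl 0 ⟨0, q, v ω⟩ (l ω) (t ω)) (w 0)) (fun w => l (w 0)) := by
      refine hc_congr Q (fun w w' _ _ q' => (Prod.mk.injEq _ _ _ _ ▸ q').1)
        (fun w w' _ _ q' => (Prod.mk.injEq _ _ _ _ ▸ q').1) ?_ ?_
      · intro w w' _ _ q'
        show (l (w 0), (), true) = (l (w' 0), (), true)
        rw [show l (w 0) = l (w' 0) from q']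
      · intro w w' _ _ q'
        simp only [Prod.mk.injEq, and_true] at q'
        exact q'
    have h3 : hc Q (fun w => dl 0 ⟨0, q, v (w 0)⟩ (e.pull l w) (e.pull t w))
        (fun w => (dl 0 ⟨0, q, v (w 1)⟩ (e.pull l w) (e.pull t w), (e.pull l w, (), true))) =
        hc Q (fun w => (fun ω => dl 0 ⟨0, q, v ω⟩ (l ω) (t ω)) (w 0))
          (fun w => ((fun w : Fin 2 → Ω => dl 0 ⟨0, q, v (w 1)⟩ (l (w 1)) (t (w 1))) w, l (w 0))) := by
      refine hc_congr Q (fun w w' _ _ q' => (Prod.mk.injEq _ _ _ _ ▸ q').1)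
        (fun w w' _ _ q' => (Prod.mk.injEq _ _ _ _ ▸ q').1) ?_ ?_
      · intro w w' p p' q'
        simp only [Prod.mk.injEq, and_true] at q' ⊢
        refine ⟨?_, q'.2⟩
        show dl 0 _ (l (w 0)) (t (w 0)) = dl 0 _ (l (w' 0)) (t (w' 0))
        rw [hdl w p, hdl w' p']
        exact q'.1
      · intro w w' p p' q'
        simp only [Prod.mk.injEq, and_true] at q' ⊢
        refine ⟨?_, q'.2⟩
        rw [← hdl w p, ← hdl w' p']
        exact q'.1
    have e1 := cw_hc hQ 0 (fun ω => dl 0 ⟨0, q, v ω⟩ (l ω) (t ω)) l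
    have e2 := cw_indep hQ 0 (fun ω => dl 0 ⟨0, q, v ω⟩ (l ω) (t ω))
        (fun w : Fin 2 → Ω => dl 0 ⟨0, q, v (w 1)⟩ (l (w 1)) (t (w 1)))
        (fun w w' hww => by
          have := hww 1 (by decide)
          simp only [this])
    exact sub_eq_zero.2 ((h2.trans e1).trans (h3.trans e2).symm)
  -- submodularity
  have h2 := hS lam hl0.le hl1 (Fin 2 → Ω) Q (e.pull l) (e.pull t) Unit (fun _ => ()) 0
    (fun w => ⟨0, q, v (w 0)⟩) (fun w => ⟨0, q, v (w 1)⟩) (fun _ => true) s s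
    (fun w _ => ⟨le_rfl, Nat.zero_le _, rfl, rfl, fun _ =>
      ⟨by simpa [hs] using lev_le q (v (w 0)) (v (w 1)), lev_spec q (hv1 _ _), fun h3 => by
        refine lev_lt (q := q) (lt_of_le_of_lt le_rfl (Nat.lt_succ_self _)) ?_
        simp only [Nat.sub_zero] at h3
        omega⟩⟩)
  simp only [if_true, hA, hA', hmi] at h2
  -- the labels `M` and `J` are not better than the end label
  have hTT : 0 ≤ N * (h * Real.log 2 - tH P h l t (fun _ => ())) :=
    mul_nonneg hN (sub_nonneg.2 (tH_le P h l t _ fun ω _ => hX.t01 ω))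
  have hβ' : 0 ≤ β * h * Real.log 2 := by positivity
  have hM := hX.ge e (fun w => ⟨max 0 (q - (s w + 3)), q, v (w 0)⟩) (fun w _ =>
    ⟨by simp, by simp, Nat.le_add_left q h, (hX.v01 _).1, (hX.v01 _).2, by
      rw [fl1_zero (hX.v01 _).1 (hX.v01 _).2, fl1_zero le_rfl zero_lt_one]⟩)
  have hJ := hX.ge e (fun w => ⟨0, 0 + s w, v (w 0)⟩) (fun w _ =>
    ⟨by simp, by simp, by
      have := lev_le q (v (w 0)) (v (w 1))
      simp only [hs]
      omega, (hX.v01 _).1, (hX.v01 _).2, by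
      rw [fl1_zero (hX.v01 _).1 (hX.v01 _).2, fl1_zero le_rfl zero_lt_one]⟩)
  rw [← hVW] at hM hJ
  -- the entropy of the level of agreement
  set E : ℝ := Q.ex (fun w => (q : ℝ) - s w) with hEdef
  have hsq : ∀ w, (s w : ℝ) ≤ q := fun w => by exact_mod_cast lev_le q (v (w 0)) (v (w 1))
  have hE0 : 0 ≤ E := Q.ex_nonneg fun w _ => sub_nonneg.2 (hsq w)
  have hent : Q.H (fun w => (true, s w, s w)) ≤ Real.log 4 + 2 * Real.log (1 + E) := by
    have e1 := ShapeCost.hc_int_le Q (fun w => (q : ℤ) - s w) (fun _ => ())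
    have e2 : Q.ex (fun w => |(((q : ℤ) - s w : ℤ) : ℝ)|) = E := by
      rw [hEdef]
      refine Q.ex_congr fun w _ => ?_
      push_cast
      exact abs_of_nonneg (sub_nonneg.2 (hsq w))
    rw [e2] at e1
    refine le_trans ?_ e1
    unfold hc
    rw [H_unit, sub_zero]
    refine H_mono' Q ?_
    intro w w' _ _ q'
    simp only [Prod.mk.injEq, and_true] at q'
    have : s w = s w' := by omega
    simp only [this]
  have hexp : Q.ex (fun w => 2 * lam * ((q : ℝ) - (0 : ℕ) - s w) -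
      (1 + lam) * ((s w : ℝ) - s w)) = 2 * lam * E := by
    rw [hEdef, ← Q.ex_const_mul]
    refine Q.ex_congr fun w _ => ?_
    push_cast
    ring
  have h3 : VW' + VW' + Real.log 2 * (2 * lam * E) ≤
      (VW + η) + (VW + η) + 0 + 3 * (Real.log 4 + 2 * Real.log (1 + E)) + c₂ := by
    rw [hexp] at h2
    have hM' : val lam Q 0 (fun w => ⟨max 0 (q - (s w + 3)), q, v (w 0)⟩) (e.pull l) (e.pull t)
        (fun _ => ()) ≤ VW + η := by
      have := hM
      change val lam Q 0 _ _ _ _ + _ + _ ≤ _ at this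
      linarith
    have hJ' : val lam Q 0 (fun w => ⟨0, 0 + s w, v (w 0)⟩) (e.pull l) (e.pull t)
        (fun _ => ()) ≤ VW + η := by
      have := hJ
      change val lam Q 0 _ _ _ _ + _ + _ ≤ _ at this
      linarith
    linarith
  -- `E ≤ K' h`
  have hh' : (1 : ℝ) ≤ h := by exact_mod_cast hh
  have h4 : 6 * Real.log (1 + E) ≤ lam * Real.log 2 * (1 + E) + 6 * |Real.log ε| := by
    have e1 := Real.log_le_sub_one_of_pos (mul_pos hε0 (show (0:ℝ) < 1 + E by linarith))
    rw [Real.log_mul hε0.ne' (by linarith)] at e1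
    have e2 : 6 * ε = lam * Real.log 2 := by
      rw [hε]
      ring
    have e3 := neg_abs_le (Real.log ε)
    have e4 : 6 * (ε * (1 + E)) = lam * Real.log 2 * (1 + E) := by
      rw [← mul_assoc, e2]
    linarith
  have h5 : E ≤ K' * h := by
    have e1 : lam * Real.log 2 * E ≤ (2 + 4 * Real.log 2 + 2 * c₁ + c₂ + 3 * Real.log 4 +
        lam * Real.log 2 + 6 * |Real.log ε|) * h := by
      have e2 : (2 * c₁ + c₂ + 3 * Real.log 4 + lam * Real.log 2 + 6 * |Real.log ε|) * 1 ≤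
          (2 * c₁ + c₂ + 3 * Real.log 4 + lam * Real.log 2 + 6 * |Real.log ε|) * h := by
        refine mul_le_mul_of_nonneg_left hh' ?_
        have := abs_nonneg (Real.log ε)
        positivity
      nlinarith
    rw [hK', div_mul_eq_mul_div, le_div_iff₀ hll]
    linarith
  -- Markov
  have hk0 : (0 : ℝ) < k := by
    have : 0 < 8 * K' * h := by positivity
    linarith
  have h6 := ex_two hQ (fun ω ω' => if |v ω - v ω'| ≤ (1 / 2 : ℝ) ^ (q - k) then (0:ℝ) else 1)
  rw [← h6]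
  have h7 : Q.ex (fun w => if |v (w 0) - v (w 1)| ≤ (1 / 2 : ℝ) ^ (q - k) then (0:ℝ) else 1) ≤
      (k : ℝ)⁻¹ * E := by
    rw [hEdef, ← Q.ex_const_mul]
    refine Q.ex_mono fun w _ => ?_
    have hnn : 0 ≤ (q : ℝ) - s w := sub_nonneg.2 (hsq w)
    split_ifs with hc
    · positivity
    · have e1 := lev_far (q := q) (hv1 (w 0) (w 1)) (not_le.1 hc)
      have e2 : (s w : ℝ) + k ≤ q := by
        have : s w + k ≤ q := by
          simp only [hs]
          omega
        exact_mod_cast this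
      rw [inv_mul_eq_div, le_div_iff₀ hk0]
      linarith
  refine h7.trans ?_
  rw [inv_mul_eq_div, div_le_iff₀ hk0]
  nlinarith

end Vale.Agent.P127.S.Extr2

namespace Vale.Agent.P127.S

/-- **EXTR2** -/
theorem pExtr2_of (hE : PExt) (hS : PSubs) : PExtr2 := Extr2.main hE hS

end Vale.Agent.P127.S
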