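import Vale.Agent.P127.S.Blocks

/-!
# P127 / S : EXTR3 (helper431)

If the first `q - k` digits of the slope of the end label are constant, the almost extremal law can
be localised to a slab; frame `F = (0, q - k, d / 2^(q - k))` at the level `0`.
-/

set_option autoImplicit false

namespace Vale.Agent.P127.S.Extr3

open Finset Vale.Agent.P127 Vale.Agent.P127.Stk Vale.Agent.P127.U

section gen

variable {Ω : Type} [Fintype Ω] {γ : Type*}

/-- a variable which is constant on the support can be added to the condition -/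
theorem val_const {lam : ℝ} {P : Law Ω} {a : ℕ} {A A' : Ω → Sh} {l : Ω → Ln} {t : Ω → ℝ} {c : Ω → Lb}
    (hA : ∀ ω, 0 < P.w ω → A ω = A' ω) (hc : ∀ ω ω', 0 < P.w ω → 0 < P.w ω' → c ω = c ω') :
    val lam P a A l t (fun ω => ((), c ω)) = val lam P a A' l t (fun _ => ()) := by
  unfold val
  congr 1
  · refine hc_congr P (fun ω ω' _ _ e => (Prod.mk.injEq _ _ _ _ ▸ e).1)
      (fun ω ω' _ _ e => (Prod.mk.injEq _ _ _ _ ▸ e).1) ?_ ?_
    · intro ω ω' p p' e
      simp only [Prod.mk.injEq, and_true, true_and] at e ⊢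
      rw [hA ω p, hA ω' p']
      exact ⟨e, hc ω ω' p p'⟩
    · intro ω ω' p p' e
      simp only [Prod.mk.injEq, and_true, true_and] at e ⊢
      rw [← hA ω p, ← hA ω' p']
      exact e.1
  · congr 1
    exact P.ex_congr fun ω hω => by rw [hA ω hω]

theorem tH_const {P : Law Ω} {w : ℕ} {l : Ω → Ln} {t : Ω → ℝ} {c : Ω → Lb}
    (hc : ∀ ω ω', 0 < P.w ω → 0 < P.w ω' → c ω = c ω') :
    tH P w l t (fun ω => ((), c ω)) = tH P w l t (fun _ => ()) := by
  unfold tH
  refine hc_congr P (fun ω ω' _ _ e => (Prod.mk.injEq _ _ _ _ ▸ e).1)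
      (fun ω ω' _ _ e => (Prod.mk.injEq _ _ _ _ ▸ e).1) ?_ ?_
  · intro ω ω' p p' e
    simp only [Prod.mk.injEq, and_true, true_and] at e ⊢
    exact ⟨e, hc ω ω' p p'⟩
  · intro ω ω' p p' e
    simp only [Prod.mk.injEq, and_true, true_and] at e ⊢
    exact e.1

theorem cond_supp {α : Type*} {P : Law Ω} {z : Ω → α} {x : α} (hx : 0 < P.pr z x) {ω : Ω}
    (h : 0 < (P.cond z x).w ω) : 0 < P.w ω ∧ z ω = x := by
  classical
  rw [P.cond_w z x hx] at h
  split_ifs at h with h1
  · refine ⟨?_, h1⟩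
    by_contra hcon
    have h0 : P.w ω = 0 := le_antisymm (not_lt.1 hcon) (P.nn ω)
    rw [h0, zero_div] at h
    exact lt_irrefl _ h
  · exact absurd h (lt_irrefl _)

theorem ex_supp {P : Law Ω} (e : Ex P) {ω : e.Ω'} (h : 0 < e.P'.w ω) : 0 < P.w (e.π ω) := by
  rw [← e.law]
  exact e.P'.pr_pos e.π h

end gen

theorem fract_mem (x : ℝ) : 0 ≤ Int.fract x ∧ Int.fract x < 1 :=
  ⟨Int.fract_nonneg x, Int.fract_lt_one x⟩

theorem fl1_zero {x : ℝ} (h0 : 0 ≤ x) (h1 : x < 1) : fl1 0 x = 0 := by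
  unfold fl1
  rw [pow_zero, one_mul, Int.floor_eq_zero_iff]
  exact ⟨h0, h1⟩

/-- the slope of the frame -/
noncomputable def fr (n : ℕ) (d : ℤ) : Sh := ⟨0, n, (d : ℝ) / 2 ^ n⟩

theorem fl1_fr (n : ℕ) (d : ℤ) : fl1 n (fr n d).v = d := by
  unfold fl1 fr
  have h : (2:ℝ) ^ n ≠ 0 := by positivity
  simp only
  rw [mul_div_cancel₀ _ h, Int.floor_intCast]

theorem fr_q (n : ℕ) (d : ℤ) : (fr n d).q = (d : ℝ) / 2 ^ n := by
  have h := fl1_fr n d
  unfold Sh.q qa
  have h2 : (fr n d).r - (fr n d).p = n := by simp [fr]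
  rw [h2, h]

/-- the shape of the end label in the frame -/
theorem sabs_end {h q k : ℕ} {d : ℤ} {v : ℝ} (hk : k ≤ q) (hd : fl1 (q - k) v = d) :
    sabs (fr (q - k) d) ⟨h, h + k, Int.fract ((2:ℝ) ^ (q - k) * v)⟩ = ⟨h, h + q, v⟩ := by
  unfold sabs
  rw [fr_q]
  have h1 : (2:ℝ) ^ (q - k) ≠ 0 := by positivity
  ext
  · simp [fr]
  · simp only [fr]
    omega
  · simp only [fr, Nat.sub_zero]
    rw [← add_div, div_eq_iff h1, ← hd]
    unfold fl1
    rw [Int.floor_add_fract]
    ring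

theorem main (hLV : PLocV) (hL3 : PLoc3) (hC : PCmp) (hG : PGlue) (hS : PSplit) : PExtr3 := by
  classical
  obtain ⟨c, hc0, hC⟩ := hC
  obtain ⟨-, -, hL3⟩ := hL3
  refine ⟨c + 1, by linarith, ?_⟩
  intro N lam hN hl0 hl1 β η h q k d hkq Ω _ P l t v hX hd
  -- some point of the support
  obtain ⟨ω₀, hω₀⟩ : ∃ ω, 0 < P.w ω := by
    by_contra hcon
    push Not at hcon
    have h1 := P.sum_one
    rw [Finset.sum_eq_zero fun ω _ => le_antisymm (hcon ω) (P.nn ω)] at h1
    exact zero_ne_one h1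
  set F : Sh := fr (q - k) d with hF
  have hFp : F.p = 0 := rfl
  have hFr : F.r = q - k := rfl
  have hFv : 0 ≤ F.v ∧ F.v < 1 := by
    have h1 := hX.v01 ω₀
    have h2 := hd ω₀ hω₀
    have h3 : (0:ℝ) < 2 ^ (q - k) := by positivity
    constructor
    · show 0 ≤ (d : ℝ) / 2 ^ (q - k)
      rw [← h2]
      unfold fl1
      have : 0 ≤ ⌊(2:ℝ) ^ (q - k) * v ω₀⌋ := Int.floor_nonneg.2 (mul_nonneg h3.le h1.1)
      have h4 : (0:ℝ) ≤ (⌊(2:ℝ) ^ (q - k) * v ω₀⌋ : ℝ) := by exact_mod_cast this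
      positivity
    · show (d : ℝ) / 2 ^ (q - k) < 1
      rw [← h2, div_lt_one h3]
      unfold fl1
      have h4 := Int.floor_le ((2:ℝ) ^ (q - k) * v ω₀)
      nlinarith
  -- relative data
  set l' : Ω → Ln := fun ω => lrel 0 F (l ω) (t ω) with hl'
  set t' : Ω → ℝ := fun ω => trel 0 (t ω) with ht'
  set v' : Ω → ℝ := fun ω => Int.fract ((2:ℝ) ^ (q - k) * v ω) with hv'
  set z : Ω → Lb := fun ω => dl 0 F (l ω) (t ω) with hz
  by_contra hcon
  push Not at hcon
  -- failure for the conditional laws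
  have hfail : ∀ x, 0 < P.pr z x → ∃ (e : Ex (P.cond z x)) (A : e.Ω' → Sh),
      (∀ ω, 0 < e.P'.w ω → Ok 0 0 0 (h + k) 0 (A ω)) ∧
      val lam (P.cond z x) h (fun ω => ⟨h, h + k, v' ω⟩) l' t' (fun _ => ()) + (η + (c + 1)) <
      val lam e.P' 0 A (e.pull l') (e.pull t') (fun _ => ()) + β * h * Real.log 2 +
        N * (h * Real.log 2 - tH (P.cond z x) h l' t' (fun _ => ())) := by
    intro x _
    by_contra hno
    push Not at hno
    refine hcon Ω inferInstance (P.cond z x) l' t' v' ⟨?_, ?_, ?_, ?_⟩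
    · intro ω
      refine ⟨fun i => ?_, fun i => ?_⟩
      · fin_cases i
        · exact fract_mem _
        · exact fract_mem _
      · fin_cases i
        · exact fract_mem _
        · exact fract_mem _
    · intro ω
      exact fract_mem _
    · intro ω
      exact fract_mem _
    · intro e A hA
      exact hno e A hA
  have hzc : ∀ x, 0 < P.pr z x → ∀ ω, 0 < (P.cond z x).w ω → 0 < P.w ω ∧ z ω = x :=
    fun x hx ω hω => cond_supp hx hω
  set sh : ℝ := Real.log 2 * ((1 + lam) * ((0 : ℕ) : ℝ) + (1 - lam) * ((q - k : ℕ) : ℝ)) with hsh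
  set W : Ω → Sh := fun ω => ⟨h, h + q, v ω⟩ with hW
  set W' : Ω → Sh := fun ω => ⟨h, h + k, v' ω⟩ with hW'
  -- the end label in the frame
  have hend : ∀ x, 0 < P.pr z x →
      val lam (P.cond z x) h W' l' t' (fun _ => ()) + sh =
        val lam (P.cond z x) h W l t (fun _ => ()) ∧
      tH (P.cond z x) h l' t' (fun _ => ()) = tH (P.cond z x) h l t (fun _ => ()) := by
    intro x hx
    obtain ⟨e1, e2⟩ := hLV lam Ω (P.cond z x) l t Unit (fun _ => ()) 0 h 0 (q - k) (fun _ => F) W'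
      le_rfl (Nat.zero_le _) (fun ω _ => ⟨rfl, rfl, le_rfl, Nat.le_add_right _ _⟩)
    have hcc : ∀ ω ω', 0 < (P.cond z x).w ω → 0 < (P.cond z x).w ω' → z ω = z ω' :=
      fun ω ω' p p' => (hzc x hx ω p).2.trans (hzc x hx ω' p').2.symm
    have hsa : ∀ ω, 0 < (P.cond z x).w ω → sabs F (W' ω) = W ω := fun ω p =>
      sabs_end hkq (hd ω (hzc x hx ω p).1)
    rw [Nat.zero_add] at e1 e2
    have e3 := val_const (lam := lam) (P := P.cond z x) (a := h) (A := W') (A' := W') (l := l')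
      (t := t') (c := z) (fun _ _ => rfl) hcc
    have e4 := val_const (lam := lam) (P := P.cond z x) (a := h) (A := fun ω => sabs F (W' ω))
      (A' := W) (l := l) (t := t) (c := z) hsa hcc
    have e5 := tH_const (P := P.cond z x) (w := h) (l := l') (t := t') (c := z) hcc
    have e6 := tH_const (P := P.cond z x) (w := h) (l := l) (t := t) (c := z) hcc
    constructor
    · rw [← e3, ← e4]
      exact e1
    · rw [← e5, ← e6]
      exact e2
  set b : Lb → ℝ := fun x => val lam (P.cond z x) h W' l' t' (fun _ => ()) + (η + (c + 1)) -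
    β * h * Real.log 2 - N * (h * Real.log 2 - tH (P.cond z x) h l' t' (fun _ => ())) + sh with hb
  obtain ⟨e, A, hA, hE⟩ := hG lam Ω P l t Unit (fun _ => ()) 0 Lb z
    (fun _ _ A => Ok 0 0 0 (h + q) 0 A) b (fun x hx => by
      obtain ⟨e, A, hA, hlt⟩ := hfail x hx
      refine ⟨e, fun ω => sabs F (A ω), ?_, ?_⟩
      · intro ω hω
        obtain ⟨a1, a2, a3, a4, a5, -⟩ := hA ω hω
        obtain ⟨b1, b2, -⟩ := hL3 F (A ω) (by rw [hFp]; exact Nat.zero_le _) hFv.1 hFv.2 a4 a5
        refine ⟨by simp, ?_, ?_, b1, b2, ?_⟩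
        · simp only [sabs, hFp, hFr]
          omega
        · simp only [sabs, hFr]
          omega
        · rw [fl1_zero b1 b2, fl1_zero le_rfl zero_lt_one]
      · obtain ⟨e1, -⟩ := hLV lam e.Ω' e.P' (e.pull l) (e.pull t) Unit (fun _ => ()) 0 0 0 (q - k)
          (fun _ => F) A le_rfl (Nat.zero_le _) (fun ω hω => by
            obtain ⟨a1, a2, -⟩ := hA ω hω
            exact ⟨rfl, rfl, Nat.zero_le _, by omega⟩)
        have hcc : ∀ ω ω', 0 < e.P'.w ω → 0 < e.P'.w ω' → z (e.π ω) = z (e.π ω') :=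
          fun ω ω' p p' => (hzc x hx _ (ex_supp e p)).2.trans (hzc x hx _ (ex_supp e p')).2.symm
        have e3 := val_const (lam := lam) (P := e.P') (a := 0) (A := A) (A' := A) (l := e.pull l')
          (t := e.pull t') (c := fun ω => z (e.π ω)) (fun _ _ => rfl) hcc
        have e4 := val_const (lam := lam) (P := e.P') (a := 0) (A := fun ω => sabs F (A ω))
          (A' := fun ω => sabs F (A ω)) (l := e.pull l) (t := e.pull t) (c := fun ω => z (e.π ω))
          (fun _ _ => rfl) hcc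
        have e5 : val lam e.P' 0 A (e.pull l') (e.pull t') (fun _ => ()) + sh =
            val lam e.P' 0 (fun ω => sabs F (A ω)) (e.pull l) (e.pull t) (fun _ => ()) := by
          rw [← e3, ← e4]
          exact e1
        have e6 : b x ≤ val lam e.P' 0 A (e.pull l') (e.pull t') (fun _ => ()) + sh := by
          simp only [hb]
          linarith
        exact e6.trans e5.le)
  have h1 := hX.ge e A hA
  have h2 : P.ex (fun ω => b (z ω)) = P.ex (fun ω => val lam (P.cond z (z ω)) h W l t (fun _ => ())) +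
      (η + (c + 1)) - β * h * Real.log 2 -
      N * (h * Real.log 2 - P.ex (fun ω => tH (P.cond z (z ω)) h l t (fun _ => ()))) := by
    have e1 : P.ex (fun ω => b (z ω)) = P.ex (fun ω => val lam (P.cond z (z ω)) h W l t (fun _ => ()) +
      (η + (c + 1)) - β * h * Real.log 2 -
      N * (h * Real.log 2 - tH (P.cond z (z ω)) h l t (fun _ => ()))) := by
      refine P.ex_congr fun ω hω => ?_
      obtain ⟨a1, a2⟩ := hend (z ω) (P.pr_pos z hω)
      simp only [hb]
      rw [← a1, a2]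
      ring
    rw [e1, P.ex_sub, P.ex_sub, P.ex_add, P.ex_const, P.ex_const, P.ex_const_mul, P.ex_sub,
      P.ex_const]
  obtain ⟨s1, -, s3, -⟩ := hS lam Ω P l t Unit (fun _ => ()) h W Lb z
  have h3 : hc P z (fun ω => (dl h (W ω) (l ω) (t ω), ())) ≤ c := by
    have e1 := hC Ω P l t Unit (fun _ => ()) 0 h W (fun _ => F) (fun ω hω => by
      refine ⟨Nat.zero_le _, by rw [hFp]; exact Nat.zero_le _, ?_, ?_, Nat.le_add_right _ _, ?_⟩
      · show 0 + h ≤ h
        omega
      · show q - k + h ≤ h + q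
        omega
      · show |v ω - (d : ℝ) / 2 ^ (q - k)| ≤ (1 / 2 : ℝ) ^ (q - k - 0)
        have h3 : (0:ℝ) < 2 ^ (q - k) := by positivity
        rw [Nat.sub_zero, ← hd ω hω]
        unfold fl1
        have h4 := Int.floor_le ((2:ℝ) ^ (q - k) * v ω)
        have h5 := Int.lt_floor_add_one ((2:ℝ) ^ (q - k) * v ω)
        have h6 : v ω - (⌊(2:ℝ) ^ (q - k) * v ω⌋ : ℝ) / 2 ^ (q - k) =
            ((2:ℝ) ^ (q - k) * v ω - ⌊(2:ℝ) ^ (q - k) * v ω⌋) / 2 ^ (q - k) := by
          field_simp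
        rw [h6, abs_div, abs_of_pos h3, one_div_pow, div_le_div_iff_of_pos_right h3, abs_le]
        constructor <;> linarith)
    rw [Nat.zero_add] at e1
    refine le_trans (le_of_eq ?_) e1
    refine hc_congr P (fun ω ω' _ _ e => (Prod.mk.injEq _ _ _ _ ▸ e).1)
      (fun ω ω' _ _ e => (Prod.mk.injEq _ _ _ _ ▸ e).1) ?_ ?_
    · intro ω ω' _ _ e
      simp only [Prod.mk.injEq, and_true] at e ⊢
      exact e
    · intro ω ω' _ _ e
      simp only [Prod.mk.injEq, and_true] at e ⊢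
      exact e
  have h4 : hc P z (fun ω => (l ω, ())) = 0 := by
    refine hc_zero P ?_
    intro ω ω' p p' e
    simp only [Prod.mk.injEq, and_true] at e
    show dl 0 F (l ω) (t ω) = dl 0 F (l ω') (t ω')
    unfold dl X qa
    rw [e, fl1_zero (hX.t01 ω).1 (hX.t01 ω).2, fl1_zero (hX.t01 ω').1 (hX.t01 ω').2]
  rw [h4, add_zero] at s3
  rw [h2] at hE
  have h5 := mul_le_mul_of_nonneg_left s3 hN
  have h1' : val lam e.P' 0 A (e.pull l) (e.pull t) (fun _ => ()) + β * h * Real.log 2 +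
      N * (h * Real.log 2 - tH P h l t (fun _ => ())) ≤ val lam P h W l t (fun _ => ()) + η := h1
  have hE' : P.ex (fun ω => val lam (P.cond z (z ω)) h W l t (fun _ => ())) +
      (η + (c + 1)) - β * h * Real.log 2 -
      N * (h * Real.log 2 - P.ex (fun ω => tH (P.cond z (z ω)) h l t (fun _ => ()))) ≤
      val lam e.P' 0 A (e.pull l) (e.pull t) (fun _ => ()) := hE
  have s1' : val lam P h W l t (fun _ => ()) ≤
      P.ex (fun ω => val lam (P.cond z (z ω)) h W l t (fun _ => ())) + c := s1.trans (by linarith)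
  linarith

end Vale.Agent.P127.S.Extr3

namespace Vale.Agent.P127.S

/-- **EXTR3** -/
theorem pExtr3_of (hLV : PLocV) (hL3 : PLoc3) (hC : PCmp) (hG : PGlue) (hS : PSplit) : PExtr3 :=
  Extr3.main hLV hL3 hC hG hS

end Vale.Agent.P127.S
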