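import Vale.Agent.P127.S.Blocks
import Vale.Agent.P127.U.JS

/-!
# P127 / S : block GLUE (helper428)

`pInv : PInv`, `pSplit : PSplit`, `pGlue : PGlue`.
-/

set_option autoImplicit false

namespace Vale.Agent.P127.S

open Vale.Agent.P127 Vale.Agent.P127.Stk Vale.Agent.P127.U

/-- the trivial extension -/
def Ex.triv {Ω : Type} [Fintype Ω] (P : Law Ω) : Ex P := ⟨Ω, inferInstance, P, id, pr_id P⟩

/-- values and time entropies do not change on extensions -/
theorem pInv : PInv := by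
  intro lam Ω _ P e l t γ C a A
  constructor
  · unfold val
    congr 1
    · exact hc_of_law e.P' P e.π e.law l (fun ω => (dl a (A ω) (l ω) (t ω), C ω))
    · congr 1
      exact ex_law_aux e.P' P e.π e.law (fun ω => sc lam (A ω))
  · exact hc_of_law e.P' P e.π e.law (fun ω => fl1 a (t ω)) (fun ω => (l ω, C ω))

theorem ex_cond_ex {Ω : Type} [Fintype Ω] {α : Type*} (P : Law Ω) (z : Ω → α) (f : Ω → ℝ) :
    P.ex (fun ω => (P.cond z (z ω)).ex f) = P.ex f := by
  rw [P.ex_comp z (fun x => (P.cond z x).ex f)]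
  unfold Law.ex
  simp only [Finset.mul_sum]
  rw [Finset.sum_comm]
  refine Finset.sum_congr rfl fun ω _ => ?_
  rw [← JSB.cond_avg P z ω, Finset.sum_mul]
  exact Finset.sum_congr rfl fun x _ => by ring

theorem ex_cond_hc {Ω : Type} [Fintype Ω] {α S T : Type*} (P : Law Ω) (z : Ω → α) (X : Ω → S) (Y : Ω → T) :
    P.ex (fun ω => hc (P.cond z (z ω)) X Y) = hc P X (fun ω => (Y ω, z ω)) := by
  rw [P.ex_comp z (fun x => hc (P.cond z x) X Y), JSB.hc_cond_sum]

/-- splitting of a value along a variable; time entropy too -/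
theorem pSplit : PSplit := by
  intro lam Ω _ P l t γ C a A α z
  have e1 : P.ex (fun ω => val lam (P.cond z (z ω)) a A l t C) =
      hc P l (fun ω => ((dl a (A ω) (l ω) (t ω), C ω), z ω)) + Real.log 2 * P.ex fun ω => sc lam (A ω) := by
    unfold val
    rw [P.ex_add, ex_cond_hc, P.ex_const_mul, ex_cond_ex]
  have e2 : P.ex (fun ω => tH (P.cond z (z ω)) a l t C) =
      hc P (fun ω => fl1 a (t ω)) (fun ω => ((l ω, C ω), z ω)) := by
    unfold tH
    rw [ex_cond_hc]
  refine ⟨?_, ?_, ?_, ?_⟩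
  · rw [e1]
    unfold val
    have h1 := hc_le_add' P l z (fun ω => (dl a (A ω) (l ω) (t ω), C ω))
    have h2 : hc P l (fun ω => (z ω, (dl a (A ω) (l ω) (t ω), C ω))) ≤
        hc P l (fun ω => ((dl a (A ω) (l ω) (t ω), C ω), z ω)) := by
      refine hc_mono_right P l ?_
      intro ω ω' _ _ e
      simp only [Prod.mk.injEq] at e ⊢
      exact ⟨e.2, e.1⟩
    linarith
  · rw [e1]
    unfold val
    have h1 : hc P l (fun ω => ((dl a (A ω) (l ω) (t ω), C ω), z ω)) ≤
        hc P l (fun ω => (dl a (A ω) (l ω) (t ω), C ω)) :=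
      hc_mono_right P l fun ω ω' _ _ e => congrArg Prod.fst e
    linarith
  · rw [e2]
    unfold tH
    have h1 := hc_le_add' P (fun ω => fl1 a (t ω)) z (fun ω => (l ω, C ω))
    have h2 : hc P (fun ω => fl1 a (t ω)) (fun ω => (z ω, (l ω, C ω))) ≤
        hc P (fun ω => fl1 a (t ω)) (fun ω => ((l ω, C ω), z ω)) := by
      refine hc_mono_right P _ ?_
      intro ω ω' _ _ e
      simp only [Prod.mk.injEq] at e ⊢
      exact ⟨e.2, e.1⟩
    linarith
  · rw [e2]
    unfold tH
    refine hc_congr P (fun _ _ _ _ e => congrArg Prod.fst e) (fun _ _ _ _ e => congrArg Prod.fst e) ?_ ?_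
    · intro ω ω' _ _ e
      simp only [Prod.mk.injEq] at e ⊢
      tauto
    · intro ω ω' _ _ e
      simp only [Prod.mk.injEq] at e ⊢
      tauto

/-- **GLUE** -/
theorem pGlue : PGlue := by
  classical
  intro lam Ω _ P l t γ C a α z Q b h
  have hne : ∀ x : α, Nonempty (Ex (P.cond z x)) := fun x => ⟨Ex.triv (P.cond z x)⟩
  have hne2 : ∀ {x : α} (e : Ex (P.cond z x)), Nonempty (e.Ω' → Sh) := fun e => ⟨fun _ => ⟨0, 0, 0⟩⟩
  choose! e hA using h
  choose! A hQ hb using hA
  -- the index set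
  let ι : Type := {x : α // x ∈ (img z).filter fun x => 0 < P.pr z x}
  have h0 : ∀ x : ι, 0 ≤ P.pr z x.1 := fun x => P.pr_nonneg z x.1
  have hpos : ∀ x : ι, 0 < P.pr z x.1 := fun x => (Finset.mem_filter.1 x.2).2
  have hsum : ∀ g : α → ℝ, ∑ x : ι, P.pr z x.1 * g x.1 = ∑ x ∈ img z, P.pr z x * g x := by
    intro g
    have e1 : ∑ x : ι, P.pr z x.1 * g x.1 = ∑ x ∈ (img z).filter (fun x => 0 < P.pr z x), P.pr z x * g x :=
      Finset.sum_coe_sort ((img z).filter fun x => 0 < P.pr z x) (fun x => P.pr z x * g x)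
    rw [e1]
    refine Finset.sum_subset (Finset.filter_subset _ _) ?_
    intro x hx hx'
    have : P.pr z x = 0 := by
      by_contra hne
      exact hx' (Finset.mem_filter.2 ⟨hx, lt_of_le_of_ne (P.pr_nonneg z x) (Ne.symm hne)⟩)
    rw [this, zero_mul]
  have h1 : ∑ x : ι, P.pr z x.1 = 1 := by
    have := hsum fun _ => 1
    simpa [P.sum_pr_image z] using this
  let P' : Law (Σ x : ι, (e x.1).Ω') := JSB.sumL (fun x : ι => P.pr z x.1) h0 h1 (fun x => (e x.1).P')
  let π : (Σ x : ι, (e x.1).Ω') → Ω := fun p => (e p.1.1).π p.2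
  have hlaw : ∀ ω, P'.pr π ω = P.w ω := by
    intro ω
    show (JSB.sumL (fun x : ι => P.pr z x.1) h0 h1 (fun x => (e x.1).P')).pr π ω = P.w ω
    rw [JSB.sumL_pr, ← JSB.cond_avg P z ω, ← hsum fun x => (P.cond z x).w ω]
    refine Finset.sum_congr rfl fun x _ => ?_
    exact congrArg (fun y => P.pr z x.1 * y) ((e x.1).law ω)
  refine ⟨⟨Σ x : ι, (e x.1).Ω', inferInstance, P', π, hlaw⟩, fun p => A p.1.1 p.2, ?_, ?_⟩
  · rintro ⟨x, ω'⟩ hω
    have hw : 0 < P.pr z x.1 * (e x.1).P'.w ω' := hω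
    have hw2 : 0 < (e x.1).P'.w ω' := by
      rcases ((e x.1).P'.nn ω').eq_or_lt with h2 | h2
      · rw [← h2, mul_zero] at hw
        exact absurd hw (lt_irrefl 0)
      · exact h2
    have hz : z ((e x.1).π ω') = x.1 := by
      have h3 : 0 < (P.cond z x.1).w ((e x.1).π ω') := by
        rw [← (e x.1).law]
        exact (e x.1).P'.pr_pos (e x.1).π hw2
      exact JSB.cond_supp' P z x.1 (hpos x) h3
    show Q (z ((e x.1).π ω')) ((e x.1).π ω') (A x.1 ω')
    rw [hz]
    exact hQ x.1 (hpos x) ω' hw2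
  · show P.ex (fun ω => b (z ω)) ≤ val lam P' a (fun p => A p.1.1 p.2) (fun p => l (π p)) (fun p => t (π p)) (fun p => C (π p))
    have e3 : P.ex (fun ω => b (z ω)) = ∑ x : ι, P.pr z x.1 * b x.1 := by
      rw [hsum, ← P.ex_comp z b]
    have e4 : hc P' (fun p : (Σ x : ι, (e x.1).Ω') => l (π p))
        (fun p => ((dl a (A p.1.1 p.2) (l (π p)) (t (π p)), C (π p)), p.1)) =
        ∑ x : ι, P.pr z x.1 * hc (e x.1).P' ((e x.1).pull l)
          (fun ω' => (dl a (A x.1 ω') ((e x.1).pull l ω') ((e x.1).pull t ω'), (e x.1).pull C ω')) :=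
      JSB.sumL_hc (h0 := h0) (h1 := h1) (Q := fun x : ι => (e x.1).P') (fun p => l (π p))
        (fun p => (dl a (A p.1.1 p.2) (l (π p)) (t (π p)), C (π p)))
    have e5 : P'.ex (fun p => sc lam (A p.1.1 p.2)) =
        ∑ x : ι, P.pr z x.1 * (e x.1).P'.ex (fun ω' => sc lam (A x.1 ω')) :=
      JSB.sumL_ex (h0 := h0) (h1 := h1) (Q := fun x : ι => (e x.1).P') (fun p => sc lam (A p.1.1 p.2))
    have e6 : hc P' (fun p : (Σ x : ι, (e x.1).Ω') => l (π p))
        (fun p => ((dl a (A p.1.1 p.2) (l (π p)) (t (π p)), C (π p)), p.1)) ≤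
        hc P' (fun p => l (π p)) (fun p => (dl a (A p.1.1 p.2) (l (π p)) (t (π p)), C (π p))) :=
      hc_mono_right P' _ fun _ _ _ _ h => congrArg Prod.fst h
    have e7 : ∑ x : ι, P.pr z x.1 * b x.1 ≤ ∑ x : ι, P.pr z x.1 *
        val lam (e x.1).P' a (A x.1) ((e x.1).pull l) ((e x.1).pull t) ((e x.1).pull C) :=
      Finset.sum_le_sum fun x _ => mul_le_mul_of_nonneg_left (hb x.1 (hpos x)) (h0 x)
    have e8 : ∑ x : ι, P.pr z x.1 *
        val lam (e x.1).P' a (A x.1) ((e x.1).pull l) ((e x.1).pull t) ((e x.1).pull C) =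
        hc P' (fun p : (Σ x : ι, (e x.1).Ω') => l (π p))
          (fun p => ((dl a (A p.1.1 p.2) (l (π p)) (t (π p)), C (π p)), p.1)) +
          Real.log 2 * P'.ex (fun p => sc lam (A p.1.1 p.2)) := by
      rw [e4, e5, Finset.mul_sum, ← Finset.sum_add_distrib]
      refine Finset.sum_congr rfl fun x _ => ?_
      unfold val
      ring
    unfold val
    rw [e3]
    linarith

end Vale.Agent.P127.S
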