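import Vale.Agent.P127.S.Blocks
import Vale.Agent.P127.U.ExcBase

/-!
# P127 / S : block LINK (helper543)

The rate `β` for the exact labels gives the finite inequality `JF N β` : the window inequality with
`w = n` for the ball label `(n, n, 0)`, lines rounded to the precision `n`, time `min t (1 - 2^-n)`;
the label at the level `0` is the box with wide direction `arctan q`.
-/

set_option autoImplicit false

namespace Vale.Agent.P127.S

open Vale.Agent.P127 Vale.Agent.P127.Stk Vale.Agent.P127.U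

namespace LK

section gen

variable {Ω : Type} [Fintype Ω] {α : Type*} {τ : Type*}

/-- given `Y` the digits `b` take boundedly many values -/
theorem hc_near (P : Law Ω) (X : Ω → α) (Y : Ω → τ) {k : ℕ} (b : Ω → Fin k → ℤ) (N : ℕ)
    (h1 : Fn P X (fun ω => (b ω, Y ω)))
    (h2 : ∀ ω ω', 0 < P.w ω → 0 < P.w ω' → Y ω' = Y ω → ∀ i, |b ω' i - b ω i| ≤ N) :
    Stk.hc P X Y ≤ Real.log (((2 * N + 1) ^ k : ℕ) : ℝ) := by
  classical
  refine (Stk.hc_mono_left P h1).trans (Stk.hc_le_log P b Y _ fun ω hω => ?_)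
  refine ⟨Fintype.piFinset fun i => Finset.Icc (b ω i - N) (b ω i + N), ?_, ?_⟩
  · rw [Fintype.card_piFinset]
    have : ∀ i, (Finset.Icc (b ω i - N) (b ω i + N)).card = 2 * N + 1 := by
      intro i
      rw [Int.card_Icc]
      omega
    simp only [this, Finset.prod_const, Finset.card_univ, Fintype.card_fin]
    exact le_rfl
  · intro ω' hω' e
    rw [Fintype.mem_piFinset]
    intro i
    have h3 := abs_le.1 (h2 ω ω' hω hω' e i)
    rw [Finset.mem_Icc]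
    constructor <;> linarith [h3.1, h3.2]

end gen

/-- rounded line -/
noncomputable def ql (n : ℕ) (l : Ln) : Ln := (fun i => qa n (l.1 i), fun i => qa n (l.2 i))

theorem qa_inj {n : ℕ} {x y : ℝ} (h : qa n x = qa n y) : fl1 n x = fl1 n y := by
  unfold qa at h
  have h2 : (2:ℝ) ^ n ≠ 0 := by positivity
  have h3 := (div_left_inj' h2).1 h
  exact_mod_cast h3

theorem tb_eq {n : ℕ} {l l' : Ln} (h : ql n l = ql n l') : tb n l = tb n l' := by
  unfold ql at h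
  rw [Prod.mk.injEq] at h
  unfold tb
  refine Prod.ext ?_ ?_
  · funext i
    exact qa_inj (congrFun h.1 i)
  · funext i
    exact qa_inj (congrFun h.2 i)

theorem ql_eq {n : ℕ} {l l' : Ln} (h : tb n l = tb n l') : ql n l = ql n l' := by
  unfold tb at h
  rw [Prod.mk.injEq] at h
  unfold ql
  refine Prod.ext ?_ ?_
  · funext i
    have : fl1 n (l.1 i) = fl1 n (l'.1 i) := congrFun h.1 i
    show qa n (l.1 i) = qa n (l'.1 i)
    unfold qa
    rw [this]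
  · funext i
    have : fl1 n (l.2 i) = fl1 n (l'.2 i) := congrFun h.2 i
    show qa n (l.2 i) = qa n (l'.2 i)
    unfold qa
    rw [this]

theorem qa_le (n : ℕ) (x : ℝ) : qa n x ≤ x := by
  unfold qa fl1
  have h2 : (0:ℝ) < 2 ^ n := by positivity
  rw [div_le_iff₀ h2]
  have := Int.floor_le ((2:ℝ) ^ n * x)
  linarith

theorem le_qa {n : ℕ} {x : ℝ} {a : ℤ} (h : (a:ℝ) ≤ x) : (a:ℝ) ≤ qa n x := by
  unfold qa fl1
  have h2 : (0:ℝ) < 2 ^ n := by positivity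
  rw [le_div_iff₀ h2]
  have h3 : (a * 2 ^ n : ℤ) ≤ ⌊(2:ℝ) ^ n * x⌋ := by
    rw [Int.le_floor]
    push_cast
    nlinarith
  exact_mod_cast h3

theorem abs_qa_le {n : ℕ} {x : ℝ} (h : |x| ≤ 1) : |qa n x| ≤ 1 := by
  rw [abs_le] at h ⊢
  have h1 := qa_le n x
  have h2 := le_qa (n := n) (x := x) (a := -1) (by push_cast; exact h.1)
  push_cast at h2
  exact ⟨h2, h1.trans h.2⟩

theorem fl1_zero_of {t : ℝ} (h0 : 0 ≤ t) (h1 : t < 1) : fl1 0 t = 0 := by
  unfold fl1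
  rw [pow_zero, one_mul, Int.floor_eq_zero_iff]
  exact ⟨h0, h1⟩

theorem X_zero {l : Ln} {t : ℝ} (h0 : 0 ≤ t) (h1 : t < 1) (i : Fin 2) : X 0 l t i = l.1 i := by
  unfold X pos qa
  rw [fl1_zero_of h0 h1]
  simp

/-- first comparison, pointwise -/
theorem pos_close {n : ℕ} {l : Ln} {t t' : ℝ} (hl : LnOk l) (h0 : 0 ≤ t') (h1 : t' ≤ 1)
    (ht : |t - t'| ≤ (1 / 2 : ℝ) ^ n) (i : Fin 2) :
    |X n (ql n l) t' i - pos l t i| ≤ 4 * (1 / 2 : ℝ) ^ n := by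
  unfold X pos ql
  show |qa n (l.1 i) + qa n t' * qa n (l.2 i) - (l.1 i + t * l.2 i)| ≤ _
  have a1 := qa_close n (l.1 i)
  have a2 := qa_close n (l.2 i)
  have a3 := qa_close n t'
  have b1 : |qa n t'| ≤ 1 := abs_qa_le (by rw [abs_le]; constructor <;> linarith)
  have b2 : |l.2 i| ≤ 1 := hl.2 i
  have e : qa n (l.1 i) + qa n t' * qa n (l.2 i) - (l.1 i + t * l.2 i) =
      -(l.1 i - qa n (l.1 i)) - qa n t' * (l.2 i - qa n (l.2 i)) - (t' - qa n t') * l.2 i -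
        (t - t') * l.2 i := by ring
  rw [e]
  have c1 : |qa n t' * (l.2 i - qa n (l.2 i))| ≤ (1 / 2 : ℝ) ^ n := by
    rw [abs_mul]
    calc |qa n t'| * |l.2 i - qa n (l.2 i)| ≤ 1 * (1 / 2 : ℝ) ^ n :=
          mul_le_mul b1 a2 (abs_nonneg _) zero_le_one
      _ = _ := one_mul _
  have c2 : |(t' - qa n t') * l.2 i| ≤ (1 / 2 : ℝ) ^ n := by
    rw [abs_mul]
    calc |t' - qa n t'| * |l.2 i| ≤ (1 / 2 : ℝ) ^ n * 1 :=
          mul_le_mul a3 b2 (abs_nonneg _) (by positivity)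
      _ = _ := mul_one _
  have c3 : |(t - t') * l.2 i| ≤ (1 / 2 : ℝ) ^ n := by
    rw [abs_mul]
    calc |t - t'| * |l.2 i| ≤ (1 / 2 : ℝ) ^ n * 1 :=
          mul_le_mul ht b2 (abs_nonneg _) (by positivity)
      _ = _ := mul_one _
  have d1 := abs_sub (-(l.1 i - qa n (l.1 i)) - qa n t' * (l.2 i - qa n (l.2 i)) -
    (t' - qa n t') * l.2 i) ((t - t') * l.2 i)
  have d2 := abs_sub (-(l.1 i - qa n (l.1 i)) - qa n t' * (l.2 i - qa n (l.2 i)))
    ((t' - qa n t') * l.2 i)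
  have d3 := abs_sub (-(l.1 i - qa n (l.1 i))) (qa n t' * (l.2 i - qa n (l.2 i)))
  rw [abs_neg] at d3
  linarith

/-- second comparison, pointwise : the frame of angle `arctan q` -/
theorem frame_est {p r n : ℕ} (hpr : p ≤ r) (hrn : r ≤ n) {q : ℝ} (hq0 : 0 ≤ q) (hq1 : q ≤ 1)
    {x x' : Fin 2 → ℝ}
    (h0 : fl1 p (qa n (x 0)) = fl1 p (qa n (x' 0)))
    (h1 : fl1 r (qa n (x 1) - q * qa n (x 0)) = fl1 r (qa n (x' 1) - q * qa n (x' 0))) (i : Fin 2) :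
    |(if i = 0 then fl1 p (co (qa (r - p) (Real.arctan q)) x 0) else
        fl1 r (co (qa (r - p) (Real.arctan q)) x 1)) -
      (if i = 0 then fl1 p (co (qa (r - p) (Real.arctan q)) x' 0) else
        fl1 r (co (qa (r - p) (Real.arctan q)) x' 1))| ≤ (12 : ℕ) := by
  set θ := Real.arctan q with hθ
  set χ := qa (r - p) θ with hχ
  have half_anti : ∀ {a b : ℕ}, a ≤ b → (1 / 2 : ℝ) ^ b ≤ (1 / 2) ^ a := fun {a b} hab =>
    pow_le_pow_of_le_one (by norm_num) (by norm_num) hab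
  have hn : (1 / 2 : ℝ) ^ n ≤ (1 / 2) ^ r := half_anti hrn
  have hr : (1 / 2 : ℝ) ^ r ≤ (1 / 2) ^ p := half_anti hpr
  have hr0 : (0 : ℝ) < (1 / 2) ^ r := by positivity
  have hp0 : (0 : ℝ) < (1 / 2) ^ p := by positivity
  have g0 := fl1_close h0
  have g1 := fl1_close h1
  have a0 := qa_close n (x 0)
  have a1 := qa_close n (x 1)
  have a0' := qa_close n (x' 0)
  have a1' := qa_close n (x' 1)
  rw [abs_le] at g0 g1 a0 a1 a0' a1'
  -- the differences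
  have u0 : |x 0 - x' 0| ≤ 3 * (1 / 2 : ℝ) ^ p := by
    rw [abs_le]
    constructor <;> linarith [g0.1, g0.2, a0.1, a0.2, a0'.1, a0'.2]
  have k1 : |q * (x 0 - qa n (x 0))| ≤ (1 / 2 : ℝ) ^ n := by
    rw [abs_mul, abs_of_nonneg hq0]
    calc q * |x 0 - qa n (x 0)| ≤ 1 * (1 / 2 : ℝ) ^ n :=
          mul_le_mul hq1 (qa_close n (x 0)) (abs_nonneg _) zero_le_one
      _ = _ := one_mul _
  have k2 : |q * (x' 0 - qa n (x' 0))| ≤ (1 / 2 : ℝ) ^ n := by
    rw [abs_mul, abs_of_nonneg hq0]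
    calc q * |x' 0 - qa n (x' 0)| ≤ 1 * (1 / 2 : ℝ) ^ n :=
          mul_le_mul hq1 (qa_close n (x' 0)) (abs_nonneg _) zero_le_one
      _ = _ := one_mul _
  rw [abs_le] at k1 k2
  have u1 : |(x 1 - x' 1) - q * (x 0 - x' 0)| ≤ 5 * (1 / 2 : ℝ) ^ r := by
    rw [abs_le]
    constructor <;>
      nlinarith [g1.1, g1.2, a1.1, a1.2, a1'.1, a1'.2, k1.1, k1.2, k2.1, k2.2]
  -- the angle
  have hsc : Real.sin θ = q * Real.cos θ := by
    rw [hθ, Real.sin_arctan, Real.cos_arctan]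
    ring
  have hcl := qa_close (r - p) θ
  rw [← hχ] at hcl
  have e1 : |Real.sin χ - Real.sin θ| ≤ (1 / 2 : ℝ) ^ (r - p) := by
    refine (abs_sin_sub_le _ _).trans ?_
    rw [abs_sub_comm]; exact hcl
  have e2 : |Real.cos χ - Real.cos θ| ≤ (1 / 2 : ℝ) ^ (r - p) := by
    have h3 := abs_sin_sub_le (Real.pi / 2 - χ) (Real.pi / 2 - θ)
    rw [Real.sin_pi_div_two_sub, Real.sin_pi_div_two_sub] at h3
    refine h3.trans ?_
    have : Real.pi / 2 - χ - (Real.pi / 2 - θ) = θ - χ := by ring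
    rw [this]; exact hcl
  have e3 : |q * Real.cos χ - Real.sin χ| ≤ 2 * (1 / 2 : ℝ) ^ (r - p) := by
    have : q * Real.cos χ - Real.sin χ =
        q * (Real.cos χ - Real.cos θ) - (Real.sin χ - Real.sin θ) := by rw [hsc]; ring
    rw [this]
    have h4 : |q * (Real.cos χ - Real.cos θ)| ≤ (1 / 2 : ℝ) ^ (r - p) := by
      rw [abs_mul, abs_of_nonneg hq0]
      calc q * |Real.cos χ - Real.cos θ| ≤ 1 * (1 / 2 : ℝ) ^ (r - p) :=
            mul_le_mul hq1 e2 (abs_nonneg _) zero_le_one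
        _ = _ := one_mul _
    have h5 := abs_sub (q * (Real.cos χ - Real.cos θ)) (Real.sin χ - Real.sin θ)
    linarith
  have hc1 := Real.abs_cos_le_one χ
  have hs1 := Real.abs_sin_le_one χ
  have m0 : |co χ x 0 - co χ x' 0| ≤ 11 * (1 / 2 : ℝ) ^ p := by
    have : co χ x 0 - co χ x' 0 = Real.cos χ * (x 0 - x' 0) +
        (Real.sin χ * ((x 1 - x' 1) - q * (x 0 - x' 0)) + Real.sin χ * (q * (x 0 - x' 0))) := by
      simp only [co, Matrix.cons_val_zero]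
      ring
    rw [this]
    have b1 : |Real.cos χ * (x 0 - x' 0)| ≤ 3 * (1 / 2 : ℝ) ^ p := by
      rw [abs_mul]
      calc |Real.cos χ| * |x 0 - x' 0| ≤ 1 * (3 * (1 / 2 : ℝ) ^ p) :=
            mul_le_mul hc1 u0 (abs_nonneg _) zero_le_one
        _ = _ := one_mul _
    have b2 : |Real.sin χ * ((x 1 - x' 1) - q * (x 0 - x' 0))| ≤ 5 * (1 / 2 : ℝ) ^ r := by
      rw [abs_mul]
      calc |Real.sin χ| * |(x 1 - x' 1) - q * (x 0 - x' 0)| ≤ 1 * (5 * (1 / 2 : ℝ) ^ r) :=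
            mul_le_mul hs1 u1 (abs_nonneg _) zero_le_one
        _ = _ := one_mul _
    have b3 : |Real.sin χ * (q * (x 0 - x' 0))| ≤ 3 * (1 / 2 : ℝ) ^ p := by
      rw [abs_mul, abs_mul, abs_of_nonneg hq0]
      calc |Real.sin χ| * (q * |x 0 - x' 0|) ≤ 1 * (1 * (3 * (1 / 2 : ℝ) ^ p)) := by
            refine mul_le_mul hs1 (mul_le_mul hq1 u0 (abs_nonneg _) zero_le_one)
              (mul_nonneg hq0 (abs_nonneg _)) zero_le_one
        _ = _ := by ring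
    have b4 := abs_add_le (Real.cos χ * (x 0 - x' 0))
      (Real.sin χ * ((x 1 - x' 1) - q * (x 0 - x' 0)) + Real.sin χ * (q * (x 0 - x' 0)))
    have b5 := abs_add_le (Real.sin χ * ((x 1 - x' 1) - q * (x 0 - x' 0)))
      (Real.sin χ * (q * (x 0 - x' 0)))
    linarith
  have m1 : |co χ x 1 - co χ x' 1| ≤ 11 * (1 / 2 : ℝ) ^ r := by
    have : co χ x 1 - co χ x' 1 = Real.cos χ * ((x 1 - x' 1) - q * (x 0 - x' 0)) +
        (q * Real.cos χ - Real.sin χ) * (x 0 - x' 0) := by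
      simp only [co, Matrix.cons_val_one, Matrix.cons_val_fin_one]
      ring
    rw [this]
    have b1 : |Real.cos χ * ((x 1 - x' 1) - q * (x 0 - x' 0))| ≤ 5 * (1 / 2 : ℝ) ^ r := by
      rw [abs_mul]
      calc |Real.cos χ| * |(x 1 - x' 1) - q * (x 0 - x' 0)| ≤ 1 * (5 * (1 / 2 : ℝ) ^ r) :=
            mul_le_mul hc1 u1 (abs_nonneg _) zero_le_one
        _ = _ := one_mul _
    have b2 : |(q * Real.cos χ - Real.sin χ) * (x 0 - x' 0)| ≤ 6 * (1 / 2 : ℝ) ^ r := by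
      rw [abs_mul]
      calc |q * Real.cos χ - Real.sin χ| * |x 0 - x' 0|
          ≤ (2 * (1 / 2 : ℝ) ^ (r - p)) * (3 * (1 / 2 : ℝ) ^ p) :=
            mul_le_mul e3 u0 (abs_nonneg _) (by positivity)
        _ = 6 * ((1 / 2 : ℝ) ^ (r - p) * (1 / 2 : ℝ) ^ p) := by ring
        _ = 6 * (1 / 2 : ℝ) ^ r := by rw [← pow_add, Nat.sub_add_cancel hpr]
    have b3 := abs_add_le (Real.cos χ * ((x 1 - x' 1) - q * (x 0 - x' 0)))
      ((q * Real.cos χ - Real.sin χ) * (x 0 - x' 0))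
    linarith
  split_ifs
  · have := fl1_sub_le (m := p) (N := 11) (by exact_mod_cast m0)
    push_cast at this ⊢
    linarith
  · have := fl1_sub_le (m := r) (N := 11) (by exact_mod_cast m1)
    push_cast at this ⊢
    linarith

/-- second comparison : the box label given the exact label -/
theorem hc_box {Ω : Type} [Fintype Ω] {γ : Type*} (P : Law Ω) (C : Ω → γ) (n : ℕ) (l : Ω → Ln)
    (t : Ω → ℝ) (A : Ω → Sh) (ht : ∀ ω, 0 < P.w ω → 0 ≤ t ω ∧ t ω < 1)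
    (hA : ∀ ω, 0 < P.w ω → (A ω).p ≤ (A ω).r ∧ (A ω).r ≤ n ∧ 0 ≤ (A ω).v ∧ (A ω).v < 1) :
    Stk.hc P (Bx.lab ⟨l, fun ω => Real.arctan (A ω).q, fun ω => (A ω).p, fun ω => (A ω).r⟩)
      (fun ω => (dl 0 (A ω) (ql n (l ω)) (t ω), C ω)) ≤ Real.log (((2 * 12 + 1) ^ 4 : ℕ) : ℝ) := by
  set W : Bx Ω := ⟨l, fun ω => Real.arctan (A ω).q, fun ω => (A ω).p, fun ω => (A ω).r⟩ with hW
  refine hc_near P _ _ (k := 4) (fun ω => ![(W.lab ω).2.2.2.1.1, (W.lab ω).2.2.2.1.2,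
    (W.lab ω).2.2.2.2.1, (W.lab ω).2.2.2.2.2]) 12 ?_ ?_
  · intro ω ω' _ _ e
    simp only [Prod.mk.injEq] at e
    obtain ⟨e1, e2, -⟩ := e
    unfold dl at e2
    simp only [Prod.mk.injEq] at e2
    obtain ⟨hp, hr, -, hv, -⟩ := e2
    have hq : (A ω).q = (A ω').q := by
      unfold Sh.q qa
      rw [hp, hr] at *
      rw [hv]
    have f0 := congrFun e1 0
    have f1 := congrFun e1 1
    have f2 := congrFun e1 2
    have f3 := congrFun e1 3
    simp at f0 f1 f2 f3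
    refine Prod.ext hp (Prod.ext hr (Prod.ext ?_ (Prod.ext (Prod.ext f0 f1) (Prod.ext f2 f3))))
    show fl1 ((A ω).r - (A ω).p) (Real.arctan (A ω).q) =
      fl1 ((A ω').r - (A ω').p) (Real.arctan (A ω').q)
    rw [hp, hr, hq]
  · intro ω ω' hω hω' e i
    simp only [Prod.mk.injEq] at e
    obtain ⟨e2, -⟩ := e
    unfold dl at e2
    simp only [Prod.mk.injEq] at e2
    obtain ⟨hp, hr, -, hv, ⟨x0, x1⟩, y0, y1⟩ := e2
    obtain ⟨A1, A2, A3, A4⟩ := hA ω hω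
    have hq : (A ω').q = (A ω).q := by
      unfold Sh.q qa
      rw [hv, hp, hr]
    have hq0 : 0 ≤ (A ω).q := by
      have := le_qa (n := (A ω).r - (A ω).p) (x := (A ω).v) (a := 0) (by push_cast; exact A3)
      push_cast at this
      exact this
    have hq1 : (A ω).q ≤ 1 := (qa_le _ _).trans A4.le
    rw [hp, X_zero (ht ω hω).1 (ht ω hω).2, X_zero (ht ω' hω').1 (ht ω' hω').2] at x0
    rw [hr, hq, X_zero (ht ω hω).1 (ht ω hω).2, X_zero (ht ω' hω').1 (ht ω' hω').2,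
      X_zero (ht ω hω).1 (ht ω hω).2, X_zero (ht ω' hω').1 (ht ω' hω').2] at x1
    rw [hp, Nat.sub_zero] at y0
    rw [hr, hq, Nat.sub_zero] at y1
    have kx := frame_est (x := (l ω').1) (x' := (l ω).1) A1 A2 hq0 hq1 x0 x1
    have ky := frame_est (x := (l ω').2) (x' := (l ω).2) A1 A2 hq0 hq1 y0 y1
    have e1 : (W.lab ω').2.2.2.1 = fkj (A ω).p (A ω).r
        (co (qa ((A ω).r - (A ω).p) (Real.arctan (A ω).q)) (l ω').1) := by
      show fkj (A ω').p (A ω').r (co (qa ((A ω').r - (A ω').p) (Real.arctan (A ω').q)) (l ω').1) = _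
      rw [hp, hr, hq]
    have e1' : (W.lab ω').2.2.2.2 = fkj (A ω).p (A ω).r
        (co (qa ((A ω).r - (A ω).p) (Real.arctan (A ω).q)) (l ω').2) := by
      show fkj (A ω').p (A ω').r (co (qa ((A ω').r - (A ω').p) (Real.arctan (A ω').q)) (l ω').2) = _
      rw [hp, hr, hq]
    have kx0 := kx 0
    have kx1 := kx 1
    have ky0 := ky 0
    have ky1 := ky 1
    fin_cases i
    · show |(W.lab ω').2.2.2.1.1 - (W.lab ω).2.2.2.1.1| ≤ _
      rw [e1]
      simp at kx0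
      push_cast
      exact kx0
    · show |(W.lab ω').2.2.2.1.2 - (W.lab ω).2.2.2.1.2| ≤ _
      rw [e1]
      simp at kx1
      push_cast
      exact kx1
    · show |(W.lab ω').2.2.2.2.1 - (W.lab ω).2.2.2.2.1| ≤ _
      rw [e1']
      simp at ky0
      push_cast
      exact ky0
    · show |(W.lab ω').2.2.2.2.2 - (W.lab ω).2.2.2.2.2| ≤ _
      rw [e1']
      simp at ky1
      push_cast
      exact ky1

/-- truncated time -/
noncomputable def tc (n : ℕ) (t : ℝ) : ℝ := min t (1 - (1 / 2 : ℝ) ^ n)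

theorem tc_spec (n : ℕ) {t : ℝ} (h0 : 0 ≤ t) (h1 : t ≤ 1) :
    0 ≤ tc n t ∧ tc n t < 1 ∧ |t - tc n t| ≤ (1 / 2 : ℝ) ^ n := by
  have hn0 : (0:ℝ) < (1 / 2) ^ n := by positivity
  have hn1 : (1 / 2 : ℝ) ^ n ≤ 1 := pow_le_one₀ (by norm_num) (by norm_num)
  unfold tc
  refine ⟨le_min h0 (by linarith), (min_le_right _ _).trans_lt (by linarith), ?_⟩
  rcases le_total t (1 - (1 / 2 : ℝ) ^ n) with h3 | h3
  · rw [min_eq_left h3, sub_self, abs_zero]
    exact hn0.le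
  · rw [min_eq_right h3, abs_of_nonneg (by linarith)]
    linarith

/-- first comparison : the ball label given the point -/
theorem hc_ball {Ω : Type} [Fintype Ω] (P : Law Ω) (n : ℕ) (l : Ω → Ln) (t : Ω → ℝ)
    (h : ∀ ω, 0 < P.w ω → LnOk (l ω) ∧ 0 ≤ t ω ∧ t ω ≤ 1) :
    Stk.hc P (fun ω => dl n ⟨n, n, 0⟩ (ql n (l ω)) (tc n (t ω)))
      (fun ω => pq n (t ω, pos (l ω) (t ω))) ≤ Real.log (((2 * 10 + 1) ^ 5 : ℕ) : ℝ) := by
  have hq : (Sh.mk n n 0).q = 0 := by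
    unfold Sh.q qa fl1
    simp
  refine hc_near P _ _ (k := 5) (fun ω =>
    ![fl1 n (tc n (t ω)), fl1 n (X n (ql n (l ω)) (tc n (t ω)) 0),
      fl1 n (X n (ql n (l ω)) (tc n (t ω)) 1),
      fl1 0 ((ql n (l ω)).2 0), fl1 0 ((ql n (l ω)).2 1)]) 10 ?_ ?_
  · intro ω ω' _ _ e
    simp only [Prod.mk.injEq] at e
    have f0 := congrFun e.1 0
    have f1 := congrFun e.1 1
    have f2 := congrFun e.1 2
    have f3 := congrFun e.1 3
    have f4 := congrFun e.1 4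
    simp at f0 f1 f2 f3 f4
    unfold dl
    rw [hq]
    simp only [zero_mul, sub_zero, Nat.sub_self]
    rw [f0, f1, f2, f3, f4]
  · intro ω ω' hω hω' e i
    have e2 : fl n (pos (l ω') (t ω')) = fl n (pos (l ω) (t ω)) := congrArg Prod.snd e
    have e1 : fl1 n (t ω') = fl1 n (t ω) := congrArg Prod.fst e
    have p0 := fl1_close (m := n) (congrFun e2 0)
    have p1 := fl1_close (m := n) (congrFun e2 1)
    have pt := fl1_close e1
    obtain ⟨a1, a2, a3⟩ := tc_spec n (h ω hω).2.1 (h ω hω).2.2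
    obtain ⟨b1, b2, b3⟩ := tc_spec n (h ω' hω').2.1 (h ω' hω').2.2
    have c0 := pos_close (h ω hω).1 a1 a2.le a3 0
    have c1 := pos_close (h ω hω).1 a1 a2.le a3 1
    have c0' := pos_close (h ω' hω').1 b1 b2.le b3 0
    have c1' := pos_close (h ω' hω').1 b1 b2.le b3 1
    rw [abs_le] at p0 p1 pt a3 b3 c0 c1 c0' c1'
    have y : ∀ i, |(ql n (l ω)).2 i| ≤ 1 := fun i => abs_qa_le ((h ω hω).1.2 i)
    have y' : ∀ i, |(ql n (l ω')).2 i| ≤ 1 := fun i => abs_qa_le ((h ω' hω').1.2 i)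
    have q0 := y 0
    have q1 := y 1
    have q0' := y' 0
    have q1' := y' 1
    rw [abs_le] at q0 q1 q0' q1'
    fin_cases i
    · refine (fl1_sub_le (m := n) (N := 3) ?_).trans (by norm_num)
      push_cast
      rw [abs_le]
      constructor <;> linarith [pt.1, pt.2, a3.1, a3.2, b3.1, b3.2]
    · refine (fl1_sub_le (m := n) (N := 9) ?_).trans (by norm_num)
      push_cast
      rw [abs_le]
      constructor <;> linarith [p0.1, p0.2, c0.1, c0.2, c0'.1, c0'.2]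
    · refine (fl1_sub_le (m := n) (N := 9) ?_).trans (by norm_num)
      push_cast
      rw [abs_le]
      constructor <;> linarith [p1.1, p1.2, c1.1, c1.2, c1'.1, c1'.2]
    · refine (fl1_sub_le (m := 0) (N := 2) ?_).trans (by norm_num)
      push_cast
      rw [abs_le, pow_zero]
      constructor <;> linarith [q0.1, q0.2, q0'.1, q0'.2]
    · refine (fl1_sub_le (m := 0) (N := 2) ?_).trans (by norm_num)
      push_cast
      rw [abs_le, pow_zero]
      constructor <;> linarith [q1.1, q1.2, q1'.1, q1'.2]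

/-- time digits -/
theorem hc_time {Ω : Type} [Fintype Ω] {γ : Type*} (P : Law Ω) (C : Ω → γ) (n : ℕ) (t : Ω → ℝ)
    (h : ∀ ω, 0 < P.w ω → 0 ≤ t ω ∧ t ω ≤ 1) :
    Stk.hc P (fun ω => fl1 n (t ω)) (fun ω => (fl1 n (tc n (t ω)), C ω)) ≤
      Real.log (((2 * 4 + 1) ^ 1 : ℕ) : ℝ) := by
  refine hc_near P _ _ (k := 1) (fun ω => ![fl1 n (t ω)]) 4 ?_ ?_
  · intro ω ω' _ _ e
    have f0 := congrFun (congrArg Prod.fst e) 0
    exact f0
  · intro ω ω' hω hω' e i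
    have e1 : |tc n (t ω') - tc n (t ω)| ≤ (1 / 2 : ℝ) ^ n := fl1_close (congrArg Prod.fst e)
    have a3 := (tc_spec n (h ω hω).1 (h ω hω).2).2.2
    have b3 := (tc_spec n (h ω' hω').1 (h ω' hω').2).2.2
    rw [abs_le] at e1 a3 b3
    fin_cases i
    refine (fl1_sub_le (m := n) (N := 3) ?_).trans (by norm_num)
    push_cast
    rw [abs_le]
    constructor <;> linarith [e1.1, e1.2, a3.1, a3.2, b3.1, b3.2]

variable {Ω : Type} [Fintype Ω]

theorem time_cmp (P : Law Ω) (n : ℕ) (l : Ω → Ln) (t : Ω → ℝ)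
    (h : ∀ ω, 0 < P.w ω → LnOk (l ω) ∧ 0 ≤ t ω ∧ t ω ≤ 1) :
    Stk.hc P (fun ω => fl1 n (t ω)) (fun ω => tb n (l ω)) ≤
      tH P n (fun ω => ql n (l ω)) (fun ω => tc n (t ω)) (fun _ => ()) +
        Real.log (((2 * 4 + 1) ^ 1 : ℕ) : ℝ) := by
  have h1 := Stk.hc_le_add P (fun ω => fl1 n (t ω)) (fun ω => fl1 n (tc n (t ω)))
    (fun ω => tb n (l ω))
  have h2 := hc_time P (fun ω => tb n (l ω)) n t (fun ω hω => (h ω hω).2)
  have h3 : Stk.hc P (fun ω => fl1 n (tc n (t ω))) (fun ω => tb n (l ω)) ≤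
      tH P n (fun ω => ql n (l ω)) (fun ω => tc n (t ω)) (fun _ => ()) := by
    unfold tH
    refine Stk.hc_mono_right P _ ?_
    intro ω ω' _ _ e
    exact Prod.ext (ql_eq e) rfl
  exact h1.trans (add_le_add h3 h2)

theorem lhs_cmp (P : Law Ω) (lam : ℝ) (n : ℕ) (l : Ω → Ln) (t : Ω → ℝ)
    (h : ∀ ω, 0 < P.w ω → LnOk (l ω) ∧ 0 ≤ t ω ∧ t ω ≤ 1) :
    Stk.hc P (fun ω => tb n (l ω)) (fun ω => pq n (t ω, pos (l ω) (t ω))) +
      2 * n * Real.log 2 ≤ val lam P n (fun _ => ⟨n, n, 0⟩) (fun ω => ql n (l ω))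
        (fun ω => tc n (t ω)) (fun _ => ()) + Real.log (((2 * 10 + 1) ^ 5 : ℕ) : ℝ) := by
  have h1 := Stk.hc_le_add' P (fun ω => tb n (l ω)) (fun ω => dl n ⟨n, n, 0⟩ (ql n (l ω)) (tc n (t ω)))
    (fun ω => pq n (t ω, pos (l ω) (t ω)))
  have h2 := hc_ball P n l t h
  have h3 : Stk.hc P (fun ω => tb n (l ω))
      (fun ω => (dl n ⟨n, n, 0⟩ (ql n (l ω)) (tc n (t ω)), pq n (t ω, pos (l ω) (t ω)))) ≤
      Stk.hc P (fun ω => ql n (l ω)) (fun ω => (dl n ⟨n, n, 0⟩ (ql n (l ω)) (tc n (t ω)), ())) := by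
    refine (Stk.hc_mono_left P (X' := fun ω => ql n (l ω)) ?_).trans (Stk.hc_mono_right P _ ?_)
    · intro ω ω' _ _ e
      exact tb_eq (congrArg Prod.fst e)
    · intro ω ω' _ _ e
      have e' : dl n ⟨n, n, 0⟩ (ql n (l ω)) (tc n (t ω)) =
        dl n ⟨n, n, 0⟩ (ql n (l ω')) (tc n (t ω')) := congrArg Prod.fst e
      exact Prod.ext e' rfl
  have h4 : P.ex (fun _ => sc lam ⟨n, n, 0⟩) = 2 * n := by
    rw [P.ex_const]
    simp only [sc]
    ring
  have h5 : val lam P n (fun _ => ⟨n, n, 0⟩) (fun ω => ql n (l ω)) (fun ω => tc n (t ω))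
      (fun _ => ()) = Stk.hc P (fun ω => ql n (l ω))
        (fun ω => (dl n ⟨n, n, 0⟩ (ql n (l ω)) (tc n (t ω)), ())) + Real.log 2 * (2 * n) := by
    rw [← h4]
    rfl
  rw [h5]
  linarith

theorem exv_sub {P : Law Ω} (e : Ex P) (n : ℕ) (l : Ω → Ln) (A : e.Ω' → Sh)
    (hA : ∀ ω, 0 < e.P'.w ω → Ok 0 (n - n) 0 n 0 (A ω)) :
    ∀ ω, 0 < e.P'.w ω → Sub 1 ((tbx n l).comp e.π)
      (⟨fun ω => l (e.π ω), fun ω => Real.arctan (A ω).q, fun ω => (A ω).p, fun ω => (A ω).r⟩ :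
        Bx e.Ω') ω := by
  intro ω hω
  obtain ⟨-, h2, h3, h4, h5, -⟩ := hA ω hω
  have hn0 : (0:ℝ) < (1 / 2) ^ n := by positivity
  refine ⟨rfl, ?_, by simpa using h2, (by simpa using h2 : (A ω).p ≤ (A ω).r).trans h3, h3, ?_⟩
  · have g1 := Real.arctan_lt_pi_div_two (A ω).q
    have g2 := Real.neg_pi_div_two_lt_arctan (A ω).q
    have g3 := Real.pi_lt_d2
    show |Real.arctan (A ω).q| ≤ 4
    rw [abs_le]
    constructor <;> linarith
  · rw [one_mul]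
    show |Real.sin (0 - Real.arctan (A ω).q)| * (1 / 2 : ℝ) ^ n ≤ (1 / 2 : ℝ) ^ (A ω).r
    have g1 := Real.abs_sin_le_one (0 - Real.arctan (A ω).q)
    calc |Real.sin (0 - Real.arctan (A ω).q)| * (1 / 2 : ℝ) ^ n ≤ 1 * (1 / 2 : ℝ) ^ n :=
          mul_le_mul_of_nonneg_right g1 hn0.le
      _ = (1 / 2 : ℝ) ^ n := one_mul _
      _ ≤ _ := pow_le_pow_of_le_one (by norm_num) (by norm_num) h3

theorem ball_inj {n : ℕ} {l l' : Ln} (h6 : U.lab 0 n n l = U.lab 0 n n l') : ql n l = ql n l' := by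
  have hqa : qa (n - n) 0 = 0 := by unfold qa fl1; simp
  unfold U.lab at h6
  rw [hqa] at h6
  simp only [Prod.mk.injEq, true_and, fkj, co, Real.cos_zero, Real.sin_zero, one_mul,
    zero_mul, add_zero, neg_zero, zero_add, Matrix.cons_val_zero, Matrix.cons_val_one,
    Matrix.cons_val_fin_one] at h6
  obtain ⟨⟨a0, a1⟩, b0, b1⟩ := h6
  refine ql_eq (Prod.ext ?_ ?_)
  · funext i
    fin_cases i
    · exact a0
    · exact a1
  · funext i
    fin_cases i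
    · exact b0
    · exact b1

theorem rhs_hc {P : Law Ω} (e : Ex P) (n : ℕ) (l : Ω → Ln) (t : Ω → ℝ)
    (ht : ∀ ω, 0 < P.w ω → 0 ≤ t ω ∧ t ω < 1) (A : e.Ω' → Sh)
    (hA : ∀ ω, 0 < e.P'.w ω → Ok 0 (n - n) 0 n 0 (A ω)) :
    Stk.hc e.P' (fun ω => ql n (l (e.π ω)))
        (fun ω => (dl 0 (A ω) (ql n (l (e.π ω))) (t (e.π ω)), ())) ≤
      Stk.hc e.P' (((tbx n l).comp e.π).lab)
        (fun ω => (Bx.lab ⟨fun ω => l (e.π ω), fun ω => Real.arctan (A ω).q, fun ω => (A ω).p,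
          fun ω => (A ω).r⟩ ω, ())) + Real.log (((2 * 12 + 1) ^ 4 : ℕ) : ℝ) := by
  have hw : ∀ ω, 0 < e.P'.w ω → 0 < P.w (e.π ω) := by
    intro ω hω
    rw [← e.law]
    exact e.P'.pr_pos e.π hω
  have h2 := hc_box e.P' (fun _ => ()) n (fun ω => l (e.π ω)) (fun ω => t (e.π ω)) A
    (fun ω hω => ht _ (hw ω hω))
    (fun ω hω => by
      obtain ⟨-, h2, h3, h4, h5, -⟩ := hA ω hω
      exact ⟨by simpa using h2, h3, h4, h5⟩)
  have h3 := Stk.hc_le_add' e.P' (fun ω => ql n (l (e.π ω)))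
    (Bx.lab ⟨fun ω => l (e.π ω), fun ω => Real.arctan (A ω).q, fun ω => (A ω).p,
          fun ω => (A ω).r⟩)
    (fun ω => (dl 0 (A ω) (ql n (l (e.π ω))) (t (e.π ω)), ()))
  refine h3.trans (add_le_add ?_ h2)
  refine (Stk.hc_mono_left e.P' (X' := ((tbx n l).comp e.π).lab) ?_).trans
    (Stk.hc_mono_right e.P' _ ?_)
  · intro ω ω' _ _ h
    have h6 : U.lab 0 n n (l (e.π ω)) = U.lab 0 n n (l (e.π ω')) := congrArg Prod.fst h
    exact ball_inj h6
  · intro ω ω' _ _ h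
    simp only [Prod.mk.injEq] at h
    exact Prod.ext h.1 rfl

theorem rhs_sc {P : Law Ω} (e : Ex P) (lam : ℝ) (hl : 0 ≤ lam) (n : ℕ) (l : Ω → Ln)
    (A : e.Ω' → Sh) (hA : ∀ ω, 0 < e.P'.w ω → Ok 0 (n - n) 0 n 0 (A ω)) :
    e.P'.ex (fun ω => sc lam (A ω)) ≤
      2 * n - e.P'.ex (fun ω => ((tbx n l).comp e.π).sz ω -
        Bx.sz ⟨fun ω => l (e.π ω), fun ω => Real.arctan (A ω).q, fun ω => (A ω).p,
          fun ω => (A ω).r⟩ ω) := by
  have g1 : e.P'.ex (fun ω => sc lam (A ω)) ≤ e.P'.ex (fun ω => ((A ω).p : ℝ) + (A ω).r) := by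
    refine e.P'.ex_mono fun ω hω => ?_
    obtain ⟨-, h2, -⟩ := hA ω hω
    have h2' : ((A ω).p : ℝ) ≤ (A ω).r := by
      have : (A ω).p ≤ (A ω).r := by simpa using h2
      exact_mod_cast this
    unfold sc
    nlinarith
  have g2 : e.P'.ex (fun ω => ((tbx n l).comp e.π).sz ω -
      Bx.sz ⟨fun ω => l (e.π ω), fun ω => Real.arctan (A ω).q, fun ω => (A ω).p,
          fun ω => (A ω).r⟩ ω) =
      2 * n - e.P'.ex (fun ω => ((A ω).p : ℝ) + (A ω).r) := by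
    have h3 : ∀ ω, ((tbx n l).comp e.π).sz ω -
      Bx.sz ⟨fun ω => l (e.π ω), fun ω => Real.arctan (A ω).q, fun ω => (A ω).p,
          fun ω => (A ω).r⟩ ω = 2 * n - (((A ω).p : ℝ) + (A ω).r) := by
      intro ω
      show ((n : ℝ) + n) - (((A ω).p : ℝ) + (A ω).r) = 2 * n - (((A ω).p : ℝ) + (A ω).r)
      ring
    simp only [h3]
    unfold Law.ex
    simp only [mul_sub, Finset.sum_sub_distrib]
    rw [← Finset.sum_mul, e.P'.sum_one, one_mul]
  linarith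

theorem rhs_cmp {P : Law Ω} (e : Ex P) (lam : ℝ) (hl : 0 ≤ lam) (n : ℕ) (l : Ω → Ln) (t : Ω → ℝ)
    (ht : ∀ ω, 0 < P.w ω → 0 ≤ t ω ∧ t ω < 1) (A : e.Ω' → Sh)
    (hA : ∀ ω, 0 < e.P'.w ω → Ok 0 (n - n) 0 n 0 (A ω)) :
    val lam e.P' 0 A (e.pull fun ω => ql n (l ω)) (e.pull t) (e.pull fun _ => ()) ≤
      excF P (tbx n l) (fun _ => ()) + Real.log (((2 * 12 + 1) ^ 4 : ℕ) : ℝ) +
        2 * n * Real.log 2 := by
  have h1 : exV e.P' ((tbx n l).comp e.π) ⟨fun ω => l (e.π ω), fun ω => Real.arctan (A ω).q,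
      fun ω => (A ω).p, fun ω => (A ω).r⟩ (fun ω => (fun _ : Ω => ()) (e.π ω)) ≤
      excF P (tbx n l) (fun _ => ()) :=
    exV_le_excF (P := P) (B := tbx n l) (C := fun _ => ()) (P' := e.P') (π := e.π)
      (W := ⟨fun ω => l (e.π ω), fun ω => Real.arctan (A ω).q,
        fun ω => (A ω).p, fun ω => (A ω).r⟩) e.law (exv_sub e n l A hA)
  have h2 := rhs_hc e n l t ht A hA
  have h3 := rhs_sc e lam hl n l A hA
  have hlog : 0 ≤ Real.log 2 := Real.log_nonneg (by norm_num)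
  have h4 := mul_le_mul_of_nonneg_left h3 hlog
  unfold exV at h1
  have h5 : val lam e.P' 0 A (e.pull fun ω => ql n (l ω)) (e.pull t) (e.pull fun _ => ()) =
    Stk.hc e.P' (fun ω => ql n (l (e.π ω)))
        (fun ω => (dl 0 (A ω) (ql n (l (e.π ω))) (t (e.π ω)), ())) +
      Real.log 2 * e.P'.ex (fun ω => sc lam (A ω)) := rfl
  rw [h5]
  linarith

end LK

open LK

/-- **LINK** -/
theorem pLinkS : PLinkS := by
  intro N lam β hN hl0 hl1 _ hβ ε hε
  obtain ⟨c, hc, hFB⟩ := hβ ε hε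
  refine ⟨c + 1 + Real.log (((2 * 10 + 1) ^ 5 : ℕ) : ℝ) + Real.log (((2 * 12 + 1) ^ 4 : ℕ) : ℝ) +
    N * Real.log (((2 * 4 + 1) ^ 1 : ℕ) : ℝ), ?_⟩
  intro Ω _ P l t n hlt
  have ht01 : T01 P (fun ω => tc n (t ω)) := fun ω hω =>
    ⟨(tc_spec n (hlt ω hω).2.1 (hlt ω hω).2.2).1, (tc_spec n (hlt ω hω).2.1 (hlt ω hω).2.2).2.1⟩
  obtain ⟨e, A, hA, hval⟩ := hFB n Ω P (fun ω => ql n (l ω)) (fun ω => tc n (t ω)) Unit
    (fun _ => ()) (fun _ => ⟨n, n, 0⟩) n n ht01 le_rfl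
    (fun ω _ => ⟨rfl, rfl, by simp, by simp, le_rfl, le_rfl, zero_lt_one, rfl⟩)
  have hT := mul_le_mul_of_nonneg_left (time_cmp P n l t hlt) hN
  have hL := lhs_cmp P lam n l t hlt
  have hR := rhs_cmp e lam hl0 n l (fun ω => tc n (t ω)) (fun ω hω => ht01 ω hω) A hA
  linarith

end Vale.Agent.P127.S
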