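import Vale.Agent.P127.S.Blocks
import Vale.Agent.P127.Stk.LibCopies
import Vale.Agent.P127.Stk.LibFloors

/-!
# P127 / S : LIP (helper875)

`pLipS_of : PExt → PSubs → PLipS` : extend the label to the level `a`, take a second copy given
`(l, C)`, apply SUBS with `s = ρ`, `m' = ρ + m` on the event that the slopes are not adjacent, take
the better one of the two labels.
-/

set_option autoImplicit false

namespace Vale.Agent.P127.S

open Vale.Agent.P127 Vale.Agent.P127.Stk Vale.Agent.P127.U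

/-! ### digits -/

theorem lip_coarse {m n : ℕ} (h : m ≤ n) {x y : ℝ} (e : fl1 n x = fl1 n y) :
    fl1 m x = fl1 m y := by
  have h1 := fl_of_fl (ι := Unit) h (fun _ => x) (fun _ => y) (by funext _; exact e)
  exact congrFun h1 ()

/-- same digits : close -/
theorem lip_close {n : ℕ} {x y : ℝ} (h : fl1 n x = fl1 n y) : |x - y| ≤ (1 / 2 : ℝ) ^ n := by
  unfold fl1 at h
  have h1 := Int.abs_sub_lt_one_of_floor_eq_floor h
  have h2 : (2:ℝ) ^ n * x - 2 ^ n * y = 2 ^ n * (x - y) := by ring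
  have h3 : (0:ℝ) < 2 ^ n := by positivity
  rw [h2, abs_mul, abs_of_pos h3] at h1
  rw [one_div, inv_pow, ← one_div, le_div_iff₀ h3]
  linarith

/-- digits not adjacent : far -/
theorem lip_far {n : ℕ} {x y : ℝ} (h : ¬ |fl1 n x - fl1 n y| ≤ 1) :
    (1 / 2 : ℝ) ^ (n + 1) < |x - y| := by
  have h3 : (0:ℝ) < 2 ^ n := by positivity
  have key : (1:ℝ) < 2 ^ n * |x - y| := by
    have h2 : 2 ^ n * |x - y| = |(2:ℝ) ^ n * x - 2 ^ n * y| := by
      rw [← mul_sub, abs_mul, abs_of_pos h3]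
    rw [h2]
    by_contra hcon
    push Not at hcon
    apply h
    obtain ⟨c1, c2⟩ := abs_le.1 hcon
    unfold fl1
    have a1 := Int.floor_le ((2:ℝ) ^ n * x)
    have a2 := Int.lt_floor_add_one ((2:ℝ) ^ n * x)
    have b1 := Int.floor_le ((2:ℝ) ^ n * y)
    have b2 := Int.lt_floor_add_one ((2:ℝ) ^ n * y)
    rw [abs_le]
    constructor
    · have : ((⌊(2:ℝ) ^ n * y⌋ : ℤ) : ℝ) < ((⌊(2:ℝ) ^ n * x⌋ + 2 : ℤ) : ℝ) := by
        push_cast
        linarith
      have h4 := Int.cast_lt.1 this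
      omega
    · have : ((⌊(2:ℝ) ^ n * x⌋ : ℤ) : ℝ) < ((⌊(2:ℝ) ^ n * y⌋ + 2 : ℤ) : ℝ) := by
        push_cast
        linarith
      have h4 := Int.cast_lt.1 this
      omega
  have h4 : (1 / 2 : ℝ) ^ (n + 1) = (1 / 2) / 2 ^ n := by
    rw [pow_succ, one_div, inv_pow]
    field_simp
  rw [h4, div_lt_iff₀ h3]
  linarith

/-- the label depends on the time only through its first `a` digits -/
theorem lip_dl (a : ℕ) (A : Sh) (l : Ln) {t t' : ℝ} (h : fl1 a t = fl1 a t') :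
    dl a A l t = dl a A l t' := by
  have hX : X a l t = X a l t' := by
    unfold X qa
    rw [h]
  unfold dl
  rw [h, hX]

section cp

variable {Ω : Type} [Fintype Ω] {S T U : Type*}

/-- conditional entropies depend only on the values on the support -/
theorem hc_eq_of_supp (P : Law Ω) {X X' : Ω → S} {Y Y' : Ω → T}
    (h : ∀ ω, 0 < P.w ω → X ω = X' ω) (h' : ∀ ω, 0 < P.w ω → Y ω = Y' ω) :
    hc P X Y = hc P X' Y' := by
  refine hc_congr P ?_ ?_ ?_ ?_
  · intro ω ω' p p' e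
    rw [h ω p, h ω' p']
    exact congrArg Prod.fst e
  · intro ω ω' p p' e
    rw [← h ω p, ← h ω' p']
    exact congrArg Prod.fst e
  · intro ω ω' p p' e
    rw [h' ω p, h' ω' p']
    exact e
  · intro ω ω' p p' e
    rw [← h' ω p, ← h' ω' p']
    exact e

/-- values depend only on the values on the support -/
theorem val_eq_of_supp {γ : Type*} (lam : ℝ) (P : Law Ω) (a : ℕ) {A A' : Ω → Sh} {l l' : Ω → Ln}
    {t t' : Ω → ℝ} {C C' : Ω → γ} (h1 : ∀ ω, 0 < P.w ω → A ω = A' ω)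
    (h2 : ∀ ω, 0 < P.w ω → l ω = l' ω) (h3 : ∀ ω, 0 < P.w ω → fl1 a (t ω) = fl1 a (t' ω))
    (h4 : ∀ ω, 0 < P.w ω → C ω = C' ω) : val lam P a A l t C = val lam P a A' l' t' C' := by
  unfold val
  congr 1
  · refine hc_eq_of_supp P h2 fun ω hω => ?_
    rw [h1 ω hω, h2 ω hω, h4 ω hω, lip_dl a (A' ω) (l' ω) (h3 ω hω)]
  · congr 1
    exact P.ex_congr fun ω hω => by rw [h1 ω hω]

/-- values on extensions -/
theorem val_pull {Ω' : Type} [Fintype Ω'] {γ : Type*} (lam : ℝ) (P : Law Ω) (Q : Law Ω')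
    (π : Ω' → Ω) (h : ∀ ω, Q.pr π ω = P.w ω) (a : ℕ) (A : Ω → Sh) (l : Ω → Ln) (t : Ω → ℝ)
    (C : Ω → γ) :
    val lam Q a (fun ω => A (π ω)) (fun ω => l (π ω)) (fun ω => t (π ω)) (fun ω => C (π ω)) =
      val lam P a A l t C := by
  unfold val
  congr 1
  · exact hc_of_law Q P π h l (fun ω => (dl a (A ω) (l ω) (t ω), C ω))
  · congr 1
    exact ex_law_aux Q P π h (fun ω => sc lam (A ω))

/-- expectations of functions of two copies -/
theorem cw_ex {P : Law Ω} {W : Ω → S} {Q : Law (Fin (1 + 1) → Ω)}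
    (hQ : ∀ w, Q.w w = cw P W 1 w) (f : Ω → Ω → ℝ) :
    Q.ex (fun w => f (w 0) (w 1)) = P.ex fun ω => (P.cond W (W ω)).ex fun ω' => f ω ω' := by
  classical
  unfold Law.ex
  rw [← Fintype.sum_equiv (finTwoArrowEquiv Ω).symm
    (fun p : Ω × Ω => Q.w ((finTwoArrowEquiv Ω).symm p) * f p.1 p.2)
    (fun w : Fin 2 → Ω => Q.w w * f (w 0) (w 1)) (fun p => by simp [finTwoArrowEquiv])]
  rw [Fintype.sum_prod_type]
  refine Finset.sum_congr rfl fun ω _ => ?_
  rw [Finset.mul_sum]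
  refine Finset.sum_congr rfl fun ω' _ => ?_
  have hcw : Q.w ((finTwoArrowEquiv Ω).symm (ω, ω')) =
      if W ω' = W ω then P.w ω * P.w ω' / P.pr W (W ω) else 0 := by
    rw [hQ]
    unfold cw
    have hpr : (∏ x : Fin (1 + 1), P.w ((finTwoArrowEquiv Ω).symm (ω, ω') x)) =
        P.w ω * P.w ω' := by
      rw [Fin.prod_univ_succ, Fin.prod_univ_succ]
      simp
    rw [hpr]
    simp only [finTwoArrowEquiv_symm_apply, Matrix.cons_val_zero, pow_one]
    congr 1
    simp only [eq_iff_iff]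
    constructor
    · intro h
      exact h 1
    · intro h i
      fin_cases i
      · rfl
      · exact h
  rw [hcw]
  rcases (P.nn ω).eq_or_lt with h0 | h0
  · rw [← h0]
    simp
  · rw [P.cond_w W (W ω) (P.pr_pos W h0)]
    split_ifs
    · simp only
      ring
    · simp

end cp

theorem pLipS_of (hE : PExt) (hS : PSubs) : PLipS := by
  classical
  obtain ⟨c₁, hc₁, hE⟩ := hE
  obtain ⟨c₂, hc₂, hS⟩ := hS
  refine ⟨c₁ + c₂ + 2 * Real.log 2, by positivity, ?_⟩
  intro lam hl0 hl1 Ω _ P l t V γ C A a w ρ ρ' m p r hap hρ hFt hFV hA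
  have hL2 : 0 < Real.log 2 := Real.log_pos (by norm_num)
  -- two copies given `(l, C)`
  obtain ⟨Q, hQ⟩ := cw_exists P (fun ω => (l ω, C ω)) 1
  have hm := fun i => cw_marg hQ i
  have hsupp := fun (w' : Fin (1 + 1) → Ω) (h : 0 < Q.w w') => cw_supp hQ h
  -- the extended label
  set A1 : Ω → Sh := fun ω => ⟨(A ω).p - w, (A ω).r - w, (A ω).v⟩ with hA1
  have hext := hE lam hl0 hl1 Ω P l t γ C a w A (fun ω hω => by
    obtain ⟨h1, h2, h3, h4, h5, h6⟩ := hA ω hω |>.2.2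
    constructor
    · omega
    · omega)
  -- facts on the support of `Q`
  have hl : ∀ w', 0 < Q.w w' → l (w' 1) = l (w' 0) := fun w' hw' =>
    congrArg Prod.fst ((hsupp w' hw').1 1)
  have hC : ∀ w', 0 < Q.w w' → C (w' 1) = C (w' 0) := fun w' hw' =>
    congrArg Prod.snd ((hsupp w' hw').1 1)
  have hP : ∀ w', 0 < Q.w w' → ∀ i, 0 < P.w (w' i) := fun w' hw' => (hsupp w' hw').2
  have ht : ∀ w', 0 < Q.w w' → fl1 a (t (w' 1)) = fl1 a (t (w' 0)) := fun w' hw' =>
    hFt _ _ (hP w' hw' 1) (hP w' hw' 0) (hC w' hw')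
  have hV : ∀ w', 0 < Q.w w' → fl1 ρ (V (w' 1)) = fl1 ρ (V (w' 0)) := fun w' hw' =>
    hFV _ _ (hP w' hw' 1) (hP w' hw' 0) (hC w' hw')
  -- the values of the two copies
  have hv0 : val lam Q a (fun w' => A1 (w' 0)) (fun w' => l (w' 0)) (fun w' => t (w' 0))
      (fun w' => C (w' 0)) = val lam P a A1 l t C := val_pull lam P Q _ (hm 0) a A1 l t C
  have hv1 : val lam Q a (fun w' => A1 (w' 1)) (fun w' => l (w' 0)) (fun w' => t (w' 0))
      (fun w' => C (w' 0)) = val lam P a A1 l t C := by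
    rw [← val_pull lam P Q _ (hm 1) a A1 l t C]
    refine val_eq_of_supp lam Q a (fun _ _ => rfl) (fun w' hw' => (hl w' hw').symm)
      (fun w' hw' => (ht w' hw').symm) (fun w' hw' => (hC w' hw').symm)
  -- the event
  set g : (Fin (1 + 1) → Ω) → Bool := fun w' =>
    decide (¬ |fl1 (ρ + m) (V (w' 0)) - fl1 (ρ + m) (V (w' 1))| ≤ 1) with hg
  have hsub := hS lam hl0 hl1 (Fin (1 + 1) → Ω) Q (fun w' => l (w' 0)) (fun w' => t (w' 0)) γ
    (fun w' => C (w' 0)) a (fun w' => A1 (w' 0)) (fun w' => A1 (w' 1)) g (fun _ => ρ)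
    (fun _ => ρ + m) (fun w' hw' => by
      obtain ⟨p0, r0, h1, h2, h3, h4, h5, h6⟩ := hA _ (hP w' hw' 0)
      obtain ⟨p1, r1, k1, k2, k3, k4, k5, k6⟩ := hA _ (hP w' hw' 1)
      simp only [hA1]
      refine ⟨by omega, by omega, by omega, by omega, fun hgw => ⟨by omega, ?_, ?_⟩⟩
      · refine lip_close ?_
        rw [lip_coarse (by omega) h6, lip_coarse (by omega) k6, hV w' hw']
      · intro _
        refine lip_far ?_
        rw [lip_coarse (m := ρ + m) (by omega) h6, lip_coarse (m := ρ + m) (by omega) k6]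
        simpa [hg] using hgw)
  rw [hv0, hv1] at hsub
  -- the entropy of the event
  have hHg : Q.H g ≤ Real.log 2 := by
    have := Q.H_le_log_card g
    simpa using this
  have hHg3 : Q.H (fun w' => (g w', ρ, ρ + m)) ≤ Real.log 2 := by
    refine le_trans (le_of_eq ?_) hHg
    exact Q.H_congr fun w' w'' => by simp
  -- the information
  have hmi : mi Q (fun w' => dl a (A1 (w' 0)) (l (w' 0)) (t (w' 0)))
      (fun w' => dl a (A1 (w' 1)) (l (w' 0)) (t (w' 0)))
      (fun w' => (l (w' 0), C (w' 0), g w')) ≤ Real.log 2 := by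
    have e1 : hc Q (fun w' => dl a (A1 (w' 0)) (l (w' 0)) (t (w' 0)))
        (fun w' => (dl a (A1 (w' 1)) (l (w' 1)) (t (w' 1)), (l (w' 0), C (w' 0)))) =
        hc P (fun ω => dl a (A1 ω) (l ω) (t ω)) (fun ω => (l ω, C ω)) :=
      cw_indep hQ 0 (fun ω => dl a (A1 ω) (l ω) (t ω))
        (fun w' => dl a (A1 (w' 1)) (l (w' 1)) (t (w' 1)))
        (fun w' w'' h => by rw [h 1 (by decide)])
    have e2 : hc Q (fun w' => dl a (A1 (w' 0)) (l (w' 0)) (t (w' 0)))
        (fun w' => (l (w' 0), C (w' 0))) =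
        hc P (fun ω => dl a (A1 ω) (l ω) (t ω)) (fun ω => (l ω, C ω)) :=
      cw_hc hQ 0 (fun ω => dl a (A1 ω) (l ω) (t ω)) (fun ω => (l ω, C ω))
    have e3 : hc Q (fun w' => dl a (A1 (w' 0)) (l (w' 0)) (t (w' 0)))
        (fun w' => (dl a (A1 (w' 1)) (l (w' 1)) (t (w' 1)), (l (w' 0), C (w' 0)))) =
        hc Q (fun w' => dl a (A1 (w' 0)) (l (w' 0)) (t (w' 0)))
        (fun w' => (dl a (A1 (w' 1)) (l (w' 0)) (t (w' 0)), (l (w' 0), C (w' 0)))) := by
      refine hc_eq_of_supp Q (fun _ _ => rfl) fun w' hw' => ?_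
      rw [hl w' hw', lip_dl a _ _ (ht w' hw')]
    have e4 : hc Q (fun w' => dl a (A1 (w' 0)) (l (w' 0)) (t (w' 0)))
        (fun w' => (l (w' 0), C (w' 0), g w')) ≤
        hc Q (fun w' => dl a (A1 (w' 0)) (l (w' 0)) (t (w' 0)))
        (fun w' => (l (w' 0), C (w' 0))) :=
      hc_mono_right Q _ fun w' w'' _ _ e => by
        simp only [Prod.mk.injEq] at e ⊢
        exact ⟨e.1, e.2.1⟩
    have e5 := hc_le_add' Q (fun w' => dl a (A1 (w' 0)) (l (w' 0)) (t (w' 0))) g
      (fun w' => (dl a (A1 (w' 1)) (l (w' 0)) (t (w' 0)), (l (w' 0), C (w' 0))))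
    have e6 : hc Q (fun w' => dl a (A1 (w' 0)) (l (w' 0)) (t (w' 0)))
        (fun w' => (g w', (dl a (A1 (w' 1)) (l (w' 0)) (t (w' 0)), (l (w' 0), C (w' 0))))) =
        hc Q (fun w' => dl a (A1 (w' 0)) (l (w' 0)) (t (w' 0)))
        (fun w' => (dl a (A1 (w' 1)) (l (w' 0)) (t (w' 0)), (l (w' 0), C (w' 0), g w'))) := by
      refine hc_congr Q (fun _ _ _ _ e => congrArg Prod.fst e)
        (fun _ _ _ _ e => congrArg Prod.fst e) ?_ ?_
      · intro w' w'' _ _ e
        simp only [Prod.mk.injEq] at e ⊢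
        tauto
      · intro w' w'' _ _ e
        simp only [Prod.mk.injEq] at e ⊢
        tauto
    have e7 := hc_le_H Q g
      (fun w' => (dl a (A1 (w' 1)) (l (w' 0)) (t (w' 0)), (l (w' 0), C (w' 0))))
    unfold mi
    linarith
  -- the gain
  set G : ℝ := lam * ((ρ':ℝ) - ρ) - m with hG
  set κ : ℝ := adj P (fun ω => fl1 (ρ + m) (V ω)) (fun ω => (l ω, C ω)) with hκ
  have hadj : Q.ex (fun w' => if |fl1 (ρ + m) (V (w' 0)) - fl1 (ρ + m) (V (w' 1))| ≤ 1
      then (1:ℝ) else 0) = κ :=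
    cw_ex hQ (fun ω ω' => if |fl1 (ρ + m) (V ω) - fl1 (ρ + m) (V ω')| ≤ 1 then (1:ℝ) else 0)
  have hgain : 2 * ((1 - κ) * G) ≤ Q.ex (fun w' => if g w' then
      2 * lam * (((A1 (w' 0)).r : ℝ) - (A1 (w' 0)).p - (ρ : ℕ)) -
        (1 + lam) * (((ρ + m : ℕ) : ℝ) - (ρ : ℕ)) else 0) := by
    have h1 : 2 * ((1 - κ) * G) = Q.ex (fun w' => 2 * G * (1 -
        if |fl1 (ρ + m) (V (w' 0)) - fl1 (ρ + m) (V (w' 1))| ≤ 1 then (1:ℝ) else 0)) := by
      rw [Q.ex_const_mul, Q.ex_sub, hadj, Q.ex_const]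
      ring
    rw [h1]
    refine Q.ex_mono fun w' hw' => ?_
    obtain ⟨p0, r0, h1, h2, h3, h4, h5, h6⟩ := hA _ (hP w' hw' 0)
    by_cases hgw : |fl1 (ρ + m) (V (w' 0)) - fl1 (ρ + m) (V (w' 1))| ≤ 1
    · have : g w' = false := decide_eq_false (not_not.2 hgw)
      rw [this, if_pos hgw]
      simp
    · have : g w' = true := decide_eq_true hgw
      rw [this, if_neg hgw]
      simp only [if_true, hA1]
      have hw1 : w ≤ (A (w' 0)).p := by omega
      have hw2 : w ≤ (A (w' 0)).r := by omega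
      rw [Nat.cast_sub hw1, Nat.cast_sub hw2]
      have hr : ((A (w' 0)).p : ℝ) + ρ' ≤ (A (w' 0)).r := by exact_mod_cast h2
      have hm0 : (0:ℝ) ≤ m := Nat.cast_nonneg m
      push_cast
      rw [hG]
      nlinarith [mul_le_mul_of_nonneg_left hr hl0, mul_le_mul_of_nonneg_right hl1 hm0]
  have hgain' := mul_le_mul_of_nonneg_left hgain hL2.le
  -- the two candidates
  set M : (Fin (1 + 1) → Ω) → Sh := fun w' => if g w' then
    ⟨max (A1 (w' 0)).p ((A1 (w' 0)).r - (ρ + m + 3)), (A1 (w' 0)).r, (A1 (w' 0)).v⟩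
    else A1 (w' 0) with hM
  set J : (Fin (1 + 1) → Ω) → Sh := fun w' => if g w' then
    ⟨(A1 (w' 0)).p, (A1 (w' 0)).p + ρ, (A1 (w' 0)).v⟩ else A1 (w' 1) with hJ
  have hMok : ∀ w', 0 < Q.w w' → Ok a (p - (a + w)) ρ r (V (w' 0)) (M w') := by
    intro w' hw'
    obtain ⟨p0, r0, h1, h2, h3, h4, h5, h6⟩ := hA _ (hP w' hw' 0)
    have h7 : fl1 ρ (A (w' 0)).v = fl1 ρ (V (w' 0)) := lip_coarse (by omega) h6
    simp only [hM, hA1]
    by_cases hgw : g w' = true
    · rw [if_pos hgw]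
      refine ⟨?_, ?_, ?_, h4, h5, h7⟩
      · simp only
        omega
      · simp only
        omega
      · simp only
        omega
    · rw [if_neg hgw]
      refine ⟨?_, ?_, ?_, h4, h5, h7⟩
      · simp only
        omega
      · simp only
        omega
      · simp only
        omega
  have hJok : ∀ w', 0 < Q.w w' → Ok a (p - (a + w)) ρ r (V (w' 0)) (J w') := by
    intro w' hw'
    obtain ⟨p0, r0, h1, h2, h3, h4, h5, h6⟩ := hA _ (hP w' hw' 0)
    obtain ⟨p1, r1, k1, k2, k3, k4, k5, k6⟩ := hA _ (hP w' hw' 1)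
    have h7 : fl1 ρ (A (w' 0)).v = fl1 ρ (V (w' 0)) := lip_coarse (by omega) h6
    have k7 : fl1 ρ (A (w' 1)).v = fl1 ρ (V (w' 0)) := by
      rw [← hV w' hw']
      exact lip_coarse (by omega) k6
    simp only [hJ, hA1]
    by_cases hgw : g w' = true
    · rw [if_pos hgw]
      refine ⟨?_, ?_, ?_, h4, h5, h7⟩
      · simp only
        omega
      · simp only
        omega
      · simp only
        omega
    · rw [if_neg hgw]
      refine ⟨?_, ?_, ?_, k4, k5, k7⟩
      · simp only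
        omega
      · simp only
        omega
      · simp only
        omega
  set e : Ex P := ⟨Fin (1 + 1) → Ω, inferInstance, Q, fun w' => w' 0, hm 0⟩ with he
  have hfin : 2 * val lam P a A1 l t C + 2 * (((1 - κ) * G) * Real.log 2) ≤
      val lam Q a M (fun w' => l (w' 0)) (fun w' => t (w' 0)) (fun w' => C (w' 0)) +
      val lam Q a J (fun w' => l (w' 0)) (fun w' => t (w' 0)) (fun w' => C (w' 0)) +
      4 * Real.log 2 + c₂ := by
    have : 2 * val lam P a A1 l t C + 2 * (((1 - κ) * G) * Real.log 2) =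
      val lam P a A1 l t C + val lam P a A1 l t C + Real.log 2 * (2 * ((1 - κ) * G)) := by ring
    rw [this]
    linarith
  rcases le_total
    (val lam Q a M (fun w' => l (w' 0)) (fun w' => t (w' 0)) (fun w' => C (w' 0)))
    (val lam Q a J (fun w' => l (w' 0)) (fun w' => t (w' 0)) (fun w' => C (w' 0))) with hle | hle
  · refine ⟨e, J, hJok, ?_⟩
    show val lam P (a + w) A l t C ≤
      val lam Q a J (fun w' => l (w' 0)) (fun w' => t (w' 0)) (fun w' => C (w' 0)) + _ + _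
    nlinarith
  · refine ⟨e, M, hMok, ?_⟩
    show val lam P (a + w) A l t C ≤
      val lam Q a M (fun w' => l (w' 0)) (fun w' => t (w' 0)) (fun w' => C (w' 0)) + _ + _
    nlinarith

end Vale.Agent.P127.S
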