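import Vale.Agent.P127.U.ApxS

/-!
# P127 / S : localisation of the labels in shear frames (helper560)

* `dlb a p r v l t` : label at level `a` of exponents `p ≤ r` and slope `v` of the line `l` at time `t`
* `rel a p r v l t` : the line in the coordinates of the cell `dlb a p r v l t`
* `rel_lab` : the label of the relative line, as a function of the cell and of the label of the line.
-/

set_option autoImplicit false

namespace Vale.Agent.P127.S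

open Vale.Agent.P127 Vale.Agent.P127.Stk Vale.Agent.P127.U

/-- first coordinate of the position at the rounded time -/
noncomputable def X0 (a : ℕ) (l : Ln) (t : ℝ) : ℝ := pos l (qa a t) 0

/-- second coordinate of the position at the rounded time, minus the slope times the first one -/
noncomputable def X1 (a k : ℕ) (v : ℝ) (l : Ln) (t : ℝ) : ℝ := pos l (qa a t) 1 - qa k v * pos l (qa a t) 0

/-- label at level `a`, exponents `p ≤ r`, slope `v` -/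
noncomputable def dlb (a p r : ℕ) (v : ℝ) (l : Ln) (t : ℝ) :
    ℕ × ℕ × ℤ × ℤ × (ℤ × ℤ) × (ℤ × ℤ) :=
  (p, r, fl1 a t, fl1 (r - p) v,
    (fl1 p (pos l (qa a t) 0), fl1 r (pos l (qa a t) 1 - qa (r - p) v * pos l (qa a t) 0)),
    (fl1 (p - a) (l.2 0), fl1 (r - a) (l.2 1 - qa (r - p) v * l.2 0)))

/-- the line in the coordinates of the cell -/
noncomputable def rel (a p r : ℕ) (v : ℝ) (l : Ln) (t : ℝ) : Ln :=
  (![Int.fract ((2 : ℝ) ^ p * pos l (qa a t) 0),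
      Int.fract ((2 : ℝ) ^ r * (pos l (qa a t) 1 - qa (r - p) v * pos l (qa a t) 0))],
    ![Int.fract ((2 : ℝ) ^ (p - a) * l.2 0),
      Int.fract ((2 : ℝ) ^ (r - a) * (l.2 1 - qa (r - p) v * l.2 0))])

/-- the time in the coordinates of the cell -/
noncomputable def rt (a : ℕ) (t : ℝ) : ℝ := Int.fract ((2 : ℝ) ^ a * t)

/-- composition of slopes -/
noncomputable def vc (k : ℕ) (v₀ v : ℝ) : ℝ := qa k v₀ + (1 / 2 : ℝ) ^ k * v

theorem fl1_add (a b : ℕ) (t : ℝ) : fl1 (a + b) t = 2 ^ b * fl1 a t + fl1 b (rt a t) := by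
  unfold fl1 rt
  have h1 : (2 : ℝ) ^ b * Int.fract ((2 : ℝ) ^ a * t) =
      (2 : ℝ) ^ (a + b) * t - ((2 ^ b * ⌊(2 : ℝ) ^ a * t⌋ : ℤ) : ℝ) := by
    rw [Int.fract]
    push_cast
    rw [pow_add]
    ring
  rw [h1, Int.floor_sub_intCast]
  ring

theorem qa_add (a b : ℕ) (t : ℝ) : qa (a + b) t = qa a t + (1 / 2 : ℝ) ^ a * qa b (rt a t) := by
  unfold qa
  rw [fl1_add]
  push_cast
  rw [pow_add, one_div, inv_pow]
  field_simp

theorem fl1_vc (k m : ℕ) (v₀ v : ℝ) : fl1 (k + m) (vc k v₀ v) = 2 ^ m * fl1 k v₀ + fl1 m v := by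
  unfold fl1 vc qa
  have h1 : (2 : ℝ) ^ (k + m) * ((fl1 k v₀ : ℝ) / 2 ^ k + (1 / 2) ^ k * v) =
      (2 : ℝ) ^ m * v + ((2 ^ m * fl1 k v₀ : ℤ) : ℝ) := by
    push_cast
    rw [pow_add, one_div, inv_pow]
    field_simp
    ring
  rw [h1, Int.floor_add_intCast]
  unfold fl1
  ring

theorem qa_vc (k m : ℕ) (v₀ v : ℝ) : qa (k + m) (vc k v₀ v) = qa k v₀ + (1 / 2 : ℝ) ^ k * qa m v := by
  unfold qa
  rw [fl1_vc]
  push_cast
  rw [pow_add, one_div, inv_pow]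
  field_simp

theorem pos_add (l : Ln) (t u : ℝ) (i : Fin 2) : pos l (t + u) i = pos l t i + u * l.2 i := by
  unfold pos
  ring

section ids

variable {a p₀ r₀ b p r : ℕ} {v₀ v : ℝ} {l : Ln} {t : ℝ}

/-- first coordinate of the position -/
theorem rel_p (h₀ : a ≤ p₀) (h : b ≤ p) :
    fl1 p (pos (rel a p₀ r₀ v₀ l t) (qa b (rt a t)) 0) =
      fl1 (p₀ + p) (pos l (qa (a + b) t) 0) - 2 ^ p * fl1 p₀ (pos l (qa a t) 0) -
        2 ^ (p - b) * fl1 b (rt a t) * fl1 (p₀ - a) (l.2 0) := by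
  obtain ⟨c, rfl⟩ := Nat.exists_eq_add_of_le h₀
  obtain ⟨d, rfl⟩ := Nat.exists_eq_add_of_le h
  rw [Nat.add_sub_cancel_left, Nat.add_sub_cancel_left, qa_add a b t, pos_add]
  have e : pos (rel a (a + c) r₀ v₀ l t) (qa b (rt a t)) 0 =
      Int.fract ((2 : ℝ) ^ (a + c) * pos l (qa a t) 0) + qa b (rt a t) *
        Int.fract ((2 : ℝ) ^ c * l.2 0) := by
    simp [pos, rel]
  rw [e]
  set X := pos l (qa a t) 0
  set y := l.2 0
  set τ := fl1 b (rt a t) with hτ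
  have hq : qa b (rt a t) = (τ : ℝ) / 2 ^ b := rfl
  rw [hq]
  unfold fl1
  have h1 : (2 : ℝ) ^ (b + d) * (Int.fract ((2 : ℝ) ^ (a + c) * X) +
      (τ : ℝ) / 2 ^ b * Int.fract ((2 : ℝ) ^ c * y)) =
      (2 : ℝ) ^ (a + c + (b + d)) * (X + (1 / 2) ^ a * ((τ : ℝ) / 2 ^ b) * y) -
        ((2 ^ (b + d) * ⌊(2 : ℝ) ^ (a + c) * X⌋ + 2 ^ d * τ * ⌊(2 : ℝ) ^ c * y⌋ : ℤ) : ℝ) := by
    rw [Int.fract, Int.fract]
    push_cast
    rw [one_div, inv_pow]
    simp only [pow_add]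
    field_simp
    ring
  rw [h1, Int.floor_sub_intCast]
  ring

/-- second coordinate of the position -/
theorem rel_f (h₀ : a ≤ p₀) (h₁ : p₀ ≤ r₀) (h : b ≤ p) (h' : p ≤ r) :
    fl1 r (pos (rel a p₀ r₀ v₀ l t) (qa b (rt a t)) 1 -
      qa (r - p) v * pos (rel a p₀ r₀ v₀ l t) (qa b (rt a t)) 0) =
      fl1 (r₀ + r) (pos l (qa (a + b) t) 1 -
        qa (r₀ + r - (p₀ + p)) (vc (r₀ - p₀) v₀ v) * pos l (qa (a + b) t) 0) -
      2 ^ r * fl1 r₀ (pos l (qa a t) 1 - qa (r₀ - p₀) v₀ * pos l (qa a t) 0) -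
      2 ^ (r - b) * fl1 b (rt a t) * fl1 (r₀ - a) (l.2 1 - qa (r₀ - p₀) v₀ * l.2 0) +
      2 ^ p * fl1 (r - p) v * fl1 p₀ (pos l (qa a t) 0) +
      2 ^ (p - b) * fl1 b (rt a t) * fl1 (r - p) v * fl1 (p₀ - a) (l.2 0) := by
  obtain ⟨c, rfl⟩ := Nat.exists_eq_add_of_le h₀
  obtain ⟨k, rfl⟩ := Nat.exists_eq_add_of_le h₁
  obtain ⟨d, rfl⟩ := Nat.exists_eq_add_of_le h
  obtain ⟨m, rfl⟩ := Nat.exists_eq_add_of_le h'
  have e1 : a + c + k + (b + d + m) - (a + c + (b + d)) = k + m := by omega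
  have e2 : a + c + k - (a + c) = k := by omega
  have e3 : b + d + m - (b + d) = m := by omega
  have e4 : b + d + m - b = d + m := by omega
  have e5 : b + d - b = d := by omega
  have e6 : a + c - a = c := by omega
  have e7 : a + c + k - a = c + k := by omega
  rw [e1, e2, e3, e4, e5, e6, e7, qa_vc, qa_add a b t, pos_add, pos_add]
  have ep0 : pos (rel a (a + c) (a + c + k) v₀ l t) (qa b (rt a t)) 0 =
      Int.fract ((2 : ℝ) ^ (a + c) * pos l (qa a t) 0) + qa b (rt a t) *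
        Int.fract ((2 : ℝ) ^ c * l.2 0) := by
    simp [pos, rel]
  have ep1 : pos (rel a (a + c) (a + c + k) v₀ l t) (qa b (rt a t)) 1 =
      Int.fract ((2 : ℝ) ^ (a + c + k) * (pos l (qa a t) 1 - qa k v₀ * pos l (qa a t) 0)) +
        qa b (rt a t) * Int.fract ((2 : ℝ) ^ (c + k) * (l.2 1 - qa k v₀ * l.2 0)) := by
    simp [pos, rel, e2, e7]
  rw [ep0, ep1]
  set X := pos l (qa a t) 0
  set X' := pos l (qa a t) 1
  set y := l.2 0
  set y' := l.2 1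
  set w₀ := qa k v₀
  set τ := fl1 b (rt a t) with hτ
  set μ := fl1 m v with hμ
  have hq : qa b (rt a t) = (τ : ℝ) / 2 ^ b := rfl
  have hv : qa m v = (μ : ℝ) / 2 ^ m := rfl
  rw [hq, hv]
  unfold fl1
  have h1 : (2 : ℝ) ^ (b + d + m) *
      (Int.fract ((2 : ℝ) ^ (a + c + k) * (X' - w₀ * X)) +
        (τ : ℝ) / 2 ^ b * Int.fract ((2 : ℝ) ^ (c + k) * (y' - w₀ * y)) -
        (μ : ℝ) / 2 ^ m * (Int.fract ((2 : ℝ) ^ (a + c) * X) +
          (τ : ℝ) / 2 ^ b * Int.fract ((2 : ℝ) ^ c * y))) =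
      (2 : ℝ) ^ (a + c + k + (b + d + m)) *
        (X' + (1 / 2) ^ a * ((τ : ℝ) / 2 ^ b) * y' -
          (w₀ + (1 / 2) ^ k * ((μ : ℝ) / 2 ^ m)) * (X + (1 / 2) ^ a * ((τ : ℝ) / 2 ^ b) * y)) -
        ((2 ^ (b + d + m) * ⌊(2 : ℝ) ^ (a + c + k) * (X' - w₀ * X)⌋ +
          2 ^ (d + m) * τ * ⌊(2 : ℝ) ^ (c + k) * (y' - w₀ * y)⌋ -
          2 ^ (b + d) * μ * ⌊(2 : ℝ) ^ (a + c) * X⌋ -
          2 ^ d * τ * μ * ⌊(2 : ℝ) ^ c * y⌋ : ℤ) : ℝ) := by
    simp only [Int.fract]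
    push_cast
    rw [one_div, inv_pow, inv_pow]
    simp only [pow_add]
    field_simp
    ring
  rw [h1, Int.floor_sub_intCast]
  ring

/-- first coordinate of the direction -/
theorem rel_y0 (h₀ : a ≤ p₀) (h : b ≤ p) :
    fl1 (p - b) ((rel a p₀ r₀ v₀ l t).2 0) =
      fl1 (p₀ + p - (a + b)) (l.2 0) - 2 ^ (p - b) * fl1 (p₀ - a) (l.2 0) := by
  obtain ⟨c, rfl⟩ := Nat.exists_eq_add_of_le h₀
  obtain ⟨d, rfl⟩ := Nat.exists_eq_add_of_le h
  have e1 : a + c + (b + d) - (a + b) = c + d := by omega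
  rw [Nat.add_sub_cancel_left, Nat.add_sub_cancel_left, e1]
  have e : (rel a (a + c) r₀ v₀ l t).2 0 = Int.fract ((2 : ℝ) ^ c * l.2 0) := by simp [rel]
  rw [e]
  unfold fl1
  have h1 : (2 : ℝ) ^ d * Int.fract ((2 : ℝ) ^ c * l.2 0) =
      (2 : ℝ) ^ (c + d) * l.2 0 - ((2 ^ d * ⌊(2 : ℝ) ^ c * l.2 0⌋ : ℤ) : ℝ) := by
    rw [Int.fract]
    push_cast
    rw [pow_add]
    ring
  rw [h1, Int.floor_sub_intCast]

/-- second coordinate of the direction -/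
theorem rel_y1 (h₀ : a ≤ p₀) (h₁ : p₀ ≤ r₀) (h : b ≤ p) (h' : p ≤ r) :
    fl1 (r - b) ((rel a p₀ r₀ v₀ l t).2 1 - qa (r - p) v * (rel a p₀ r₀ v₀ l t).2 0) =
      fl1 (r₀ + r - (a + b)) (l.2 1 - qa (r₀ + r - (p₀ + p)) (vc (r₀ - p₀) v₀ v) * l.2 0) -
      2 ^ (r - b) * fl1 (r₀ - a) (l.2 1 - qa (r₀ - p₀) v₀ * l.2 0) +
      2 ^ (p - b) * fl1 (r - p) v * fl1 (p₀ - a) (l.2 0) := by
  obtain ⟨c, rfl⟩ := Nat.exists_eq_add_of_le h₀
  obtain ⟨k, rfl⟩ := Nat.exists_eq_add_of_le h₁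
  obtain ⟨d, rfl⟩ := Nat.exists_eq_add_of_le h
  obtain ⟨m, rfl⟩ := Nat.exists_eq_add_of_le h'
  have e1 : a + c + k + (b + d + m) - (a + c + (b + d)) = k + m := by omega
  have e2 : a + c + k - (a + c) = k := by omega
  have e3 : b + d + m - (b + d) = m := by omega
  have e4 : b + d + m - b = d + m := by omega
  have e5 : b + d - b = d := by omega
  have e6 : a + c - a = c := by omega
  have e7 : a + c + k - a = c + k := by omega
  have e8 : a + c + k + (b + d + m) - (a + b) = c + k + (d + m) := by omega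
  rw [e1, e2, e3, e4, e5, e6, e7, e8, qa_vc]
  have ep0 : (rel a (a + c) (a + c + k) v₀ l t).2 0 = Int.fract ((2 : ℝ) ^ c * l.2 0) := by
    simp [rel]
  have ep1 : (rel a (a + c) (a + c + k) v₀ l t).2 1 =
      Int.fract ((2 : ℝ) ^ (c + k) * (l.2 1 - qa k v₀ * l.2 0)) := by
    simp [rel, e2, e7]
  rw [ep0, ep1]
  set y := l.2 0
  set y' := l.2 1
  set w₀ := qa k v₀
  set μ := fl1 m v with hμ
  have hv : qa m v = (μ : ℝ) / 2 ^ m := rfl
  rw [hv]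
  unfold fl1
  have h1 : (2 : ℝ) ^ (d + m) *
      (Int.fract ((2 : ℝ) ^ (c + k) * (y' - w₀ * y)) -
        (μ : ℝ) / 2 ^ m * Int.fract ((2 : ℝ) ^ c * y)) =
      (2 : ℝ) ^ (c + k + (d + m)) * (y' - (w₀ + (1 / 2) ^ k * ((μ : ℝ) / 2 ^ m)) * y) -
        ((2 ^ (d + m) * ⌊(2 : ℝ) ^ (c + k) * (y' - w₀ * y)⌋ -
          2 ^ d * μ * ⌊(2 : ℝ) ^ c * y⌋ : ℤ) : ℝ) := by
    simp only [Int.fract]
    push_cast
    rw [one_div, inv_pow]
    simp only [pow_add]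
    field_simp
    ring
  rw [h1, Int.floor_sub_intCast]
  ring

/-- **localisation** : given the cell, the label of the relative line and the label of the line
determine each other -/
theorem dlb_iff {a p₀ r₀ b p r : ℕ} {v₀ v : ℝ} {l : Ln} {t : ℝ} {p₀' r₀' p' r' : ℕ} {v₀' v' : ℝ}
    {l' : Ln} {t' : ℝ} (h₀ : a ≤ p₀) (h₁ : p₀ ≤ r₀) (h : b ≤ p) (h' : p ≤ r)
    (g : b ≤ p') (g' : p' ≤ r')
    (e : dlb a p₀ r₀ v₀ l t = dlb a p₀' r₀' v₀' l' t') :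
    dlb (a + b) (p₀ + p) (r₀ + r) (vc (r₀ - p₀) v₀ v) l t =
        dlb (a + b) (p₀' + p') (r₀' + r') (vc (r₀' - p₀') v₀' v') l' t' ↔
      dlb b p r v (rel a p₀ r₀ v₀ l t) (rt a t) =
        dlb b p' r' v' (rel a p₀' r₀' v₀' l' t') (rt a t') := by
  simp only [dlb, Prod.mk.injEq] at e
  obtain ⟨c1, c2, c3, c4, ⟨c5, c6⟩, c7, c8⟩ := e
  subst c1
  subst c2
  simp only [dlb, Prod.mk.injEq]
  have w1 : ∀ q s : ℕ, b ≤ q → q ≤ s → r₀ + s - (p₀ + q) = (r₀ - p₀) + (s - q) := by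
    intro q s _ _
    omega
  have k1 := fl1_add a b t
  have k2 := fl1_add a b t'
  have a1 := rel_p (a := a) (p₀ := p₀) (r₀ := r₀) (b := b) (p := p) (v₀ := v₀) (l := l) (t := t) h₀ h
  have a1' := rel_p (a := a) (p₀ := p₀) (r₀ := r₀) (b := b) (p := p') (v₀ := v₀') (l := l') (t := t')
    h₀ g
  have a2 := rel_f (a := a) (p₀ := p₀) (r₀ := r₀) (b := b) (p := p) (r := r) (v₀ := v₀) (v := v)
    (l := l) (t := t) h₀ h₁ h h'
  have a2' := rel_f (a := a) (p₀ := p₀) (r₀ := r₀) (b := b) (p := p') (r := r') (v₀ := v₀')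
    (v := v') (l := l') (t := t') h₀ h₁ g g'
  have a3 := rel_y0 (a := a) (p₀ := p₀) (r₀ := r₀) (b := b) (p := p) (v₀ := v₀) (l := l) (t := t) h₀ h
  have a3' := rel_y0 (a := a) (p₀ := p₀) (r₀ := r₀) (b := b) (p := p') (v₀ := v₀') (l := l')
    (t := t') h₀ g
  have a4 := rel_y1 (a := a) (p₀ := p₀) (r₀ := r₀) (b := b) (p := p) (r := r) (v₀ := v₀) (v := v)
    (l := l) (t := t) h₀ h₁ h h'
  have a4' := rel_y1 (a := a) (p₀ := p₀) (r₀ := r₀) (b := b) (p := p') (r := r') (v₀ := v₀')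
    (v := v') (l := l') (t := t') h₀ h₁ g g'
  have s1 := fl1_vc (r₀ - p₀) (r - p) v₀ v
  have s2 := fl1_vc (r₀ - p₀) (r' - p') v₀' v'
  rw [← w1 p r h h'] at s1
  rw [← w1 p' r' g g'] at s2
  constructor
  · rintro ⟨d1, d2, d3, d4, ⟨d5, d6⟩, d7, d8⟩
    obtain rfl : p' = p := by omega
    obtain rfl : r' = r := by omega
    have m1 : fl1 b (rt a t) = fl1 b (rt a t') := by
      rw [k1, k2, c3] at d3
      linarith
    have m2 : fl1 (r' - p') v = fl1 (r' - p') v' := by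
      rw [s1, s2, c4] at d4
      linarith
    refine ⟨rfl, rfl, m1, m2, ⟨?_, ?_⟩, ?_, ?_⟩
    · rw [a1, a1', d5, c5, m1, c7]
    · rw [a2, a2', d6, c6, m1, c8, m2, c5, c7]
    · rw [a3, a3', d7, c7]
    · rw [a4, a4', d8, c8, m2, c7]
  · rintro ⟨d1, d2, m1, m2, ⟨d5, d6⟩, d7, d8⟩
    subst d1
    subst d2
    refine ⟨rfl, rfl, ?_, ?_, ⟨?_, ?_⟩, ?_, ?_⟩
    · rw [k1, k2, c3, m1]
    · rw [s1, s2, c4, m2]
    · rw [a1, a1', c5, m1, c7] at d5
      linarith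
    · rw [a2, a2', c6, m1, c8, m2, c5, c7] at d6
      linarith
    · rw [a3, a3', c7] at d7
      linarith
    · rw [a4, a4', c8, m2, c7] at d8
      linarith

end ids

end Vale.Agent.P127.S
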