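import Vale.Agent.P127.S.Blocks

/-!
# P127 / S : values and times relative to a frame (helper371)

`pLocV_of : PLoc1 → PLoc2 → PLoc3 → PLocV`.
-/

set_option autoImplicit false

namespace Vale.Agent.P127.S

open Vale.Agent.P127 Vale.Agent.P127.Stk Vale.Agent.P127.U

namespace LocV371

/-- the cell of the frame determines its exponents, the time digits and the slope -/
theorem cell_eq {a : ℕ} {F F' : Sh} {l l' : Ln} {t t' : ℝ} (h : dl a F l t = dl a F' l' t') :
    F.p = F'.p ∧ F.r = F'.r ∧ fl1 a t = fl1 a t' ∧ F.q = F'.q := by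
  simp only [dl, Prod.mk.injEq] at h
  obtain ⟨h1, h2, h3, h4, -⟩ := h
  refine ⟨h1, h2, h3, ?_⟩
  rw [h1, h2] at h4
  simp only [Sh.q, qa, h1, h2, h4]

/-- the relative line is a function of the line and of the cell -/
theorem lrel_eq {a : ℕ} {F F' : Sh} {l l' : Ln} {t t' : ℝ} (h : dl a F l t = dl a F' l' t')
    (hl : l = l') : lrel a F l t = lrel a F' l' t' := by
  obtain ⟨h1, h2, h3, h4⟩ := cell_eq h
  subst hl
  simp only [lrel, X, qa, h1, h2, h3, h4]

variable {Ω : Type} [Fintype Ω]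

theorem ex_shift (P : Law Ω) (f g : Ω → ℝ) (c : ℝ) (h : ∀ ω, 0 < P.w ω → g ω = f ω + c) :
    P.ex g = P.ex f + c := by
  have h1 : P.ex g = P.ex (fun ω => f ω + c) :=
    le_antisymm (P.ex_mono fun ω hω => (h ω hω).le) (P.ex_mono fun ω hω => (h ω hω).ge)
  rw [h1, P.ex_add, P.ex_const]

end LocV371

open LocV371

theorem pLocV_of (h1 : PLoc1) (h2 : PLoc2) (h3 : PLoc3) : PLocV := by
  intro lam Ω _ P l t γ C a w p₀ r₀ F B hap hpr hF c
  obtain ⟨h31, -, -⟩ := h3
  have hc1 : ∀ ω ω', c ω = c ω' → dl a (F ω) (l ω) (t ω) = dl a (F ω') (l ω') (t ω') :=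
    fun ω ω' e => e
  have hcond : ∀ ω ω', 0 < P.w ω → 0 < P.w ω' → c ω = c ω' →
      (dl w (B ω) (lrel a (F ω) (l ω) (t ω)) (trel a (t ω)) =
        dl w (B ω') (lrel a (F ω') (l ω') (t ω')) (trel a (t ω')) ↔
      dl (a + w) (sabs (F ω) (B ω)) (l ω) (t ω) =
        dl (a + w) (sabs (F ω') (B ω')) (l ω') (t ω')) := by
    intro ω ω' p p' e
    obtain ⟨a1, a2, a3, a4⟩ := hF ω p
    obtain ⟨b1, b2, b3, b4⟩ := hF ω' p'
    exact h1 a w (F ω) (F ω') (B ω) (B ω') (l ω) (l ω') (t ω) (t ω') (by omega) (by omega)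
      a3 a4 b3 b4 (hc1 ω ω' e)
  refine ⟨?_, ?_⟩
  · unfold val
    have e1 : hc P (fun ω => lrel a (F ω) (l ω) (t ω))
        (fun ω => (dl w (B ω) (lrel a (F ω) (l ω) (t ω)) (trel a (t ω)), (C ω, c ω))) =
        hc P l (fun ω => (dl (a + w) (sabs (F ω) (B ω)) (l ω) (t ω), (C ω, c ω))) := by
      refine hc_congr P ?_ ?_ ?_ ?_
      · intro ω ω' p p' e
        simp only [Prod.mk.injEq] at e
        exact lrel_eq (hc1 ω ω' e.2.2.2) e.1
      · intro ω ω' p p' e
        simp only [Prod.mk.injEq] at e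
        obtain ⟨a1, a2, -, -⟩ := hF ω p
        exact h2 a (F ω) (F ω') (l ω) (l ω') (t ω) (t ω') (by omega) (by omega)
          (hc1 ω ω' e.2.2.2) e.1
      · intro ω ω' p p' e
        simp only [Prod.mk.injEq] at e ⊢
        exact ⟨(hcond ω ω' p p' e.2.2).2 e.1, e.2⟩
      · intro ω ω' p p' e
        simp only [Prod.mk.injEq] at e ⊢
        exact ⟨(hcond ω ω' p p' e.2.2).1 e.1, e.2⟩
    have e2 : P.ex (fun ω => sc lam (sabs (F ω) (B ω))) =
        P.ex (fun ω => sc lam (B ω)) + ((1 + lam) * p₀ + (1 - lam) * r₀) := by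
      refine ex_shift P _ _ _ fun ω hω => ?_
      obtain ⟨a1, a2, -, -⟩ := hF ω hω
      simp only [sc, sabs, a1, a2]
      push_cast
      ring
    rw [e1, e2]
    ring
  · unfold tH
    refine hc_congr P ?_ ?_ ?_ ?_
    · intro ω ω' p p' e
      simp only [Prod.mk.injEq] at e
      have g := (cell_eq (hc1 ω ω' e.2.2.2)).2.2.1
      have g1 := h31 a w (t ω)
      have g2 := h31 a w (t ω')
      rw [g] at g1
      have g3 := e.1
      show fl1 w (trel a (t ω)) = fl1 w (trel a (t ω'))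
      rw [g1, g2] at g3
      linarith
    · intro ω ω' p p' e
      simp only [Prod.mk.injEq] at e
      have g := (cell_eq (hc1 ω ω' e.2.2.2)).2.2.1
      have g1 := h31 a w (t ω)
      have g2 := h31 a w (t ω')
      rw [g] at g1
      show fl1 (a + w) (t ω) = fl1 (a + w) (t ω')
      rw [g1, g2, e.1]
    · intro ω ω' p p' e
      simp only [Prod.mk.injEq] at e ⊢
      exact ⟨lrel_eq (hc1 ω ω' e.2.2) e.1, e.2⟩
    · intro ω ω' p p' e
      simp only [Prod.mk.injEq] at e ⊢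
      obtain ⟨a1, a2, -, -⟩ := hF ω p
      exact ⟨h2 a (F ω) (F ω') (l ω) (l ω') (t ω) (t ω') (by omega) (by omega)
        (hc1 ω ω' e.2.2) e.1, e.2⟩

end Vale.Agent.P127.S
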