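import Vale.Agent.P127.S.Blocks
import Vale.Agent.P127.S.Cmp937

/-!
# P127 / S : the meet of two labels of equal exponents (helper354)

`pMeet : PMeet`, from `near_meet` and `hc_near` of helper937.
-/

set_option autoImplicit false

namespace Vale.Agent.P127.S

open Vale.Agent.P127 Vale.Agent.P127.Stk Vale.Agent.P127.U

theorem dl_eq_dlb (a : ℕ) (A : Sh) (l : Ln) (t : ℝ) : dl a A l t = dlb a A.p A.r A.v l t := rfl

/-- rounding to `n ≥ m + 4` digits keeps the distance of two slopes -/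
theorem qa_far {m n : ℕ} {v u : ℝ} (hn : m + 3 < n) (h : (1 / 2 : ℝ) ^ (m + 1) < |v - u|) :
    (1 / 2 : ℝ) ^ (m + 3) ≤ ((1 : ℕ) : ℝ) * |qa n v - qa n u| := by
  have h1 := qa_close n v
  have h2 := qa_close n u
  have h3 := half_le (show m + 4 ≤ n by omega)
  have h4 : |v - u| ≤ |v - qa n v| + |qa n v - qa n u| + |u - qa n u| := by
    have e : v - u = (v - qa n v) + (qa n v - qa n u) - (u - qa n u) := by ring
    rw [e]
    exact (abs_sub _ _).trans (by linarith [abs_add_le (v - qa n v) (qa n v - qa n u)])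
  have e1 : (1 / 2 : ℝ) ^ (m + 1) = (1 / 2) ^ m * (1 / 2) := by rw [pow_add]; norm_num
  have e3 : (1 / 2 : ℝ) ^ (m + 3) = (1 / 2) ^ m * (1 / 8) := by rw [pow_add]; norm_num
  have e4 : (1 / 2 : ℝ) ^ (m + 4) = (1 / 2) ^ m * (1 / 16) := by rw [pow_add]; norm_num
  have hp : (0:ℝ) < (1 / 2) ^ m := by positivity
  rw [e1] at h
  rw [e4] at h3
  rw [e3]
  push_cast
  linarith

theorem pMeet : PMeet := by
  refine ⟨4 * Real.log (2 * (5:ℕ) + 1), ?_, ?_⟩
  · have : 0 ≤ Real.log (2 * ((5:ℕ):ℝ) + 1) := Real.log_nonneg (by norm_num)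
    linarith
  intro Ω _ P l t γ C a A A' m h
  refine hc_near P (M := 5) _ _ fun ω ω' hω hω' e => ?_
  obtain ⟨hap, hpr, hp', hr', hm⟩ := h ω hω
  simp only [Prod.mk.injEq] at e
  obtain ⟨e1, e2, e3, -⟩ := e
  rw [dl_eq_dlb, dl_eq_dlb] at e1 e2
  obtain ⟨ep, er, -, -, -⟩ := dlb_eq e1
  rw [hp', hr'] at e2
  rw [dl_eq_dlb, dl_eq_dlb]
  show Near ((5:ℕ):ℤ) (dlb a (max (A ω).p ((A ω).r - (m ω + 3))) (A ω).r (A ω).v (l ω) (t ω))
    (dlb a (max (A ω').p ((A ω').r - (m ω' + 3))) (A ω').r (A ω').v (l ω') (t ω'))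
  rw [← ep, ← er, ← e3]
  have key := near_meet (K := 1) (m := max (A ω).p ((A ω).r - (m ω + 3))) e1 e2 hap
    (le_max_left _ _) (max_le hpr (Nat.sub_le _ _)) ?_
  · simpa using key
  · by_cases hc : m ω + 3 < (A ω).r - (A ω).p
    · right
      have e4 : max (A ω).p ((A ω).r - (m ω + 3)) = (A ω).r - (m ω + 3) :=
        max_eq_right (by omega)
      have e5 : (A ω).r - ((A ω).r - (m ω + 3)) = m ω + 3 := by omega
      rw [e4, e5]
      exact qa_far hc (hm hc)
    · left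
      exact max_eq_left (by omega)

end Vale.Agent.P127.S
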