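import Vale.Agent.P127.S.Blocks

/-!
# P127 / S : SEL, almost extremality of the conditional laws on average, and the lower bound of the
defect (helper837)
-/

set_option autoImplicit false

namespace Vale.Agent.P127.S

open Vale.Agent.P127 Vale.Agent.P127.Stk Vale.Agent.P127.U

namespace Sel837

/-- the trivial extension -/
noncomputable def exId {Ω : Type} [Fintype Ω] (P : Law Ω) : Ex P where
  Ω' := Ω
  fin := inferInstance
  P' := P
  π := fun ω => ω
  law := fun ω => by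
    classical
    unfold Law.pr
    rw [Finset.sum_filter, Finset.sum_ite_eq' Finset.univ ω]
    simp

theorem fl1_zero {v : ℝ} (h0 : 0 ≤ v) (h1 : v < 1) : fl1 0 v = 0 := by
  unfold fl1
  rw [pow_zero, one_mul, Int.floor_eq_iff]
  constructor
  · simpa using h0
  · simpa using h1

/-- the values of the labels at the level `0` are bounded above -/
theorem val_le {lam : ℝ} (h0 : 0 ≤ lam) (h1 : lam ≤ 1) {Ω : Type} [Fintype Ω] (P : Law Ω) (l : Ω → Ln)
    (t : Ω → ℝ) (R : ℕ) (e : Ex P) (A : e.Ω' → Sh) (hA : ∀ ω, 0 < e.P'.w ω → Ok 0 0 0 R 0 (A ω)) :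
    val lam e.P' 0 A (e.pull l) (e.pull t) (fun _ => ()) ≤
      Real.log (Fintype.card Ω) + Real.log 2 * (2 * R) := by
  unfold val
  have h2 : hc e.P' (e.pull l) (fun ω => (dl 0 (A ω) (e.pull l ω) (e.pull t ω), ())) ≤
      Real.log (Fintype.card Ω) := by
    refine (hc_le_H _ _ _).trans ?_
    refine le_trans (H_mono' e.P' (X := e.π) ?_) (e.P'.H_le_log_card e.π)
    intro ω ω' _ _ h
    unfold Ex.pull
    rw [h]
  have h3 : e.P'.ex (fun ω => sc lam (A ω)) ≤ 2 * R := by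
    have h4 : e.P'.ex (fun ω => sc lam (A ω)) ≤ e.P'.ex (fun _ => 2 * (R:ℝ)) := by
      refine e.P'.ex_mono fun ω hω => ?_
      obtain ⟨_, a2, a3, _⟩ := hA ω hω
      have b2 : ((A ω).p : ℝ) ≤ (A ω).r := by exact_mod_cast (by omega : (A ω).p ≤ (A ω).r)
      have b3 : ((A ω).r : ℝ) ≤ R := by exact_mod_cast a3
      unfold sc
      nlinarith
    rwa [e.P'.ex_const] at h4
  have h5 : 0 ≤ Real.log 2 := Real.log_nonneg (by norm_num)
  have h6 := mul_le_mul_of_nonneg_left h3 h5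
  linarith

/-- the set of the values of the labels at the level `0` -/
def vset (lam : ℝ) {Ω : Type} [Fintype Ω] (P : Law Ω) (l : Ω → Ln) (t : Ω → ℝ) (R : ℕ) : Set ℝ :=
  {s | ∃ (e : Ex P) (A : e.Ω' → Sh), (∀ ω, 0 < e.P'.w ω → Ok 0 0 0 R 0 (A ω)) ∧
    s = val lam e.P' 0 A (e.pull l) (e.pull t) (fun _ => ())}

theorem vset_bdd {lam : ℝ} (h0 : 0 ≤ lam) (h1 : lam ≤ 1) {Ω : Type} [Fintype Ω] (P : Law Ω) (l : Ω → Ln)
    (t : Ω → ℝ) (R : ℕ) : BddAbove (vset lam P l t R) := by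
  refine ⟨Real.log (Fintype.card Ω) + Real.log 2 * (2 * R), ?_⟩
  rintro s ⟨e, A, hA, rfl⟩
  exact val_le h0 h1 P l t R e A hA

theorem vset_ne (lam : ℝ) {Ω : Type} [Fintype Ω] (P : Law Ω) (l : Ω → Ln)
    (t : Ω → ℝ) (R : ℕ) : (vset lam P l t R).Nonempty :=
  ⟨_, exId P, fun _ => ⟨0, 0, 0⟩, fun _ _ => ⟨by simp, by simp, by simp, by simp, by simp, rfl⟩, rfl⟩

end Sel837

open Sel837

/-- **SEL** -/
theorem pSel_of : PGlue → PSplit → PInv → PSel := by
  intro hG hS _ N lam β η hN hl0 hl1 h q Ω _ P l t v hNX α z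
  set W : Ω → Sh := fun ω => ⟨h, h + q, v ω⟩ with hW
  set S : α → ℝ := fun x => sSup (vset lam (P.cond z x) l t (h + q)) with hSdef
  set η' : α → ℝ := fun x => S x + β * h * Real.log 2 +
    N * (h * Real.log 2 - tH (P.cond z x) h l t (fun _ => ())) -
    val lam (P.cond z x) h W l t (fun _ => ()) with hη'
  refine ⟨η', ?_, ?_⟩
  · intro ω _
    refine ⟨hNX.l01, hNX.t01, hNX.v01, ?_⟩
    intro e A hA
    have h1 : val lam e.P' 0 A (e.pull l) (e.pull t) (fun _ => ()) ≤ S (z ω) :=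
      le_csSup (vset_bdd hl0 hl1 _ l t (h + q)) ⟨e, A, hA, rfl⟩
    simp only [hη']
    linarith
  · obtain ⟨e, A, hA, hE⟩ := hG lam Ω P l t Unit (fun _ => ()) 0 α z (fun _ _ A => Ok 0 0 0 (h + q) 0 A)
      (fun x => S x - 1) (fun x _ => by
        obtain ⟨s, ⟨e, A, hA, rfl⟩, hlt⟩ := exists_lt_of_lt_csSup (vset_ne lam (P.cond z x) l t (h + q))
          (show S x - 1 < sSup (vset lam (P.cond z x) l t (h + q)) by simp only [hSdef]; linarith)
        exact ⟨e, A, hA, hlt.le⟩)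
    have h1 := hNX.ge e A hA
    obtain ⟨s1, -, s3, -⟩ := hS lam Ω P l t Unit (fun _ => ()) h W α z
    have c1 : hc P z (fun ω => (dl h (W ω) (l ω) (t ω), ())) =
        hc P z (fun ω => dl h ⟨h, h + q, v ω⟩ (l ω) (t ω)) :=
      hc_congr P (fun ω ω' _ _ e => congrArg Prod.fst e) (fun ω ω' _ _ e => congrArg Prod.fst e)
        (fun ω ω' _ _ e => Prod.ext e rfl) (fun ω ω' _ _ e => congrArg Prod.fst e)
    have c2 : hc P z (fun ω => (l ω, ())) = hc P z l :=
      hc_congr P (fun ω ω' _ _ e => congrArg Prod.fst e) (fun ω ω' _ _ e => congrArg Prod.fst e)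
        (fun ω ω' _ _ e => Prod.ext e rfl) (fun ω ω' _ _ e => congrArg Prod.fst e)
    rw [c1] at s1
    rw [c2] at s3
    have e1 : P.ex (fun ω => S (z ω) - 1) = P.ex (fun ω => S (z ω)) - 1 := by
      rw [P.ex_sub, P.ex_const]
    have e2 : P.ex (fun ω => η' (z ω)) = P.ex (fun ω => S (z ω)) + β * h * Real.log 2 +
        N * (h * Real.log 2 - P.ex (fun ω => tH (P.cond z (z ω)) h l t (fun _ => ()))) -
        P.ex (fun ω => val lam (P.cond z (z ω)) h W l t (fun _ => ())) := by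
      simp only [hη']
      rw [P.ex_sub, P.ex_add, P.ex_add, P.ex_const, P.ex_const_mul, P.ex_sub, P.ex_const]
    rw [e2]
    rw [e1] at hE
    have hE' : P.ex (fun ω => S (z ω)) - 1 ≤ val lam e.P' 0 A (e.pull l) (e.pull t) (fun _ => ()) := hE
    have h4 := mul_le_mul_of_nonneg_left s3 hN
    have h1' : val lam e.P' 0 A (e.pull l) (e.pull t) (fun _ => ()) + β * h * Real.log 2 +
        N * (h * Real.log 2 - tH P h l t (fun _ => ())) ≤ val lam P h W l t (fun _ => ()) + η := h1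
    nlinarith [h4, s1, hE', h1']

/-- the defect is bounded below -/
theorem pNXlow : PNXlow := by
  intro N lam β η h q b hF Ω _ P l t v hNX
  obtain ⟨e, A, hA, hE⟩ := hF Ω P l t Unit (fun _ => ()) (fun ω => ⟨h, h + q, v ω⟩) h (h + q)
    (fun ω _ => hNX.t01 ω) le_rfl (fun ω _ => ⟨rfl, rfl, by simp, by simp, le_rfl, (hNX.v01 ω).1, (hNX.v01 ω).2, by
      rw [fl1_zero (hNX.v01 ω).1 (hNX.v01 ω).2, fl1_zero le_rfl one_pos]⟩)
  have h1 := hNX.ge e A (fun ω hω => by
    have := hA ω hω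
    simpa using this)
  have hE' : val lam P h (fun ω => ⟨h, h + q, v ω⟩) l t (fun _ => ()) ≤
      val lam e.P' 0 A (e.pull l) (e.pull t) (fun _ => ()) + b + N * (h * Real.log 2 - tH P h l t (fun _ => ())) + 1 := hE
  linarith

end Vale.Agent.P127.S
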