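import Vale.Agent.P127.S.Blocks
import Vale.Agent.P127.Stk.LibFloors

/-!
# P127 / S : block SUBS (helper901)

`pSubs_of : PCmp → PMeet → PSubs`, strict submodularity for two labels of equal exponents, with an
event `g`.
-/

set_option autoImplicit false

namespace Vale.Agent.P127.S

open Vale.Agent.P127 Vale.Agent.P127.Stk Vale.Agent.P127.U

namespace Subs

section ent

variable {Ω : Type} [Fintype Ω] {α β γ δ ε ζ : Type*}

/-- splitting a conditional entropy along a variable of the condition -/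
theorem hc_cond (P : Law Ω) (X : Ω → α) (Y : Ω → β) (g : Ω → γ) :
    hc P X (fun ω => (Y ω, g ω)) = ∑ z ∈ img g, P.pr g z * hc (P.cond g z) X Y := by
  have h1 := P.H_cond_eq (fun ω => (X ω, Y ω)) g
  have h2 := P.H_cond_eq Y g
  have h3 : P.H (fun ω => (X ω, Y ω, g ω)) = P.H (fun ω => ((X ω, Y ω), g ω)) := by
    refine P.H_congr fun ω ω' => ?_
    simp only [Prod.mk.injEq]
    tauto
  unfold hc
  simp only [mul_sub, Finset.sum_sub_distrib]
  rw [← h1, ← h2, h3]
  ring

/-- splitting a conditional mutual information -/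
theorem mi_cond (P : Law Ω) (X : Ω → α) (X' : Ω → β) (Y : Ω → δ) (g : Ω → γ) :
    mi P X X' (fun ω => (Y ω, g ω)) = ∑ z ∈ img g, P.pr g z * mi (P.cond g z) X X' Y := by
  have h1 := hc_cond P X Y g
  have h2 := hc_cond P X (fun ω => (X' ω, Y ω)) g
  have h3 : hc P X (fun ω => (X' ω, Y ω, g ω)) = hc P X (fun ω => ((X' ω, Y ω), g ω)) := by
    refine hc_congr P (fun ω ω' _ _ e => congrArg Prod.fst e) (fun ω ω' _ _ e => congrArg Prod.fst e)
      ?_ ?_ <;>
    · intro ω ω' _ _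
      simp only [Prod.mk.injEq]
      tauto
  unfold mi
  simp only [mul_sub, Finset.sum_sub_distrib]
  rw [← h1, ← h2, h3]

/-- the support of a conditional law -/
theorem cond_pos {P : Law Ω} {g : Ω → γ} {z : γ} (hz : 0 < P.pr g z) {ω : Ω}
    (h : 0 < (P.cond g z).w ω) : 0 < P.w ω ∧ g ω = z := by
  rw [P.cond_w g z hz] at h
  by_cases hg : g ω = z
  · rw [if_pos hg] at h
    refine ⟨?_, hg⟩
    by_contra hc
    have : P.w ω = 0 := le_antisymm (not_lt.1 hc) (P.nn ω)
    rw [this, zero_div] at h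
    exact lt_irrefl _ h
  · rw [if_neg hg] at h
    exact absurd h (lt_irrefl _)

/-- averaging an inequality over the values of `g` -/
theorem avg_le {P : Law Ω} {g : Ω → γ} {f h : γ → ℝ} (H : ∀ z, 0 < P.pr g z → f z ≤ h z) :
    ∑ z ∈ img g, P.pr g z * f z ≤ ∑ z ∈ img g, P.pr g z * h z := by
  refine Finset.sum_le_sum fun z _ => ?_
  rcases (P.pr_nonneg g z).eq_or_lt with h0 | h0
  · rw [← h0]; simp
  · exact mul_le_mul_of_nonneg_left (H z h0) h0.le

/-- **strict submodularity**, abstract form: `J` is almost a function of `X` and of `X'`, and `M` is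
almost a function of `(X, X')` -/
theorem core (Q : Law Ω) (X : Ω → α) (X' : Ω → β) (J : Ω → γ) (M : Ω → δ) (l : Ω → ε) (D : Ω → ζ)
    {c₁ c₂ c₃ : ℝ} (h1 : hc Q J (fun ω => (X ω, D ω)) ≤ c₁) (h2 : hc Q J (fun ω => (X' ω, D ω)) ≤ c₂)
    (h3 : hc Q M (fun ω => (X ω, X' ω, D ω)) ≤ c₃) :
    hc Q l (fun ω => (X ω, D ω)) + hc Q l (fun ω => (X' ω, D ω)) ≤
      hc Q l (fun ω => (M ω, D ω)) + hc Q l (fun ω => (J ω, D ω)) +
        mi Q X X' (fun ω => (l ω, D ω)) + (c₁ + c₂ + c₃) := by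
  -- symmetric forms of the information
  have a1 := mi_symm Q l X D
  have a2 := mi_symm Q l X' D
  have a3 := mi_symm Q l (fun ω => (X ω, X' ω)) D
  have a4 := mi_symm Q l J D
  have a5 := mi_symm Q X J D
  have a6 := mi_symm Q X' J D
  unfold mi at a1 a2 a3 a4 a5 a6
  -- subadditivity
  have b1 := hc_pair Q X X' (fun ω => (l ω, D ω))
  have b2 := mi_symm Q X X' (fun ω => (l ω, D ω))
  have b3 := hc_pair Q J (fun ω => (X ω, X' ω)) D
  have b4 := hc_pair Q X X' (fun ω => (J ω, D ω))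
  have b5 : hc Q (fun ω => (X ω, X' ω)) D ≤ hc Q (fun ω => (J ω, X ω, X' ω)) D :=
    hc_mono_left Q (by
      intro ω ω' _ _ e
      simp only [Prod.mk.injEq] at e ⊢
      exact e.1.2)
  have b6 : hc Q X' (fun ω => (X ω, J ω, D ω)) ≤ hc Q X' (fun ω => (J ω, D ω)) :=
    hc_mono_right Q X' (fun ω ω' _ _ e => congrArg Prod.snd e)
  have b7 : hc Q l (fun ω => ((X ω, X' ω), D ω)) = hc Q l (fun ω => (X ω, X' ω, D ω)) := by
    refine hc_congr Q (fun ω ω' _ _ e => congrArg Prod.fst e)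
      (fun ω ω' _ _ e => congrArg Prod.fst e) ?_ ?_ <;>
    · intro ω ω' _ _
      simp only [Prod.mk.injEq]
      tauto
  have b8 := hc_le_add' Q l M (fun ω => (X ω, X' ω, D ω))
  have b9 : hc Q l (fun ω => (M ω, X ω, X' ω, D ω)) ≤ hc Q l (fun ω => (M ω, D ω)) :=
    hc_mono_right Q l (by
      intro ω ω' _ _
      simp only [Prod.mk.injEq]
      tauto)
  have b10 := hc_nonneg Q J (fun ω => (l ω, D ω))
  unfold mi at b2 ⊢
  simp only [] at a1 a2 a3 a4 a5 a6 b1 b2 b3 b4 b5 b6 b7 b8 b9 b10 ⊢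
  linarith

/-- adding a variable to the condition -/
theorem add_cond (P : Law Ω) (X : Ω → α) (Y : Ω → β) (G : Ω → γ) :
    hc P X Y ≤ hc P X (fun ω => (G ω, Y ω)) + P.H G := by
  have := hc_le_add' P X G Y
  have := hc_le_H P G Y
  linarith

/-- adding a variable to the condition of an information -/
theorem mi_add_cond (P : Law Ω) (X : Ω → α) (X' : Ω → β) (Z : Ω → γ) (G : Ω → δ) :
    mi P X X' (fun ω => (G ω, Z ω)) ≤ mi P X X' Z + P.H G := by
  have h1 := mi_pair P X X' G Z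
  have h2 := mi_pair P X G X' Z
  have h3 : mi P X (fun ω => (X' ω, G ω)) Z = mi P X (fun ω => (G ω, X' ω)) Z := by
    refine le_antisymm (mi_mono_right P X ?_) (mi_mono_right P X ?_) <;>
    · intro ω ω' _ _
      simp only [Prod.mk.injEq]
      tauto
  have h4 := mi_nonneg P X G Z
  have h5 := mi_le_hc' P X G (fun ω => (X' ω, Z ω))
  have h6 := hc_le_H P G (fun ω => (X' ω, Z ω))
  linarith

end ent

/-- floors of numbers at distance `≤ 2^-s` have three possible values -/
theorem fl1_three {s : ℕ} {x y : ℝ} (h : |x - y| ≤ (1 / 2 : ℝ) ^ s) : |fl1 s x - fl1 s y| ≤ 1 := by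
  have h2 : (0:ℝ) < 2 ^ s := by positivity
  have h3 : |(2:ℝ) ^ s * x - 2 ^ s * y| ≤ 1 := by
    rw [← mul_sub, abs_mul, abs_of_pos h2]
    calc (2:ℝ) ^ s * |x - y| ≤ 2 ^ s * (1 / 2 : ℝ) ^ s := mul_le_mul_of_nonneg_left h h2.le
      _ = 1 := by rw [← mul_pow]; norm_num
  unfold fl1
  have h4 := abs_le.1 h3
  have e1 := Int.floor_le ((2:ℝ) ^ s * x)
  have e2 := Int.lt_floor_add_one ((2:ℝ) ^ s * x)
  have e3 := Int.floor_le ((2:ℝ) ^ s * y)
  have e4 := Int.lt_floor_add_one ((2:ℝ) ^ s * y)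
  rw [abs_le]
  constructor
  · have : (⌊(2:ℝ) ^ s * y⌋ : ℝ) < ⌊(2:ℝ) ^ s * x⌋ + 2 := by linarith [h4.1]
    have : ⌊(2:ℝ) ^ s * y⌋ < ⌊(2:ℝ) ^ s * x⌋ + 2 := by exact_mod_cast this
    omega
  · have : (⌊(2:ℝ) ^ s * x⌋ : ℝ) < ⌊(2:ℝ) ^ s * y⌋ + 2 := by linarith [h4.2]
    have : ⌊(2:ℝ) ^ s * x⌋ < ⌊(2:ℝ) ^ s * y⌋ + 2 := by exact_mod_cast this
    omega

theorem fl1_coarse {m n : ℕ} (h : m ≤ n) {x y : ℝ} (e : fl1 n x = fl1 n y) : fl1 m x = fl1 m y := by
  have h1 := fl_of_fl (ι := Unit) h (fun _ => x) (fun _ => y) (by funext i; exact e)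
  exact congrFun h1 ()

/-- the score inequality on the event -/
theorem sc_ineq {lam : ℝ} (h0 : 0 ≤ lam) (h1 : lam ≤ 1) (A A' : Sh) (s m : ℕ)
    (hp : A'.p = A.p) (hr : A'.r = A.r) :
    sc lam A + sc lam A' + (2 * lam * ((A.r : ℝ) - A.p - s) - (1 + lam) * ((m : ℝ) - s)) ≤
      sc lam ⟨max A.p (A.r - (m + 3)), A.r, A.v⟩ + sc lam ⟨A.p, A.p + s, A.v⟩ + 6 := by
  unfold sc
  simp only [hp, hr]
  have h2 : (A.r : ℝ) - m - 3 ≤ ((max A.p (A.r - (m + 3)) : ℕ) : ℝ) := by
    have h3 : A.r ≤ max A.p (A.r - (m + 3)) + (m + 3) := by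
      have := le_max_right A.p (A.r - (m + 3))
      omega
    have h4 : (A.r : ℝ) ≤ ((max A.p (A.r - (m + 3)) : ℕ) : ℝ) + ((m : ℝ) + 3) := by exact_mod_cast h3
    linarith
  push_cast at h2 ⊢
  nlinarith [mul_le_mul_of_nonneg_left h2 (show (0:ℝ) ≤ 1 + lam by linarith)]

end Subs

open Subs in
/-- **SUBS** -/
theorem pSubs_of (hC : PCmp) (hM : PMeet) : PSubs := by
  obtain ⟨c₁, hc₁, hC⟩ := hC
  obtain ⟨c₂, hc₂, hM⟩ := hM
  have hl3 : (0:ℝ) ≤ Real.log (3 : ℕ) := Real.log_nonneg (by norm_num)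
  have hl2 : (0:ℝ) ≤ Real.log 2 := Real.log_nonneg (by norm_num)
  refine ⟨c₁ + (c₁ + Real.log (3 : ℕ)) + c₂ + 6 * Real.log 2, by positivity, ?_⟩
  intro lam h0 h1 Ω _ P l t γ C a A A' g s m hyp
  set M : Ω → Sh := fun ω => if g ω then ⟨max (A ω).p ((A ω).r - (m ω + 3)), (A ω).r, (A ω).v⟩ else A ω
    with hMdef
  set J : Ω → Sh := fun ω => if g ω then ⟨(A ω).p, (A ω).p + s ω, (A ω).v⟩ else A' ω with hJdef
  set X : Ω → Lb := fun ω => dl a (A ω) (l ω) (t ω) with hX
  set X' : Ω → Lb := fun ω => dl a (A' ω) (l ω) (t ω) with hX'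
  set Y : Ω → Lb := fun ω => dl a (J ω) (l ω) (t ω) with hY
  set W : Ω → Lb := fun ω => dl a (M ω) (l ω) (t ω) with hW
  set D : Ω → γ × ℕ × ℕ := fun ω => (C ω, s ω, m ω) with hD
  set G : Ω → Bool × ℕ × ℕ := fun ω => (g ω, s ω, m ω) with hG
  set c : ℝ := c₁ + (c₁ + Real.log (3 : ℕ)) + c₂ with hcdef
  have hc0 : 0 ≤ c := by positivity
  -- the inequality for the conditional laws
  have key : ∀ z : Bool, 0 < P.pr g z →
      hc (P.cond g z) l (fun ω => (X ω, D ω)) + hc (P.cond g z) l (fun ω => (X' ω, D ω)) ≤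
      hc (P.cond g z) l (fun ω => (W ω, D ω)) + hc (P.cond g z) l (fun ω => (Y ω, D ω)) +
        mi (P.cond g z) X X' (fun ω => (l ω, D ω)) + c := by
    intro z hz
    set Q := P.cond g z with hQ
    cases z with
    | false =>
      have e1 : hc Q l (fun ω => (X ω, D ω)) = hc Q l (fun ω => (W ω, D ω)) := by
        refine hc_congr Q (fun ω ω' _ _ e => congrArg Prod.fst e)
          (fun ω ω' _ _ e => congrArg Prod.fst e) ?_ ?_ <;>
        · intro ω ω' p p'
          obtain ⟨-, e1⟩ := cond_pos hz p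
          obtain ⟨-, e2⟩ := cond_pos hz p'
          simp only [hW, hX, hMdef, e1, e2]
          exact id
      have e2 : hc Q l (fun ω => (X' ω, D ω)) = hc Q l (fun ω => (Y ω, D ω)) := by
        refine hc_congr Q (fun ω ω' _ _ e => congrArg Prod.fst e)
          (fun ω ω' _ _ e => congrArg Prod.fst e) ?_ ?_ <;>
        · intro ω ω' p p'
          obtain ⟨-, e1⟩ := cond_pos hz p
          obtain ⟨-, e2⟩ := cond_pos hz p'
          simp only [hY, hX', hJdef, e1, e2]
          exact id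
      have e3 := mi_nonneg Q X X' (fun ω => (l ω, D ω))
      rw [e1, e2]
      linarith
    | true =>
      have hyp' : ∀ ω, 0 < Q.w ω → g ω = true ∧ a ≤ (A ω).p ∧ (A ω).p ≤ (A ω).r ∧
          (A' ω).p = (A ω).p ∧ (A' ω).r = (A ω).r ∧ (A ω).p + s ω ≤ (A ω).r ∧
          |(A ω).v - (A' ω).v| ≤ (1 / 2 : ℝ) ^ s ω ∧
          (m ω + 3 < (A ω).r - (A ω).p → (1 / 2 : ℝ) ^ (m ω + 1) < |(A ω).v - (A' ω).v|) := by
        intro ω p
        obtain ⟨p1, e1⟩ := cond_pos hz p
        obtain ⟨q1, q2, q3, q4, q5⟩ := hyp ω p1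
        obtain ⟨q6, q7, q8⟩ := q5 e1
        exact ⟨e1, q1, q2, q3, q4, q6, q7, q8⟩
      refine core Q X X' Y W l D (c₁ := c₁) (c₂ := c₁ + Real.log (3 : ℕ)) (c₃ := c₂) ?_ ?_ ?_
      · -- `J` from `A`
        have k1 := hC Ω Q l t (γ × ℕ × ℕ) D a 0 A J (by
          intro ω p
          obtain ⟨e, q1, q2, q3, q4, q5, q6, q7⟩ := hyp' ω p
          simp only [hJdef, e, if_true]
          refine ⟨q1, by omega, by omega, by omega, q2, ?_⟩
          rw [sub_self, abs_zero]
          positivity)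
        refine le_trans (hc_mono_right Q Y ?_) k1
        intro ω ω' p p' e
        obtain ⟨g1, q1, q2, q3, q4, q5, q6, q7⟩ := hyp' ω p
        obtain ⟨g1', q1', q2', q3', q4', q5', q6', q7'⟩ := hyp' ω' p'
        simp only [Prod.mk.injEq, hD, hX] at e ⊢
        obtain ⟨e1, e2, e3, e4⟩ := e
        have e1' := e1
        simp only [dl, Prod.mk.injEq] at e1'
        obtain ⟨f1, f2, f3, f4, -⟩ := e1'
        simp only [hJdef, g1, g1', if_true]
        refine ⟨e1, ⟨f1, by omega, ?_⟩, e2, e3, e4⟩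
        have n1 : (A ω).p + s ω - (A ω).p = s ω := by omega
        have n2 : (A ω').p + s ω' - (A ω').p = s ω' := by omega
        rw [n1, n2, ← e3]
        rw [← f1, ← f2] at f4
        exact fl1_coarse (by omega) f4
      · -- `J` from `A'`
        have k1 := hC Ω Q l t (γ × ℕ × ℕ) D a 0 A' J (by
          intro ω p
          obtain ⟨e, q1, q2, q3, q4, q5, q6, q7⟩ := hyp' ω p
          simp only [hJdef, e, if_true]
          refine ⟨q1, by omega, by omega, by omega, by omega, ?_⟩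
          have n1 : (A ω).p + s ω - (A ω).p = s ω := by omega
          rw [n1, abs_sub_comm]
          exact q6)
        have k2 := hc_le_add' Q Y (fun ω => fl1 (s ω) (A ω).v) (fun ω => (X' ω, D ω))
        have k3 : hc Q (fun ω => fl1 (s ω) (A ω).v) (fun ω => (X' ω, D ω)) ≤ Real.log (3 : ℕ) := by
          refine hc_le_log Q _ _ 3 fun ω p => ?_
          refine ⟨Finset.Icc (fl1 (s ω) (A' ω).v - 1) (fl1 (s ω) (A' ω).v + 1), ?_, ?_⟩
          · rw [Int.card_Icc]; omega
          · intro ω' p' e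
            obtain ⟨g1, q1, q2, q3, q4, q5, q6, q7⟩ := hyp' ω p
            obtain ⟨g1', q1', q2', q3', q4', q5', q6', q7'⟩ := hyp' ω' p'
            simp only [Prod.mk.injEq, hD, hX', dl] at e
            obtain ⟨⟨f1, f2, f3, f4, -⟩, e2, e3, e4⟩ := e
            have n1 : (A' ω').r - (A' ω').p = (A' ω).r - (A' ω).p := by rw [f1, f2]
            rw [n1] at f4
            have n2 := fl1_coarse (m := s ω) (by omega) f4
            have n3 := fl1_three q6'
            rw [e3] at n3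
            rw [n2] at n3
            rw [Finset.mem_Icc]
            rw [e3]
            have n4 := abs_le.1 n3
            omega
        have k4 : hc Q Y (fun ω => (fl1 (s ω) (A ω).v, X' ω, D ω)) ≤ c₁ := by
          refine le_trans (hc_mono_right Q Y ?_) k1
          intro ω ω' p p' e
          obtain ⟨g1, q1, q2, q3, q4, q5, q6, q7⟩ := hyp' ω p
          obtain ⟨g1', q1', q2', q3', q4', q5', q6', q7'⟩ := hyp' ω' p'
          simp only [Prod.mk.injEq, hD, hX'] at e ⊢
          obtain ⟨e0, e1, e2, e3, e4⟩ := e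
          have e1' := e1
          simp only [dl, Prod.mk.injEq] at e1'
          obtain ⟨f1, f2, f3, f4, -⟩ := e1'
          simp only [hJdef, g1, g1', if_true]
          refine ⟨e1, ⟨by omega, by omega, ?_⟩, e2, e3, e4⟩
          have n1 : (A ω).p + s ω - (A ω).p = s ω := by omega
          have n2 : (A ω').p + s ω' - (A ω').p = s ω' := by omega
          rw [n1, n2]
          exact e0
        linarith
      · -- `M` from `(A, A')`
        have k1 := hM Ω Q l t (γ × ℕ × ℕ) D a A A' m (by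
          intro ω p
          obtain ⟨e, q1, q2, q3, q4, q5, q6, q7⟩ := hyp' ω p
          exact ⟨q1, q2, q3, q4, q7⟩)
        refine le_trans (le_of_eq ?_) k1
        refine hc_congr Q ?_ ?_ ?_ ?_
        · intro ω ω' p p' e
          obtain ⟨g1, -⟩ := hyp' ω p
          obtain ⟨g1', -⟩ := hyp' ω' p'
          simp only [Prod.mk.injEq] at e
          simp only [hW, hMdef, g1, g1', if_true]
          exact e.1
        · intro ω ω' p p' e
          obtain ⟨g1, -⟩ := hyp' ω p
          obtain ⟨g1', -⟩ := hyp' ω' p'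
          simp only [Prod.mk.injEq, hW, hMdef, g1, g1', if_true] at e
          exact e.1
        · intro ω ω' p p' e
          simp only [Prod.mk.injEq, hX, hX', hD] at e ⊢
          tauto
        · intro ω ω' p p' e
          simp only [Prod.mk.injEq, hX, hX', hD] at e ⊢
          tauto
  -- average
  have avg : hc P l (fun ω => ((X ω, D ω), g ω)) + hc P l (fun ω => ((X' ω, D ω), g ω)) ≤
      hc P l (fun ω => ((W ω, D ω), g ω)) + hc P l (fun ω => ((Y ω, D ω), g ω)) +
        mi P X X' (fun ω => ((l ω, D ω), g ω)) + c := by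
    rw [Subs.hc_cond, Subs.hc_cond, Subs.hc_cond, Subs.hc_cond, Subs.mi_cond]
    have e1 : c = ∑ z ∈ img g, P.pr g z * c := by
      rw [← Finset.sum_mul, P.sum_pr_image, one_mul]
    rw [e1]
    simp only [← Finset.sum_add_distrib, ← mul_add]
    exact avg_le key
  -- remove `G` from the conditions
  have r1 : hc P l (fun ω => (X ω, C ω)) ≤ hc P l (fun ω => ((X ω, D ω), g ω)) + P.H G := by
    refine (add_cond P l _ G).trans (add_le_add_left (le_of_eq ?_) _)
    refine hc_congr P (fun ω ω' _ _ e => congrArg Prod.fst e)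
      (fun ω ω' _ _ e => congrArg Prod.fst e) ?_ ?_ <;>
    · intro ω ω' _ _
      simp only [Prod.mk.injEq, hG, hD]
      tauto
  have r2 : hc P l (fun ω => (X' ω, C ω)) ≤ hc P l (fun ω => ((X' ω, D ω), g ω)) + P.H G := by
    refine (add_cond P l _ G).trans (add_le_add_left (le_of_eq ?_) _)
    refine hc_congr P (fun ω ω' _ _ e => congrArg Prod.fst e)
      (fun ω ω' _ _ e => congrArg Prod.fst e) ?_ ?_ <;>
    · intro ω ω' _ _
      simp only [Prod.mk.injEq, hG, hD]
      tauto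
  have r3 : hc P l (fun ω => ((W ω, D ω), g ω)) ≤ hc P l (fun ω => (W ω, C ω)) :=
    hc_mono_right P l (by
      intro ω ω' _ _
      simp only [Prod.mk.injEq, hD]
      tauto)
  have r4 : hc P l (fun ω => ((Y ω, D ω), g ω)) ≤ hc P l (fun ω => (Y ω, C ω)) :=
    hc_mono_right P l (by
      intro ω ω' _ _
      simp only [Prod.mk.injEq, hD]
      tauto)
  have r5 : mi P X X' (fun ω => ((l ω, D ω), g ω)) ≤ mi P X X' (fun ω => (l ω, C ω, g ω)) + P.H G := by
    refine le_trans (le_of_eq ?_) (mi_add_cond P X X' (fun ω => (l ω, C ω, g ω)) G)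
    refine mi_congr_cond P X X' ?_ ?_ <;>
    · intro ω ω' _ _
      simp only [Prod.mk.injEq, hG, hD]
      tauto
  -- the scores
  have s1 : (P.ex fun ω => sc lam (A ω)) + (P.ex fun ω => sc lam (A' ω)) +
      P.ex (fun ω => if g ω then 2 * lam * (((A ω).r : ℝ) - (A ω).p - s ω) -
          (1 + lam) * ((m ω : ℝ) - s ω) else 0) ≤
      (P.ex fun ω => sc lam (M ω)) + (P.ex fun ω => sc lam (J ω)) + 6 := by
    rw [← P.ex_add, ← P.ex_add, ← P.ex_add]
    have e6 : (6:ℝ) = P.ex fun _ => 6 := (P.ex_const 6).symm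
    rw [e6, ← P.ex_add]
    refine P.ex_mono fun ω hω => ?_
    obtain ⟨q1, q2, q3, q4, q5⟩ := hyp ω hω
    simp only [hMdef, hJdef]
    by_cases hg : g ω = true
    · simp only [hg, if_true]
      exact sc_ineq h0 h1 (A ω) (A' ω) (s ω) (m ω) q3 q4
    · simp [hg]
  unfold val
  have s2 := mul_le_mul_of_nonneg_left s1 hl2
  simp only [mul_add] at s2
  linarith

end Vale.Agent.P127.S
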